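import Vale.Agent.P167.H638.L7
import Vale.Agent.P167.H327.Disc
import Vale.Agent.P167.CA.Defs

/-!
# P167, block LAYER: statements of the remaining inputs and of the output
-/

namespace Vale.Agent.P167.H638.L

open Finset Filter Topology MeasureTheory
open Vale.Agent.P167.H825 (dv dvg domP enl pdir Box)
open Vale.Agent.P167.H327 (fl)
open Vale.Agent.P167.E6 (IsPolygon Encloses dir)
open Vale.Agent.P167.BVP (Test)
open scoped ContDiff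

/-- **Cut-off along the lines of the pinwheel** (widths `w`, strips `T`): the lattice flow of
`(1 - χ) φ` and its divergence. `cel T L` = cells of the grid of mesh `L` met by `T` (`L2.lean`). -/
def S_strip : Prop :=
  ∀ (b : Box) (φ₁ φ₂ : ℝ × ℝ → ℝ), ContDiff ℝ ∞ φ₁ → ContDiff ℝ ∞ φ₂ → HasCompactSupport φ₁ →
    HasCompactSupport φ₂ → ∃ B Q : ℝ, 0 < B ∧ 0 < Q ∧ ∀ w : ℝ, 0 < w → w ≤ 1 →
    ∃ χ : ℝ × ℝ → ℝ, ContDiff ℝ ∞ χ ∧ (∀ x, 0 ≤ χ x ∧ χ x ≤ 1) ∧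
      b.lines ⊆ interior {x | χ x = 0} ∧
      (∀ x, χ x ≠ 1 → |x.1 - b.xl| ≤ 3 * w ∨ |x.1 - b.xr| ≤ 3 * w ∨ |x.2 - b.yb| ≤ 3 * w ∨
        |x.2 - b.yt| ≤ 3 * w) ∧
      ∀ n : ℕ, 1 ≤ w * n → ∃ T : Finset (ℤ × ℤ),
        (∀ e, fl (fun x => (1 - χ x) * φ₁ x) (fun x => (1 - χ x) * φ₂ x) (1 / n) e ≠ 0 →
          hdv e ∈ T) ∧
        (∀ z, dv (fl (fun x => (1 - χ x) * φ₁ x) (fun x => (1 - χ x) * φ₂ x) (1 / n)) z ≠ 0 →
          z ∈ T) ∧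
        (∀ e, |fl (fun x => (1 - χ x) * φ₁ x) (fun x => (1 - χ x) * φ₂ x) (1 / n) e| ≤ B / n) ∧
        (∀ z, |dv (fl (fun x => (1 - χ x) * φ₁ x) (fun x => (1 - χ x) * φ₂ x) (1 / n)) z| ≤
          B / (w * n ^ 2)) ∧
        (∀ L : ℤ, 1 ≤ L → (L : ℝ) ≤ n → ((cel T L).card : ℝ) * L ^ 2 ≤ Q * n * (w * n + L)) ∧
        (∀ (x : ℤ × ℤ) (r : ℤ), 1 ≤ r →
          ((T.filter fun v => nm (v - x) ≤ r).card : ℝ) ≤ Q * r * min (r : ℝ) (w * n))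

/-- **Geometry of the enlarged polygons** (helper167's hypotheses at all scales up to `c n`). -/
def S_geo : Prop :=
  ∀ (l : ℕ) [NeZero l] (p : ZMod l → ℤ × ℤ) (S₀ : Finset (ℤ × ℤ)), IsPolygon p → Encloses p S₀ →
  ∀ tp : ℝ, 0 < tp → tp < 1 → ∃ (K : ℤ) (c : ℝ), 0 < c ∧ ∀ᶠ n : ℕ in atTop,
    H167.Geo K ⌊c * n⌋ (enl S₀ n) ((n : ℤ) • p 0 + (⌊tp * n⌋₊ : ℤ) • dir (pdir p 0))

/-- The open box. -/
def obox (b : Box) : Set ℂ := {z | b.xl < z.re ∧ z.re < b.xr ∧ b.yb < z.im ∧ z.im < b.yt}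

/-- **Output: (2a) for all neutral charges and all `ψ` in a box in general position.** -/
def S_2a : Prop :=
  ∀ (S : CA.Dat) (f : ℂ → ℝ), S.FF f → ∀ b : Box, b.Ok S.Q →
    (∀ i : ℤ, ∀ y ∈ ({b.xl, b.xr, b.yb, b.yt} : Set ℝ), y ≠ i + S.tp ∧ y ≠ i - S.tp) →
    ∀ ψ : ℂ → ℝ, Test (obox b) ψ → ∀ s : ℝ,
    Tendsto (fun n : ℕ => S.V n (fun z => f z + s * P198W.lap ψ z) -
      Real.exp (CA.sc * s * (∫ z, f z * ψ z) -
        CA.sc / 2 * s ^ 2 * ∫ z, ((fderiv ℝ ψ z 1) ^ 2 + (fderiv ℝ ψ z Complex.I) ^ 2)) *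
      S.V n f) atTop (𝓝 0)

/-- From the output to helper212's input (with helper542's `two_a_mom`). -/
def S_mom : Prop := S_2a → CA.I_M2 → CA.I_MOM

end Vale.Agent.P167.H638.L
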