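import Vale.Agent.P167.H638.Green

/-!
P167, block C: discretisation of a continuous charge by the cells of a square grid.
-/

namespace Vale.Agent.P167.H638

open MeasureTheory Real Set Filter Topology

/-- The cell of the site `s` at scale `δ`. -/
def cl (δ : ℝ) (s : ℤ × ℤ) : Set (ℝ × ℝ) := {x | ⌊x.1 / δ⌋ = s.1 - 1 ∧ ⌊x.2 / δ⌋ = s.2 - 1}

lemma measurableSet_cl (δ : ℝ) (s : ℤ × ℤ) : MeasurableSet (cl δ s) := by
  have h1 : Measurable (fun x : ℝ × ℝ => ⌊x.1 / δ⌋) :=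
    Int.measurable_floor.comp (measurable_fst.div_const δ)
  have h2 : Measurable (fun x : ℝ × ℝ => ⌊x.2 / δ⌋) :=
    Int.measurable_floor.comp (measurable_snd.div_const δ)
  exact (h1 (measurableSet_singleton _)).inter (h2 (measurableSet_singleton _))

lemma cl_eq {δ : ℝ} (hδ : 0 < δ) (s : ℤ × ℤ) :
    cl δ s = Set.Ico (δ * ((s.1 : ℝ) - 1)) (δ * s.1) ×ˢ
      Set.Ico (δ * ((s.2 : ℝ) - 1)) (δ * s.2) := by
  ext x
  simp only [cl, Set.mem_ofPred_eq, Set.mem_prod, Set.mem_Ico, Int.floor_eq_iff, Int.cast_sub,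
    Int.cast_one, le_div_iff₀ hδ, div_lt_iff₀ hδ]
  constructor
  · rintro ⟨⟨a, b⟩, c, d⟩
    refine ⟨⟨by linarith, by nlinarith⟩, by linarith, by nlinarith⟩
  · rintro ⟨⟨a, b⟩, c, d⟩
    refine ⟨⟨by linarith, by nlinarith⟩, by linarith, by nlinarith⟩

lemma vol_cl {δ : ℝ} (hδ : 0 < δ) (s : ℤ × ℤ) : volume (cl δ s) = ENNReal.ofReal (δ ^ 2) := by
  rw [cl_eq hδ, Measure.volume_eq_prod, Measure.prod_prod, Real.volume_Ico, Real.volume_Ico,
    ← ENNReal.ofReal_mul (by nlinarith)]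
  congr 1
  ring

/-- The mass of a cell. -/
noncomputable def cm (F : ℝ × ℝ → ℝ) (δ : ℝ) (s : ℤ × ℤ) : ℝ := ∫ x in cl δ s, F x

lemma cm_ne {F : ℝ × ℝ → ℝ} {δ : ℝ} {s : ℤ × ℤ} (h : cm F δ s ≠ 0) : ∃ x ∈ cl δ s, F x ≠ 0 := by
  by_contra hcon
  push Not at hcon
  apply h
  unfold cm
  exact setIntegral_eq_zero_of_forall_eq_zero hcon

lemma cm_nonneg {F : ℝ × ℝ → ℝ} (hF : ∀ x, 0 ≤ F x) (δ : ℝ) (s : ℤ × ℤ) : 0 ≤ cm F δ s :=
  setIntegral_nonneg (measurableSet_cl δ s) fun x _ => hF x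

lemma cm_le {F : ℝ × ℝ → ℝ} {M : ℝ} (hM : ∀ x, F x ≤ M) {δ : ℝ} (hδ : 0 < δ)
    (s : ℤ × ℤ) (hi : Integrable F) : cm F δ s ≤ M * δ ^ 2 := by
  have hv : volume.real (cl δ s) = δ ^ 2 := by
    rw [Measure.real, vol_cl hδ, ENNReal.toReal_ofReal (by positivity)]
  have hfin : volume (cl δ s) ≠ ⊤ := by rw [vol_cl hδ]; exact ENNReal.ofReal_ne_top
  have h1 : ∫ x in cl δ s, F x ≤ ∫ x in cl δ s, M :=
    setIntegral_mono_on hi.integrableOn (integrableOn_const hfin) (measurableSet_cl δ s)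
      fun x _ => hM x
  rw [setIntegral_const, hv, smul_eq_mul] at h1
  unfold cm
  linarith

/-- A finite set of cells which covers the support. -/
lemma exists_cells {F : ℝ × ℝ → ℝ} (hs : HasCompactSupport F) {δ : ℝ} (hδ : 0 < δ) :
    ∃ B : Finset (ℤ × ℤ), ∀ x, F x ≠ 0 → (⌊x.1 / δ⌋, ⌊x.2 / δ⌋) ∈ B := by
  obtain ⟨R, hR⟩ := hs.isCompact.isBounded.subset_closedBall (0 : ℝ × ℝ)
  refine ⟨(Finset.Icc ⌊-R / δ⌋ ⌊R / δ⌋) ×ˢ (Finset.Icc ⌊-R / δ⌋ ⌊R / δ⌋), fun x hx => ?_⟩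
  have h1 := hR (subset_tsupport F hx)
  rw [mem_closedBall_zero_iff, Prod.norm_def, sup_le_iff, Real.norm_eq_abs, Real.norm_eq_abs,
    abs_le, abs_le] at h1
  rw [Finset.mem_product, Finset.mem_Icc, Finset.mem_Icc]
  refine ⟨⟨?_, ?_⟩, ?_, ?_⟩
  · exact Int.floor_le_floor (div_le_div_of_nonneg_right h1.1.1 hδ.le)
  · exact Int.floor_le_floor (div_le_div_of_nonneg_right h1.1.2 hδ.le)
  · exact Int.floor_le_floor (div_le_div_of_nonneg_right h1.2.1 hδ.le)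
  · exact Int.floor_le_floor (div_le_div_of_nonneg_right h1.2.2 hδ.le)

/-- The support of the cell masses is finite. -/
lemma cm_finite {F : ℝ × ℝ → ℝ} (hs : HasCompactSupport F) {δ : ℝ} (hδ : 0 < δ) :
    (Function.support (cm F δ)).Finite := by
  obtain ⟨B, hB⟩ := exists_cells hs hδ
  refine (B.image (fun s : ℤ × ℤ => (s.1 + 1, s.2 + 1))).finite_toSet.subset fun s hs' => ?_
  obtain ⟨x, hx, hF⟩ := cm_ne hs'
  have h1 := hB x hF
  rw [Finset.mem_coe, Finset.mem_image]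
  refine ⟨_, h1, ?_⟩
  have h2 : ⌊x.1 / δ⌋ = s.1 - 1 := hx.1
  have h3 : ⌊x.2 / δ⌋ = s.2 - 1 := hx.2
  simp only [h2, h3, sub_add_cancel]

/-- Integral of a function against a function which is constant on the cells. -/
theorem cell_sum {F : ℝ × ℝ → ℝ} (hi : Integrable F) (hs : HasCompactSupport F) {δ : ℝ}
    (hδ : 0 < δ) (g : ℤ × ℤ → ℝ) :
    ∫ x : ℝ × ℝ, g (⌊x.1 / δ⌋, ⌊x.2 / δ⌋) * F x =
      ∑ᶠ s : ℤ × ℤ, cm F δ (s.1 + 1, s.2 + 1) * g s := by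
  obtain ⟨B, hB⟩ := exists_cells hs hδ
  have hcl : ∀ (x : ℝ × ℝ) (s : ℤ × ℤ), x ∈ cl δ (s.1 + 1, s.2 + 1) ↔
      (⌊x.1 / δ⌋, ⌊x.2 / δ⌋) = s := by
    intro x s
    simp only [cl, Set.mem_ofPred_eq, add_sub_cancel_right, Prod.ext_iff]
  have h1 : ∀ x : ℝ × ℝ, g (⌊x.1 / δ⌋, ⌊x.2 / δ⌋) * F x =
      ∑ s ∈ B, (cl δ (s.1 + 1, s.2 + 1)).indicator (fun x => g s * F x) x := by
    intro x
    by_cases hx : F x = 0
    · rw [hx, mul_zero]
      symm
      refine Finset.sum_eq_zero fun s _ => ?_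
      by_cases hm : x ∈ cl δ (s.1 + 1, s.2 + 1)
      · rw [Set.indicator_of_mem hm, hx, mul_zero]
      · rw [Set.indicator_of_notMem hm]
    · rw [Finset.sum_eq_single (⌊x.1 / δ⌋, ⌊x.2 / δ⌋)]
      · rw [Set.indicator_of_mem ((hcl x _).2 rfl)]
      · intro s _ hne
        rw [Set.indicator_of_notMem]
        intro hm
        exact hne ((hcl x s).1 hm).symm
      · intro hm
        exact absurd (hB x hx) hm
  simp only [h1]
  rw [integral_finsetSum _ fun s _ => (hi.const_mul (g s)).indicator (measurableSet_cl _ _)]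
  rw [finsum_eq_sum_of_support_subset (s := B)]
  · refine Finset.sum_congr rfl fun s _ => ?_
    rw [integral_indicator (measurableSet_cl _ _), integral_const_mul, mul_comm]
    rfl
  · intro s hs'
    have h2 : cm F δ (s.1 + 1, s.2 + 1) ≠ 0 := left_ne_zero_of_mul hs'
    obtain ⟨x, hx, hF⟩ := cm_ne h2
    have h3 := hB x hF
    rw [(hcl x s).1 hx] at h3
    exact h3

/-- The total mass of the cells. -/
lemma cm_sum {F : ℝ × ℝ → ℝ} (hi : Integrable F) (hs : HasCompactSupport F) {δ : ℝ}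
    (hδ : 0 < δ) : ∑ᶠ s : ℤ × ℤ, cm F δ s = ∫ x, F x := by
  have h1 := cell_sum hi hs hδ (fun _ => 1)
  simp only [one_mul, mul_one] at h1
  rw [h1]
  let e : (ℤ × ℤ) ≃ (ℤ × ℤ) :=
    { toFun := fun s => (s.1 + 1, s.2 + 1)
      invFun := fun s => (s.1 - 1, s.2 - 1)
      left_inv := fun s => by simp
      right_inv := fun s => by simp }
  exact (finsum_comp_equiv e (f := cm F δ)).symm

lemma cm_lin {J : ℕ} (b : Fin J → ℝ) (F : Fin J → ℝ × ℝ → ℝ) (hi : ∀ j, Integrable (F j)) (δ : ℝ)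
    (s : ℤ × ℤ) : cm (fun x => ∑ j, b j * F j x) δ s = ∑ j, b j * cm (F j) δ s := by
  unfold cm
  rw [integral_finsetSum _ fun j _ => ((hi j).const_mul (b j)).integrableOn]
  refine Finset.sum_congr rfl fun j _ => ?_
  rw [integral_const_mul]

end Vale.Agent.P167.H638
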