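import Vale.Agent.P167.H638.L13
import Vale.Agent.P167.H192.LY.Strip
import Vale.Agent.P167.CA.Mom

/-!
# P167, block LAYER: the output, `S2aQ` gives the first moments
-/

namespace Vale.Agent.P167.H638.L

open Vale.Agent.P167.H825 (S2aQ)

/-- (2a) for all neutral charges. -/
theorem s_2a' (h2a : S2aQ) : S_2a := s_2a h2a H192.LY.s_strip

/-- **First moments from `S2aQ`.** -/
theorem i_mom (h2a : S2aQ) (hM : CA.I_M2) : CA.I_MOM := CA.s_mom (s_2a' h2a) hM

end Vale.Agent.P167.H638.L
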