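import Vale.Agent.P167.H638.L12

/-!
# P167, block LAYER: `S2aQ` and `S_strip` give `S_2a`
-/

namespace Vale.Agent.P167.H638.L

open Finset Filter Topology MeasureTheory
open Vale.Agent.P167.BR (VD)
open Vale.Agent.P167.H825 (dvg lapl domP pdir dirOf Box alp S2aQ)
open Vale.Agent.P167.E6 (dir)
open Vale.Agent.P167.BVP (Test)
open P198W (lap pd)
open scoped ContDiff

/-- A function of the plane in real coordinates. -/
def toR (f : ℂ → ℝ) : ℝ × ℝ → ℝ := fun x => f ⟨x.1, x.2⟩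

variable {f ψ : ℂ → ℝ}

theorem toR_comp (f : ℂ → ℝ) : toR f = f ∘ Complex.equivRealProdCLM.symm := rfl

theorem cms_eq (f : ℂ → ℝ) (δ : ℝ) (s : ℤ × ℤ) : CA.cms f δ s = H638.cm (toR f) δ s := by
  have h := Complex.volume_preserving_equiv_real_prod.setIntegral_preimage_emb
    Complex.measurableEquivRealProd.measurableEmbedding (toR f) (H638.cl δ s)
  exact h

theorem integral_toR (f : ℂ → ℝ) : ∫ z, f z = ∫ x, toR f x := by
  have h := Complex.volume_preserving_equiv_real_prod.integral_comp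
    Complex.measurableEquivRealProd.measurableEmbedding (toR f)
  exact h

theorem contDiff_toR (h : ContDiff ℝ ∞ f) : ContDiff ℝ ∞ (toR f) :=
  h.comp Complex.equivRealProdCLM.symm.contDiff

theorem tsupport_toR (f : ℂ → ℝ) : tsupport (toR f) =
    Complex.equivRealProdCLM.symm ⁻¹' tsupport f :=
  tsupport_comp_eq_preimage f Complex.equivRealProdCLM.symm.toHomeomorph

theorem hcs_toR (h : HasCompactSupport f) : HasCompactSupport (toR f) :=
  h.comp_homeomorph Complex.equivRealProdCLM.symm.toHomeomorph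

theorem fderiv_toR (f : ℂ → ℝ) (x v : ℝ × ℝ) :
    fderiv ℝ (toR f) x v = fderiv ℝ f ⟨x.1, x.2⟩ ⟨v.1, v.2⟩ := by
  rw [toR_comp, Complex.equivRealProdCLM.symm.comp_right_fderiv]
  rfl

theorem fderiv_toR1 (f : ℂ → ℝ) : (fun x => fderiv ℝ (toR f) x (1, 0)) = toR (pd 1 f) := by
  funext x
  rw [fderiv_toR]
  rfl

theorem fderiv_toR2 (f : ℂ → ℝ) : (fun x => fderiv ℝ (toR f) x (0, 1)) = toR (pd Complex.I f) := by
  funext x
  rw [fderiv_toR]
  rfl

theorem lapl_toR (ψ : ℂ → ℝ) : lapl (toR ψ) = toR (lap ψ) := by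
  funext x
  unfold lapl dvg
  rw [fderiv_toR1, fderiv_toR2]
  have h1 := congrFun (fderiv_toR1 (pd 1 ψ)) x
  have h2 := congrFun (fderiv_toR2 (pd Complex.I ψ)) x
  rw [h1, h2]
  rfl

theorem dirOf_dir : ∀ r : Fin 4, dirOf (dir r) = r := by decide

theorem pdir_zero (S : CA.Dat) : pdir S.p 0 = S.r := by
  unfold pdir
  rw [Nat.cast_zero, zero_add, S.step, add_sub_cancel_left, dirOf_dir]

/-- **(2a) for all neutral charges and all `ψ` in a box in general position.** -/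
theorem s_2a (h2a : S2aQ) (hs : S_strip) : S_2a := by
  intro S f hf b hb hgp ψ hψ s
  obtain ⟨⟨f1, f2, f3⟩, f4⟩ := hf
  obtain ⟨p1, p2, p3⟩ := hψ
  obtain ⟨φ₁, φ₂, h1, h2, s1, s2, t1, t2, he⟩ := H327.exists_dvg_domP S.poly S.enc
    (contDiff_toR f1) (hcs_toR f2) (by
      rw [tsupport_toR]
      exact Set.preimage_mono f3) (by rw [← integral_toR]; exact f4)
  have h := s2a_real (ψ := toR ψ) h2a hs S (pdir_zero S) hb hgp h1 h2 (contDiff_toR p1) s1 s2
    (hcs_toR p2) t1 t2 (by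
      rw [tsupport_toR]
      exact Set.preimage_mono p3) s
  have ha : Real.exp (CA.sc * s * (∫ z, f z * ψ z) -
        CA.sc / 2 * s ^ 2 * ∫ z, ((fderiv ℝ ψ z 1) ^ 2 + (fderiv ℝ ψ z Complex.I) ^ 2)) =
      alp (dvg φ₁ φ₂) (toR ψ) s := by
    unfold alp
    rw [← he]
    congr 1
    have e1 : ∫ x, toR f x * toR ψ x = ∫ z, f z * ψ z := (integral_toR fun z => f z * ψ z).symm
    have e2 : ∫ x, (fderiv ℝ (toR ψ) x (1, 0) ^ 2 + fderiv ℝ (toR ψ) x (0, 1) ^ 2) =
        ∫ z, ((fderiv ℝ ψ z 1) ^ 2 + (fderiv ℝ ψ z Complex.I) ^ 2) := by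
      rw [integral_toR]
      refine integral_congr_ae (Eventually.of_forall fun x => ?_)
      have g1 := congrFun (fderiv_toR1 ψ) x
      have g2 := congrFun (fderiv_toR2 ψ) x
      simp only at g1 g2 ⊢
      rw [g1, g2]
      rfl
    rw [e1, e2]
    unfold CA.sc
    ring
  rw [ha]
  refine h.congr fun n => ?_
  have v1 : S.V n (fun z => f z + s * lap ψ z) =
      VD (S.D n) (S.b n) (H638.cm (fun x => dvg φ₁ φ₂ x + s * lapl (toR ψ) x) (1 / n)) := by
    unfold CA.Dat.V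
    congr 1
    funext z
    rw [cms_eq, lapl_toR, ← he]
    rfl
  have v2 : S.V n f = VD (S.D n) (S.b n) (H638.cm (dvg φ₁ φ₂) (1 / n)) := by
    unfold CA.Dat.V
    congr 1
    funext z
    rw [cms_eq, ← he]
  rw [v1, v2]

end Vale.Agent.P167.H638.L
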