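import Vale.Agent.P167.H685.Flow

/-!
P167, general `q`: flows inside a box.
-/

namespace Vale.Agent.P167.H638

open Finset Filter Topology MeasureTheory ProbabilityTheory Vale.Agent.P152
open Vale.Agent.P167.H685

/-- Every finitely supported face function of total mass zero is the divergence of a finitely
supported edge function. -/
lemma exists_flow' {m : ℤ × ℤ → ℝ} {K : ℕ} (hm : ∀ v ∉ bx K, m v = 0)
    (h0 : ∑ v ∈ bx K, m v = 0) :
    ∃ g : Edge (ℤ × ℤ) → ℝ,
      (∀ e ∉ (bx K).image Sum.inl ∪ (bx K).image Sum.inr, g e = 0) ∧ dv g = m := by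
  classical
  set A : ℤ → ℤ → ℝ := fun x y => ∑ v ∈ (bx K).filter (fun v => v.1 = x ∧ y ≤ v.2), m v with hA
  set Cc : ℤ → ℝ := fun x => ∑ v ∈ (bx K).filter (fun v => x ≤ v.1), m v with hC
  have hA1 : ∀ x y, A x y - A x (y + 1) = m (x, y) := by
    intro x y
    by_cases hv : (x, y) ∈ bx K
    · have : (bx K).filter (fun v => v.1 = x ∧ y ≤ v.2)
          = insert (x, y) ((bx K).filter (fun v => v.1 = x ∧ y + 1 ≤ v.2)) := by
        ext v
        simp only [mem_filter, mem_insert]
        constructor
        · rintro ⟨h1, h2, h3⟩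
          by_cases h4 : v.2 = y
          · left; exact Prod.ext h2 h4
          · right; exact ⟨h1, h2, by omega⟩
        · rintro (rfl | ⟨h1, h2, h3⟩)
          · exact ⟨hv, rfl, le_refl _⟩
          · exact ⟨h1, h2, by omega⟩
      simp only [hA]
      rw [this, sum_insert (by simp)]
      ring
    · have : (bx K).filter (fun v => v.1 = x ∧ y ≤ v.2)
          = ((bx K).filter (fun v => v.1 = x ∧ y + 1 ≤ v.2)) := by
        ext v
        simp only [mem_filter]
        constructor
        · rintro ⟨h1, h2, h3⟩
          by_cases h4 : v.2 = y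
          · exact absurd (by rw [← h2, ← h4]; exact h1) hv
          · exact ⟨h1, h2, by omega⟩
        · rintro ⟨h1, h2, h3⟩
          exact ⟨h1, h2, by omega⟩
      simp only [hA]
      rw [this, hm _ hv]
      ring
  have hC1 : ∀ x, Cc x - Cc (x + 1) = A x (-K) := by
    intro x
    have : (bx K).filter (fun v => x ≤ v.1)
        = (bx K).filter (fun v => v.1 = x ∧ -(K : ℤ) ≤ v.2) ∪
          (bx K).filter (fun v => x + 1 ≤ v.1) := by
      ext v
      simp only [mem_filter, mem_union, mem_bx]
      omega
    simp only [hC, hA]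
    rw [this, sum_union]
    · ring
    · rw [Finset.disjoint_left]
      intro v h1 h2
      simp only [mem_filter] at h1 h2
      omega
  have hA0 : ∀ x y, (K : ℤ) < y → A x y = 0 := by
    intro x y h
    simp only [hA]
    rw [filter_eq_empty_iff.2, sum_empty]
    intro v hv
    rw [mem_bx] at hv
    omega
  have hA2 : ∀ x y, (x < -(K : ℤ) ∨ (K : ℤ) < x) → A x y = 0 := by
    intro x y h
    simp only [hA]
    rw [filter_eq_empty_iff.2, sum_empty]
    intro v hv
    rw [mem_bx] at hv
    omega
  have hC0 : ∀ x, (K : ℤ) < x → Cc x = 0 := by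
    intro x h
    simp only [hC]
    rw [filter_eq_empty_iff.2, sum_empty]
    intro v hv
    rw [mem_bx] at hv
    omega
  have hC2 : ∀ x, x ≤ -(K : ℤ) → Cc x = 0 := by
    intro x h
    simp only [hC]
    rw [filter_true_of_mem, h0]
    intro v hv
    rw [mem_bx] at hv
    omega
  set g : Edge (ℤ × ℤ) → ℝ := fun e => match e with
    | Sum.inl v => if -(K : ℤ) < v.2 then A v.1 v.2 else 0
    | Sum.inr v => if v.2 = -(K : ℤ) then -Cc v.1 else 0 with hg
  refine ⟨g, ?_, ?_⟩
  · rintro (v | v) hv
    · have hvb : v ∉ bx K := fun h => hv (mem_union_left _ (mem_image_of_mem _ h))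
      simp only [hg]
      split_ifs with h1
      · rw [mem_bx] at hvb
        by_cases h2 : (K : ℤ) < v.2
        · exact hA0 _ _ h2
        · exact hA2 _ _ (by omega)
      · rfl
    · have hvb : v ∉ bx K := fun h => hv (mem_union_right _ (mem_image_of_mem _ h))
      simp only [hg]
      split_ifs with h1
      · rw [mem_bx] at hvb
        by_cases h2 : (K : ℤ) < v.1
        · rw [hC0 _ h2, neg_zero]
        · rw [hC2 _ (by omega), neg_zero]
      · rfl
  · funext v
    obtain ⟨x, y⟩ := v
    simp only [dv, hg]
    rcases lt_trichotomy y (-(K : ℤ)) with h | h | h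
    · rw [if_neg (by omega), if_neg (by omega), if_neg (by omega), if_neg (by omega),
        hm _ (by rw [mem_bx]; omega)]
      ring
    · rw [if_neg (by omega), if_pos (by omega), if_pos h, if_pos h, ← hA1 x y]
      have := hC1 x
      rw [← h] at this
      linarith
    · rw [if_pos h, if_pos (by omega), if_neg (by omega), if_neg (by omega), ← hA1 x y]
      ring

end Vale.Agent.P167.H638
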