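import Vale.Agent.P167.Defs
import Vale.Agent.P167.H638.Cell

/-!
P167, block C: the discrete charges.
-/

namespace Vale.Agent.P167.H638

open MeasureTheory Real Set Filter Topology
open Vale.Agent.P167 (Chg nm)

/-- A radial profile whose support is inside the annulus `1.06 < |x|∞ < 1.98`. -/
theorem exists_prof' : ∃ P : Prof, ∀ t, P.φ t ≠ 0 → 9 / 4 ≤ t ∧ t ≤ 39 / 10 := by
  let g : ℝ → ℝ := fun t => Real.smoothTransition (t - 9 / 4) * Real.smoothTransition (39 / 10 - t)
  have hg : ContDiff ℝ ((⊤ : ℕ∞) : WithTop ℕ∞) g := by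
    have h1 : ContDiff ℝ ((⊤ : ℕ∞) : WithTop ℕ∞) Real.smoothTransition :=
      Real.smoothTransition.contDiff
    exact (h1.comp (contDiff_id.sub contDiff_const)).mul (h1.comp (contDiff_const.sub contDiff_id))
  have hg0 : ∀ t, 0 ≤ g t := fun t =>
    mul_nonneg (Real.smoothTransition.nonneg _) (Real.smoothTransition.nonneg _)
  have hgs : ∀ t, g t ≠ 0 → 9 / 4 ≤ t ∧ t ≤ 39 / 10 := by
    intro t ht
    constructor
    · by_contra h
      apply ht
      show Real.smoothTransition (t - 9 / 4) * _ = 0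
      rw [Real.smoothTransition.zero_of_nonpos (show t - 9 / 4 ≤ 0 by linarith), zero_mul]
    · by_contra h
      apply ht
      show _ * Real.smoothTransition (39 / 10 - t) = 0
      rw [Real.smoothTransition.zero_of_nonpos (show 39 / 10 - t ≤ 0 by linarith), mul_zero]
  have hcont : Continuous (fun x : ℝ × ℝ => g (nq x)) := hg.continuous.comp continuous_nq
  have hcomp : HasCompactSupport (fun x : ℝ × ℝ => g (nq x)) := by
    refine HasCompactSupport.intro ((isCompact_Icc (a := (-2 : ℝ)) (b := 2)).prod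
      (isCompact_Icc (a := (-2 : ℝ)) (b := 2))) (fun x hx => ?_)
    by_contra h
    have h2 := (hgs _ h).2
    unfold nq at h2
    exact hx ⟨⟨by nlinarith [sq_nonneg x.2], by nlinarith [sq_nonneg x.2]⟩,
      ⟨by nlinarith [sq_nonneg x.1], by nlinarith [sq_nonneg x.1]⟩⟩
  have hint : Integrable (fun x : ℝ × ℝ => g (nq x)) := hcont.integrable_of_hasCompactSupport hcomp
  have hpos : 0 < ∫ x : ℝ × ℝ, g (nq x) := by
    refine hcont.integral_pos_of_hasCompactSupport_nonneg_nonzero hcomp (fun x => hg0 _)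
      (x := ((Real.sqrt 3 : ℝ), (0 : ℝ))) ?_
    have h3 : nq (Real.sqrt 3, 0) = 3 := by
      unfold nq
      simp only
      rw [Real.sq_sqrt (by norm_num)]
      norm_num
    show Real.smoothTransition (nq (Real.sqrt 3, 0) - 9 / 4) *
      Real.smoothTransition (39 / 10 - nq (Real.sqrt 3, 0)) ≠ 0
    rw [h3]
    exact (mul_pos (Real.smoothTransition.pos_of_pos (by norm_num))
      (Real.smoothTransition.pos_of_pos (by norm_num))).ne'
  set I := ∫ x : ℝ × ℝ, g (nq x) with hI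
  refine ⟨⟨fun t => I⁻¹ * g t, contDiff_const.mul hg, fun t ht => ?_,
    fun t => mul_nonneg (inv_nonneg.2 hpos.le) (hg0 t), ?_⟩, fun t ht => ?_⟩
  · have := hgs t (right_ne_zero_of_mul ht)
    constructor <;> linarith [this.1, this.2]
  · rw [integral_const_mul, inv_mul_cancel₀ hpos.ne']
  · exact hgs t (right_ne_zero_of_mul ht)

/-- The profile of block C. -/
noncomputable def pf : Prof := exists_prof'.choose

lemma pf_supp (t : ℝ) (h : pf.φ t ≠ 0) : 9 / 4 ≤ t ∧ t ≤ 39 / 10 := exists_prof'.choose_spec t h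

/-- The bound of the profile. -/
noncomputable def CC : ℝ := pf.exists_bound.choose

lemma CC_pos : 0 < CC := pf.exists_bound.choose_spec.1

lemma CC_le (t : ℝ) : pf.φ t ≤ CC := pf.exists_bound.choose_spec.2 t

/-- The discrete charge at distance of order `r n`. -/
noncomputable def mm (r : ℝ) (n : ℕ) : ℤ × ℤ → ℝ := cm (pf.ring r) ((n : ℝ)⁻¹)

lemma mm_chg {r : ℝ} (hr : 0 < r) : ∀ᶠ n : ℕ in atTop, Chg CC (r * n) (mm r n) := by
  have h1 : ∀ᶠ n : ℕ in atTop, 100 / r ≤ (n : ℝ) :=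
    tendsto_natCast_atTop_atTop.eventually_ge_atTop _
  filter_upwards [h1] with n hn
  have hn0 : 0 < (n : ℝ) := lt_of_lt_of_le (by positivity) hn
  have hrn : 100 ≤ r * n := by rwa [div_le_iff₀ hr, mul_comm] at hn
  have hδ : 0 < (n : ℝ)⁻¹ := inv_pos.2 hn0
  refine ⟨fun s => cm_nonneg (pf.ring_nonneg r) _ s, fun s => ?_, fun s hs => ?_, ?_⟩
  · have h2 := cm_le (F := pf.ring r) (M := (r ^ 2)⁻¹ * CC)
      (fun x => mul_le_mul_of_nonneg_left (CC_le _) (by positivity)) hδ s (pf.ring_integrable hr)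
    refine h2.trans (le_of_eq ?_)
    field_simp
  · obtain ⟨x, hx, hF⟩ := cm_ne hs
    have h3 := pf_supp _ (right_ne_zero_of_mul hF)
    have hr2 : 0 < r ^ 2 := by positivity
    rw [le_div_iff₀ hr2, div_le_iff₀ hr2] at h3
    rw [cl_eq hδ] at hx
    obtain ⟨⟨a1, a2⟩, b1, b2⟩ := hx
    rw [inv_mul_eq_div, div_le_iff₀ hn0] at a1 b1
    rw [inv_mul_eq_div, lt_div_iff₀ hn0] at a2 b2
    -- scaled coordinates
    set X := x.1 * n with hX
    set Y := x.2 * n with hY
    have h4 : X ^ 2 + Y ^ 2 = nq x * (n : ℝ) ^ 2 := by rw [hX, hY]; unfold nq; ring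
    have hn2 : 0 < (n : ℝ) ^ 2 := by positivity
    have h5 : 9 / 4 * (r * n) ^ 2 ≤ X ^ 2 + Y ^ 2 := by rw [h4]; nlinarith
    have h6 : X ^ 2 + Y ^ 2 ≤ 39 / 10 * (r * n) ^ 2 := by rw [h4]; nlinarith
    set D := r * (n : ℝ) with hD
    have hX2 : |X| ≤ 1979 / 1000 * D := by
      refine abs_le_of_sq_le_sq ?_ (by linarith)
      nlinarith [sq_nonneg Y]
    have hY2 : |Y| ≤ 1979 / 1000 * D := by
      refine abs_le_of_sq_le_sq ?_ (by linarith)
      nlinarith [sq_nonneg X]
    have hs1 : |(s.1 : ℝ)| ≤ |X| + 1 := by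
      rcases abs_cases X with ⟨e, _⟩ | ⟨e, _⟩ <;> rw [e, abs_le] <;> constructor <;> linarith
    have hs2 : |(s.2 : ℝ)| ≤ |Y| + 1 := by
      rcases abs_cases Y with ⟨e, _⟩ | ⟨e, _⟩ <;> rw [e, abs_le] <;> constructor <;> linarith
    have hs3 : |X| ≤ |(s.1 : ℝ)| + 1 := by
      rcases abs_cases (s.1 : ℝ) with ⟨e, _⟩ | ⟨e, _⟩ <;> rw [e, abs_le] <;> constructor <;> linarith
    have hs4 : |Y| ≤ |(s.2 : ℝ)| + 1 := by
      rcases abs_cases (s.2 : ℝ) with ⟨e, _⟩ | ⟨e, _⟩ <;> rw [e, abs_le] <;> constructor <;> linarith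
    have hmx : ((nm s : ℤ) : ℝ) = max |(s.1 : ℝ)| |(s.2 : ℝ)| := by
      unfold nm
      push_cast
      rfl
    rw [hmx]
    constructor
    · by_contra hcon
      rw [not_le, max_lt_iff] at hcon
      have g1 : |X| < 41 / 40 * D := by linarith [hcon.1]
      have g2 : |Y| < 41 / 40 * D := by linarith [hcon.2]
      have g3 : X ^ 2 ≤ (41 / 40 * D) ^ 2 := sq_le_sq' (by linarith [neg_abs_le X]) (by linarith [le_abs_self X])
      have g4 : Y ^ 2 ≤ (41 / 40 * D) ^ 2 := sq_le_sq' (by linarith [neg_abs_le Y]) (by linarith [le_abs_self Y])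
      nlinarith
    · rw [max_le_iff]
      constructor <;> linarith
  · exact (cm_sum (pf.ring_integrable hr) (pf.ring_compact hr) hδ).trans (pf.ring_int hr)

end Vale.Agent.P167.H638
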