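import Vale.Agent.P167.Iface
import Vale.Agent.P167.H638.Chg

/-!
P167, block C: the Gaussian limit, from the limit theorem of P152 (`GffIn`) and from `S_id`.
-/

namespace Vale.Agent.P167.H638

open MeasureTheory Real Set Filter Topology
open Vale.Agent.P167
open Vale.Agent.P152 (Ori Edge IsHeight)

/-- The integral of the rescaled height function against `F` (same expression as
`P152.GFF.S.hint`). -/
noncomputable def hi (h : ℤ × ℤ → ℤ) (δ : ℝ) (F : ℝ × ℝ → ℝ) : ℝ :=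
  ∫ x : ℝ × ℝ, (h (⌊x.1 / δ⌋, ⌊x.2 / δ⌋) : ℝ) * F x

/-- The covariance (same expression as `P152.GFF.S.gffCov`). -/
noncomputable def cv (F : ℝ × ℝ → ℝ) : ℝ := ∫ x : ℝ × ℝ, ∫ y : ℝ × ℝ,
  (-(2 * π)⁻¹ * Real.log (Real.sqrt ((x.1 - y.1) ^ 2 + (x.2 - y.2) ^ 2))) * F x * F y

/-- The input from P152 at `c = √3`. -/
def GffIn : Prop := ∃ P : Measure (Ori (ℤ × ℤ)), IsProbabilityMeasure P ∧ TorI (√3) P ∧
  (∀ᵐ ω ∂P, ∃ h, IsHeight ω h) ∧
  ∀ h : Ori (ℤ × ℤ) → ℤ × ℤ → ℤ, (∀ᵐ ω ∂P, IsHeight ω (h ω)) →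
  ∀ F : ℝ × ℝ → ℝ, ContDiff ℝ ((⊤ : ℕ∞) : WithTop ℕ∞) F → HasCompactSupport F → ∫ x, F x = 0 →
    Tendsto (fun δ : ℝ => ∫ ω, Real.cos (hi (h ω) δ F) ∂P) (𝓝[>] 0)
      (𝓝 (Real.exp (-(3 / (2 * π)) * cv F)))

lemma cv_eq (F : ℝ × ℝ → ℝ) :
    -(3 / (2 * π)) * cv F = cA * ∫ x : ℝ × ℝ, ∫ y : ℝ × ℝ, lg x y * F x * F y := by
  have h1 : cv F = -(2 * π)⁻¹ * ∫ x : ℝ × ℝ, ∫ y : ℝ × ℝ, lg x y * F x * F y := by
    unfold cv
    rw [← integral_const_mul]
    refine integral_congr_ae (Filter.Eventually.of_forall fun x => ?_)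
    simp only
    rw [← integral_const_mul]
    refine integral_congr_ae (Filter.Eventually.of_forall fun y => ?_)
    simp only [lg]
    ring
  rw [h1]
  unfold cA
  have := Real.pi_pos
  field_simp
  ring

/-- energies of the pairs -/
lemma gk_bd {r s : ℝ} (hr : 0 < r) (hs : 0 < s) (h : r = s ∨ 4 * r ≤ s ∨ 4 * s ≤ r) :
    |(∫ x, ∫ y, pf.gk r s x y) - Real.log (max r s)| ≤ max |pf.κ1| |pf.κ2| := by
  rcases h with h | h | h
  · subst h
    rw [pf.gk_self hr, max_self, add_sub_cancel_left]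
    exact le_max_right _ _
  · rw [pf.gk_lt hr (by linarith), max_eq_right (by linarith), add_sub_cancel_left]
    exact le_max_left _ _
  · rw [pf.gk_symm hr hs, pf.gk_lt hs (by linarith), max_eq_left (by linarith),
      add_sub_cancel_left]
    exact le_max_left _ _

lemma inv_nat_tendsto : Tendsto (fun n : ℕ => ((n : ℝ))⁻¹) atTop (𝓝[>] 0) := by
  have h1 : Tendsto (fun n : ℕ => ((n : ℝ))⁻¹) atTop (𝓝 0) := tendsto_inv_atTop_nhds_zero_nat
  refine tendsto_nhdsWithin_iff.2 ⟨h1, ?_⟩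
  filter_upwards [eventually_gt_atTop 0] with n hn
  have h2 : (0 : ℝ) < n := Nat.cast_pos.2 hn
  exact Set.mem_Ioi.2 (inv_pos.2 h2)

/-- Block C from the limit theorem of P152 and the Baxter-Kelland-Wu identity. -/
theorem gauss_of (hG : GffIn) (hI : S_id) : S_gauss := by
  obtain ⟨P, hP, hT, hex, H⟩ := hG
  classical
  -- a height function
  obtain ⟨h, hh⟩ : ∃ h : Ori (ℤ × ℤ) → ℤ × ℤ → ℤ, ∀ᵐ ω ∂P, IsHeight ω (h ω) := by
    refine ⟨fun ω => if hω : ∃ h, IsHeight ω h then hω.choose else 0, ?_⟩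
    filter_upwards [hex] with ω hω
    simp only [dif_pos hω]
    exact hω.choose_spec
  refine ⟨CC, cA * max |pf.κ1| |pf.κ2|, mm, CC_pos, fun r hr => mm_chg hr, ?_⟩
  intro J b r hr hsep hb
  have hA : 0 < cA := by unfold cA; positivity
  set F : ℝ × ℝ → ℝ := fun x => ∑ j, b j * pf.ring (r j) x with hF
  have hFs : ContDiff ℝ ((⊤ : ℕ∞) : WithTop ℕ∞) F :=
    ContDiff.sum fun i _ => contDiff_const.mul (pf.ring_smooth _)
  have hFc : HasCompactSupport F := by
    refine HasCompactSupport.intro (K := ⋃ i ∈ (Finset.univ : Finset (Fin J)),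
      tsupport (pf.ring (r i)))
      ((Finset.univ : Finset (Fin J)).isCompact_biUnion fun i _ => pf.ring_compact (hr i))
      fun x hx => ?_
    refine Finset.sum_eq_zero fun i hi => ?_
    have h1 : x ∉ tsupport (pf.ring (r i)) := fun h => hx (Set.mem_biUnion hi h)
    rw [image_eq_zero_of_notMem_tsupport h1, mul_zero]
  have hFi : Integrable F := hFs.continuous.integrable_of_hasCompactSupport hFc
  have hF0 : ∫ x, F x = 0 := by
    rw [hF, integral_finsetSum _ fun i _ => (pf.ring_integrable (hr i)).const_mul _]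
    rw [← hb]
    refine Finset.sum_congr rfl fun i _ => ?_
    rw [integral_const_mul, pf.ring_int (hr i), mul_one]
  refine ⟨cA * ∑ i, ∑ j, b i * b j * ∫ x, ∫ y, pf.gk (r i) (r j) x y, ?_, ?_⟩
  · rw [← mul_sub, abs_mul, abs_of_pos hA, mul_assoc]
    refine mul_le_mul_of_nonneg_left ?_ hA.le
    rw [← Finset.sum_sub_distrib]
    simp only [← Finset.sum_sub_distrib, ← mul_sub]
    rw [sq, Finset.sum_mul_sum, Finset.mul_sum]
    refine (Finset.abs_sum_le_sum_abs _ _).trans (Finset.sum_le_sum fun i _ => ?_)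
    rw [Finset.mul_sum]
    refine (Finset.abs_sum_le_sum_abs _ _).trans (Finset.sum_le_sum fun j _ => ?_)
    rw [abs_mul, abs_mul, mul_comm]
    exact mul_le_mul_of_nonneg_right (gk_bd (hr i) (hr j) (hsep i j)) (by positivity)
  · have h1 := (H h hh F hFs hFc hF0).comp inv_nat_tendsto
    rw [cv_eq, pf.energy r b hr] at h1
    refine h1.congr' ?_
    filter_upwards [eventually_gt_atTop 0] with n hn
    have hn0 : 0 < ((n : ℝ))⁻¹ := inv_pos.2 (Nat.cast_pos.2 hn)
    have e1 : (fun s => ∑ j, b j * mm (r j) n s) = cm F ((n : ℝ))⁻¹ := by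
      funext s
      exact (cm_lin b (fun j => pf.ring (r j)) (fun j => pf.ring_integrable (hr j)) _ s).symm
    rw [e1, ← hI P hP hT (cm F ((n : ℝ))⁻¹) (cm_finite hFc hn0)
      ((cm_sum hFi hFc hn0).trans hF0) h hh]
    simp only [Function.comp]
    refine integral_congr_ae (Filter.Eventually.of_forall fun ω => ?_)
    simp only
    congr 1
    exact cell_sum hFi hFc hn0 (fun s => (h ω s : ℝ))

end Vale.Agent.P167.H638
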