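import Vale.Agent.P167.H685.Sid
import Vale.Agent.P167.H638.Gauss

/-!
P167, general `q` (`√q = 2 cos l`): the Baxter-Kelland-Wu identity on the torus, and the Gaussian
limit of the loop observables of the torus, from the limit theorem of P152 (`GffG`).
-/

namespace Vale.Agent.P167.H638

open Finset Filter Topology MeasureTheory
open Vale.Agent.P167
open Vale.Agent.P167.A (Grid plane torus red redE Orb cls ang tor_id tor_id_zero)
open Vale.Agent.P152 (Edge Ori vw wt unroll IsHeight)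
open Vale.Agent.P167.H685 (orbs pa sgb dv fs prod_quotient turn_cases s_turn s_turn0 sum_pa
  exists_flow sum_arrows bx mem_bx)

/-- The angle of an orbit. -/
noncomputable def aq {V : Type} (l : ℝ) (g : Grid V) (a : Edge V → ℝ) (ρ : V → Bool)
    (O : Finset (Edge V)) : ℝ := ∑ e ∈ O, (l / 4 * g.turn ρ e + a e * g.sg e)

/-- The weight of a configuration. -/
noncomputable def wq {V : Type} [Fintype V] [DecidableEq V] (l : ℝ) (g : Grid V)
    (ρ : V → Bool) : ℝ := ∏ O ∈ orbs (g.nxP ρ), 2 * Real.cos (aq l g 0 ρ O)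

/-- The observable of the edge function `a`. -/
noncomputable def xq {V : Type} [Fintype V] [DecidableEq V] (l : ℝ) (g : Grid V)
    (a : Edge V → ℝ) (ρ : V → Bool) : ℝ :=
  ∏ O ∈ orbs (g.nxP ρ), Real.cos (aq l g a ρ O) / Real.cos (aq l g 0 ρ O)

/-- Expectation under the loop law of the torus. -/
noncomputable def nuT (l : ℝ) {M L : ℕ} [NeZero M] [NeZero L] (hM : Even M) (hL : Even L)
    (Φ : (ZMod M × ZMod L → Bool) → ℝ) : ℝ :=
  (∑ ρ, wq l (torus M L hM hL) ρ * Φ ρ) / ∑ ρ, wq l (torus M L hM hL) ρ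

lemma aq_zero {V : Type} (l : ℝ) (g : Grid V) (ρ : V → Bool) (O : Finset (Edge V)) :
    aq l g 0 ρ O = l / 4 * ((∑ e ∈ O, g.turn ρ e : ℤ) : ℝ) := by
  unfold aq
  rw [Int.cast_sum, mul_sum]
  exact sum_congr rfl fun e _ => by simp

/-- Product over the cycles in the form of block A. -/
lemma prod_ang {V : Type} [Fintype V] [DecidableEq V] (l : ℝ) (g : Grid V) (a : Edge V → ℝ)
    (ρ : V → Bool) :
    ∏ O : Orb (g.nxP ρ), 2 * Real.cos (ang g l a ρ O) =
      ∏ O ∈ orbs (g.nxP ρ), 2 * Real.cos (aq l g a ρ O) := by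
  classical
  rw [← prod_quotient (F := fun O => 2 * Real.cos (aq l g a ρ O))]
  refine Finset.prod_congr ?_ ?_
  · ext O
    simp
  · intro O _
    unfold aq ang
    congr 2
    refine Finset.sum_congr ?_ fun _ _ => rfl
    ext e
    simp only [mem_filter, mem_univ, true_and]
    rfl

section torus

variable {M L : ℕ} [NeZero M] [NeZero L] (hM : Even M) (hL : Even L)

/-- The weight of an orbit is `2 cos l` or `2`. -/
lemma cos_aq_cases (l : ℝ) (ρ : ZMod M × ZMod L → Bool)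
    {O : Finset (Edge (ZMod M × ZMod L))} (hO : O ∈ orbs ((torus M L hM hL).nxP ρ)) :
    Real.cos (aq l (torus M L hM hL) 0 ρ O) = Real.cos l ∨
      Real.cos (aq l (torus M L hM hL) 0 ρ O) = 1 := by
  rw [aq_zero]
  rcases turn_cases hM hL s_turn s_turn0 ρ hO with (h | h) | h
  · left
    rw [h]
    congr 1
    push_cast
    ring
  · left
    rw [h, ← Real.cos_neg l]
    congr 1
    push_cast
    ring
  · right
    rw [h.1]
    simp

lemma cos_aq_pos {l : ℝ} (h0 : 0 < Real.cos l) (ρ : ZMod M × ZMod L → Bool)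
    {O : Finset (Edge (ZMod M × ZMod L))} (hO : O ∈ orbs ((torus M L hM hL).nxP ρ)) :
    0 < Real.cos (aq l (torus M L hM hL) 0 ρ O) := by
  rcases cos_aq_cases hM hL l ρ hO with h | h
  · rw [h]; exact h0
  · rw [h]; exact one_pos

lemma wq_pos {l : ℝ} (h0 : 0 < Real.cos l) (ρ : ZMod M × ZMod L → Bool) :
    0 < wq l (torus M L hM hL) ρ :=
  prod_pos fun _ hO => mul_pos two_pos (cos_aq_pos hM hL h0 ρ hO)

lemma sum_wq_pos {l : ℝ} (h0 : 0 < Real.cos l) : 0 < ∑ ρ, wq l (torus M L hM hL) ρ :=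
  sum_pos (fun ρ _ => wq_pos hM hL h0 ρ) univ_nonempty

lemma wq_mul_xq {l : ℝ} (h0 : 0 < Real.cos l) (a : Edge (ZMod M × ZMod L) → ℝ)
    (ρ : ZMod M × ZMod L → Bool) :
    wq l (torus M L hM hL) ρ * xq l (torus M L hM hL) a ρ =
      ∏ O ∈ orbs ((torus M L hM hL).nxP ρ), 2 * Real.cos (aq l (torus M L hM hL) a ρ O) := by
  unfold wq xq
  rw [← prod_mul_distrib]
  refine prod_congr rfl fun O hO => ?_
  have := (cos_aq_pos hM hL h0 ρ hO).ne'
  field_simp

/-- **Baxter-Kelland-Wu on the torus, normalised.** -/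
theorem torU_gen {l : ℝ} (h0 : 0 < Real.cos l) (E : Finset Ed) (a : Ed → ℝ) :
    torU (2 * Real.cos (l / 2)) M L (fun ω => Real.cos (∑ e ∈ E, a e * sgb (ω e)))
      = nuT l hM hL (xq l (torus M L hM hL) (pa M L E a)) := by
  have h1 := tor_id hM hL l (pa M L E a)
  have h2 := tor_id_zero hM hL l
  unfold torU nuT
  have e1 : ∑ ρ, wq l (torus M L hM hL) ρ * xq l (torus M L hM hL) (pa M L E a) ρ
      = ∑ ω : Ori (ZMod M × ZMod L), wt (2 * Real.cos (l / 2)) ω *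
        Real.cos (∑ e, pa M L E a e * (if ω e then 1 else -1)) := by
    rw [h1]
    refine sum_congr rfl fun ρ _ => ?_
    rw [prod_ang, wq_mul_xq hM hL h0]
  have e2 : ∑ ρ, wq l (torus M L hM hL) ρ =
      ∑ ω : Ori (ZMod M × ZMod L), wt (2 * Real.cos (l / 2)) ω := by
    rw [h2]
    refine sum_congr rfl fun ρ _ => ?_
    rw [prod_ang]
    rfl
  rw [e1, e2]
  congr 1
  refine sum_congr rfl fun ω _ => ?_
  rw [sum_pa]

end torus

/-- The input from P152 at `c = 2 cos (l / 2)`. -/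
def GffG (l : ℝ) : Prop := ∃ P : Measure (Ori (ℤ × ℤ)), IsProbabilityMeasure P ∧
  TorI (2 * Real.cos (l / 2)) P ∧ (∀ᵐ ω ∂P, ∃ h, IsHeight ω h) ∧
  ∀ h : Ori (ℤ × ℤ) → ℤ × ℤ → ℤ, (∀ᵐ ω ∂P, IsHeight ω (h ω)) →
  ∀ F : ℝ × ℝ → ℝ, ContDiff ℝ ((⊤ : ℕ∞) : WithTop ℕ∞) F → HasCompactSupport F → ∫ x, F x = 0 →
    Tendsto (fun δ : ℝ => ∫ ω, Real.cos (hi (h ω) δ F) ∂P) (𝓝[>] 0)
      (𝓝 (Real.exp (-(1 / (Real.pi - l)) * cv F)))

/-- For every plane measure: the torus observables of a flow converge to the height observable. -/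
lemma tor_lim {c : ℝ} {P : Measure (Ori (ℤ × ℤ))} [IsProbabilityMeasure P]
    (hT : TorI c P) {h : Ori (ℤ × ℤ) → ℤ × ℤ → ℤ}
    (hh : ∀ᵐ ω ∂P, IsHeight ω (h ω)) {E : Finset Ed} {a : Ed → ℝ} (ha : ∀ e ∉ E, a e = 0)
    {ε : ℝ} (hε : 0 < ε) : ∃ q0 : ℕ, ∀ k : ℕ, q0 ≤ k → ∀ᶠ M : ℕ in atTop,
      |torU c (M + 1) (2 * (k + 1)) (fun ω => Real.cos (∑ e ∈ E, a e * sgb (ω e))) -
        ∫ ω, Real.cos (∑' v, dv a v * (h ω v : ℝ)) ∂P| ≤ ε := by
  have hstep : ∫ ω, Real.cos (∑' v, dv a v * (h ω v : ℝ)) ∂P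
      = ∫ ω, Real.cos (∑ e ∈ E, a e * sgb (ω e)) ∂P := by
    refine integral_congr_ae ?_
    filter_upwards [hh] with ω hω
    rw [sum_arrows hω ha]
    congr 1
    exact tsum_congr fun v => mul_comm _ _
  obtain ⟨q0, hq0⟩ := hT E (fun ω => Real.cos (∑ e ∈ E, a e * sgb (ω e)))
    (fun ω ω' hω => by
      congr 1
      exact sum_congr rfl fun e he => by rw [hω e he]) ε hε
  refine ⟨q0, fun k hk => ?_⟩
  filter_upwards [hq0 k hk] with M hM'
  rw [hstep]
  exact hM'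

/-- **Gaussian limit on the torus**, six-vertex form. -/
theorem gauss_torU {l : ℝ} (hG : GffG l) {F : ℝ × ℝ → ℝ}
    (hFs : ContDiff ℝ ((⊤ : ℕ∞) : WithTop ℕ∞) F) (hFc : HasCompactSupport F)
    (hF0 : ∫ x, F x = 0) {ε : ℝ} (hε : 0 < ε) : ∀ᶠ n : ℕ in atTop,
    ∀ (E : Finset Ed) (a : Ed → ℝ), (∀ e ∉ E, a e = 0) → fs a = cm F ((n : ℝ)⁻¹) →
    ∃ q0 : ℕ, ∀ k : ℕ, q0 ≤ k → ∀ᶠ M : ℕ in atTop,
      |torU (2 * Real.cos (l / 2)) (M + 1) (2 * (k + 1))
          (fun ω => Real.cos (∑ e ∈ E, a e * sgb (ω e))) -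
        Real.exp (-(1 / (Real.pi - l)) * cv F)| ≤ ε := by
  obtain ⟨P, hP, hT, hex, H⟩ := hG
  classical
  obtain ⟨h, hh⟩ : ∃ h : Ori (ℤ × ℤ) → ℤ × ℤ → ℤ, ∀ᵐ ω ∂P, IsHeight ω (h ω) := by
    refine ⟨fun ω => if hω : ∃ h, IsHeight ω h then hω.choose else 0, ?_⟩
    filter_upwards [hex] with ω hω
    simp only [dif_pos hω]
    exact hω.choose_spec
  have hFi : Integrable F := hFs.continuous.integrable_of_hasCompactSupport hFc
  have h1 := (H h hh F hFs hFc hF0).comp inv_nat_tendsto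
  have h2 := (Metric.tendsto_nhds.1 h1) (ε / 2) (half_pos hε)
  filter_upwards [h2, eventually_gt_atTop 0] with n hn hn0 E a ha hf
  have hn1 : 0 < ((n : ℝ))⁻¹ := inv_pos.2 (Nat.cast_pos.2 hn0)
  obtain ⟨q0, hq0⟩ := tor_lim hT hh ha (half_pos hε)
  have e3 : ∀ v : ℤ × ℤ, dv a v = cm F ((n : ℝ)⁻¹) (v.1 + 1, v.2 + 1) := by
    intro v
    rw [← hf]
    simp [fs]
  have e1 : ∫ ω, Real.cos (∑' v, dv a v * (h ω v : ℝ)) ∂P
      = ∫ ω, Real.cos (hi (h ω) ((n : ℝ)⁻¹) F) ∂P := by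
    refine integral_congr_ae (Filter.Eventually.of_forall fun ω => ?_)
    simp only
    rw [hi, cell_sum hFi hFc hn1 (fun s => (h ω s : ℝ))]
    congr 1
    simp only [e3]
    refine tsum_eq_finsum ?_
    have hfin := cm_finite hFc hn1
    refine ((hfin.preimage (f := fun v : ℤ × ℤ => ((v.1 + 1, v.2 + 1) : ℤ × ℤ)) ?_)).subset ?_
    · intro v _ w _ h
      simp only [Prod.mk.injEq, add_left_inj] at h
      exact Prod.ext h.1 h.2
    · intro v hv
      simp only [Function.mem_support, Set.mem_preimage] at hv ⊢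
      exact left_ne_zero_of_mul hv
  refine ⟨q0, fun k hk => ?_⟩
  filter_upwards [hq0 k hk] with M h3
  rw [e1] at h3
  simp only [Function.comp, Real.dist_eq] at hn
  calc _ ≤ |torU (2 * Real.cos (l / 2)) (M + 1) (2 * (k + 1))
          (fun ω => Real.cos (∑ e ∈ E, a e * sgb (ω e))) -
        ∫ ω, Real.cos (hi (h ω) ((n : ℝ)⁻¹) F) ∂P| +
        |∫ ω, Real.cos (hi (h ω) ((n : ℝ)⁻¹) F) ∂P - Real.exp (-(1 / (Real.pi - l)) * cv F)| :=
        abs_sub_le _ _ _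
    _ ≤ ε := by linarith

/-- **Gaussian limit on the torus**: for a smooth compactly supported `F` of integral zero, the
expectation of the loop observable of any flow of the discretised charge is close to the Gaussian
value, in the order: scale, then height, then width of the torus. -/
theorem gauss_torus {l : ℝ} (h0 : 0 < Real.cos l) (hG : GffG l) {F : ℝ × ℝ → ℝ}
    (hFs : ContDiff ℝ ((⊤ : ℕ∞) : WithTop ℕ∞) F) (hFc : HasCompactSupport F)
    (hF0 : ∫ x, F x = 0) {ε : ℝ} (hε : 0 < ε) : ∀ᶠ n : ℕ in atTop,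
    ∀ (E : Finset Ed) (a : Ed → ℝ), (∀ e ∉ E, a e = 0) → fs a = cm F ((n : ℝ)⁻¹) →
    ∃ q0 : ℕ, ∀ k : ℕ, q0 ≤ k → ∀ᶠ M : ℕ in atTop,
      ∀ (hM : Even (M + 1)) (hL : Even (2 * (k + 1))),
      |nuT l hM hL (xq l (torus (M + 1) (2 * (k + 1)) hM hL) (pa (M + 1) (2 * (k + 1)) E a)) -
        Real.exp (-(1 / (Real.pi - l)) * cv F)| ≤ ε := by
  filter_upwards [gauss_torU hG hFs hFc hF0 hε] with n hn E a ha hf
  obtain ⟨q0, hq0⟩ := hn E a ha hf
  refine ⟨q0, fun k hk => ?_⟩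
  filter_upwards [hq0 k hk] with M h3 hM hL
  rw [← torU_gen hM hL h0]
  exact h3

end Vale.Agent.P167.H638
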