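import Vale.Agent.P167.K8.Defs
import Vale.Agent.P167.H638.TorQ
import Vale.Agent.P167.H638.Flow2

/-!
P167, general `q`, block K.12: the Gaussian input in the form `K_G`, from the limit theorem of P152;
existence of admissible observables.
-/

namespace Vale.Agent.P167.H638

open MeasureTheory Real Set Filter Topology
open Vale.Agent.P167
open Vale.Agent.P167.K8 (K_G Adm)
open Vale.Agent.P152 (Ori Edge IsHeight)
open Vale.Agent.P167.H685 (bx mem_bx dv fs sgb bs)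

lemma ring_scale {k : ℝ} (hk : 0 < k) (y : ℝ × ℝ) :
    pf.ring k (k • y) = (k ^ 2)⁻¹ * pf.ring 1 y := by
  unfold Prof.ring
  rw [nq_smul]
  have : k ^ 2 ≠ 0 := by positivity
  rw [mul_div_assoc, mul_div_cancel₀ _ this]
  simp

lemma cl_scale {k δ : ℝ} (s : ℤ × ℤ) (y : ℝ × ℝ) :
    k • y ∈ cl δ s ↔ y ∈ cl (δ / k) s := by
  have h : ∀ t : ℝ, k * t / δ = t / (δ / k) := by
    intro t
    rw [div_div_eq_mul_div, mul_comm]
  unfold cl
  simp only [Set.mem_ofPred_eq, Prod.smul_fst, Prod.smul_snd, smul_eq_mul, h]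

lemma mm_scale {k : ℕ} (hk : 0 < k) (n : ℕ) : mm 1 (k * n) = mm k n := by
  have hk' : (0 : ℝ) < k := Nat.cast_pos.2 hk
  funext s
  unfold mm cm
  rw [← integral_indicator (measurableSet_cl _ _), ← integral_indicator (measurableSet_cl _ _)]
  have h1 := Measure.integral_comp_smul (μ := (volume : Measure (ℝ × ℝ)))
    ((cl ((n : ℝ)⁻¹) s).indicator (pf.ring (k : ℝ))) (k : ℝ)
  have h2 : Module.finrank ℝ (ℝ × ℝ) = 2 := by simp
  rw [h2] at h1
  have h3 : ∀ y : ℝ × ℝ, (cl ((n : ℝ)⁻¹) s).indicator (pf.ring (k : ℝ)) ((k : ℝ) • y) =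
      ((k : ℝ) ^ 2)⁻¹ * (cl (((k * n : ℕ) : ℝ)⁻¹) s).indicator (pf.ring 1) y := by
    intro y
    have e : ((n : ℝ)⁻¹) / k = ((k * n : ℕ) : ℝ)⁻¹ := by
      push_cast
      rw [mul_inv, div_eq_mul_inv, mul_comm]
    by_cases hy : y ∈ cl (((k * n : ℕ) : ℝ)⁻¹) s
    · rw [Set.indicator_of_mem hy, Set.indicator_of_mem ((cl_scale s y).2 (by rwa [e])),
        ring_scale hk']
    · rw [Set.indicator_of_notMem hy, Set.indicator_of_notMem, mul_zero]
      intro h
      have := (cl_scale s y).1 h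
      rw [e] at this
      exact hy this
  simp only [h3] at h1
  rw [integral_const_mul, smul_eq_mul, abs_of_pos (by positivity)] at h1
  exact mul_left_cancel₀ (by positivity) h1

/-- The energy of two opposite rings. -/
lemma cv_two {b k : ℝ} (hk : 2 ≤ k) :
    cv (fun x => b * pf.ring 1 x - b * pf.ring k x) =
      (2 * π)⁻¹ * b ^ 2 * (Real.log k + 2 * (pf.κ1 - pf.κ2)) := by
  have hk0 : 0 < k := by linarith
  have h1 := pf.energy (n := 2) ![1, k] ![b, -b] (by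
    intro i; fin_cases i
    · simp
    · simpa using hk0)
  have e1 : ∀ x, ∑ i : Fin 2, ![b, -b] i * pf.ring (![1, k] i) x =
      b * pf.ring 1 x - b * pf.ring k x := by
    intro x
    simp [Fin.sum_univ_two]
    ring
  simp only [e1] at h1
  have h2 : cv (fun x => b * pf.ring 1 x - b * pf.ring k x) =
      -(2 * π)⁻¹ * ∫ x : ℝ × ℝ, ∫ y : ℝ × ℝ, lg x y * (b * pf.ring 1 x - b * pf.ring k x) *
        (b * pf.ring 1 y - b * pf.ring k y) := by
    unfold cv
    rw [← integral_const_mul]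
    refine integral_congr_ae (Filter.Eventually.of_forall fun x => ?_)
    simp only
    rw [← integral_const_mul]
    refine integral_congr_ae (Filter.Eventually.of_forall fun y => ?_)
    simp only [lg]
    ring
  rw [h2, h1]
  simp only [Fin.sum_univ_two, Matrix.cons_val_zero, Matrix.cons_val_one]
  rw [pf.gk_self one_pos, pf.gk_self hk0, pf.gk_lt one_pos (by linarith),
    pf.gk_symm hk0 one_pos, pf.gk_lt one_pos (by linarith), Real.log_one]
  ring

/-- **Block K.12.** -/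
theorem k_G_of (hG : ∀ θ : ℝ, 0 ≤ θ → θ ≤ π / 3 → GffG θ) : K_G := by
  intro θ h0 h1
  have hpi := Real.pi_pos
  set A : ℝ := 1 / (2 * π * (π - θ)) with hA
  have hθ : 0 < π - θ := by linarith
  have hA0 : 0 < A := by positivity
  refine ⟨CC, A, Real.exp (2 * A * |pf.κ1 - pf.κ2|) + 1, mm 1, CC_pos, hA0, by positivity, ?_, ?_⟩
  · have := mm_chg (r := 1) one_pos
    simpa using this
  intro b hb k hk
  have hk4 : (4 : ℝ) ≤ k := by exact_mod_cast hk
  have hk0 : (0 : ℝ) < k := by linarith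
  set F : ℝ × ℝ → ℝ := fun x => b * pf.ring 1 x - b * pf.ring k x with hF
  have hFs : ContDiff ℝ ((⊤ : ℕ∞) : WithTop ℕ∞) F :=
    (contDiff_const.mul (pf.ring_smooth _)).sub (contDiff_const.mul (pf.ring_smooth _))
  have hFc : HasCompactSupport F :=
    (pf.ring_compact one_pos).mul_left.sub (pf.ring_compact hk0).mul_left
  have hi1 : Integrable (pf.ring 1) := pf.ring_integrable one_pos
  have hik : Integrable (pf.ring k) := pf.ring_integrable hk0
  have hF0 : ∫ x, F x = 0 := by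
    rw [hF, integral_sub (hi1.const_mul _) (hik.const_mul _), integral_const_mul,
      integral_const_mul, pf.ring_int one_pos, pf.ring_int hk0]
    ring
  have hε : 0 < (k : ℝ) ^ (-(A * b ^ 2)) := Real.rpow_pos_of_pos hk0 _
  filter_upwards [gauss_torU (hG θ h0 h1) hFs hFc hF0 hε] with n hn E a ha hf
  have hf' : fs a = cm F ((n : ℝ)⁻¹) := by
    rw [hf]
    funext s
    rw [mm_scale (by omega) n]
    unfold mm cm
    rw [hF, integral_sub (hi1.const_mul _).integrableOn (hik.const_mul _).integrableOn,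
      integral_const_mul, integral_const_mul]
    ring
  obtain ⟨q0, hq0⟩ := hn E a ha hf'
  filter_upwards [eventually_ge_atTop q0] with l hl
  filter_upwards [hq0 l hl] with M hM
  have h2 := (abs_le.1 hM).2
  have h3 : Real.exp (-(1 / (π - θ)) * cv F) ≤
      Real.exp (2 * A * |pf.κ1 - pf.κ2|) * (k : ℝ) ^ (-(A * b ^ 2)) := by
    rw [Real.rpow_def_of_pos hk0, ← Real.exp_add]
    apply Real.exp_le_exp.2
    rw [hF, cv_two (by linarith)]
    have e1 : -(1 / (π - θ)) * ((2 * π)⁻¹ * b ^ 2 * (Real.log k + 2 * (pf.κ1 - pf.κ2))) =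
        -(A * b ^ 2 * Real.log k) + 2 * A * (b ^ 2 * (-(pf.κ1 - pf.κ2))) := by
      rw [hA]
      field_simp
      ring
    rw [e1]
    have h4 : b ^ 2 * (-(pf.κ1 - pf.κ2)) ≤ |pf.κ1 - pf.κ2| := by
      have hb2 : b ^ 2 ≤ 1 := by
        rw [← sq_abs]
        have := abs_nonneg b
        nlinarith
      calc b ^ 2 * (-(pf.κ1 - pf.κ2)) ≤ b ^ 2 * |pf.κ1 - pf.κ2| :=
            mul_le_mul_of_nonneg_left (neg_le_abs _) (sq_nonneg b)
        _ ≤ 1 * |pf.κ1 - pf.κ2| := mul_le_mul_of_nonneg_right hb2 (abs_nonneg _)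
        _ = _ := one_mul _
    have h5 : 2 * A * (b ^ 2 * (-(pf.κ1 - pf.κ2))) ≤ 2 * A * |pf.κ1 - pf.κ2| :=
      mul_le_mul_of_nonneg_left h4 (by positivity)
    linarith
  linarith

/-- Existence of admissible observables. -/
theorem exists_adm {m : ℤ} {b : ℝ} {f : ℤ × ℤ → ℝ} (hm : 2 ≤ m)
    (hs : ∀ s, f s ≠ 0 → nm s + 3 ≤ m) (h0 : ∑ᶠ s, f s = 0)
    (hb : ∀ U : Set (ℤ × ℤ), |∑ᶠ s ∈ U, f s| ≤ b) : ∃ (E : Finset Ed) (a : Ed → ℝ), Adm m b E a f := by
  classical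
  obtain ⟨K, hK⟩ : ∃ K : ℕ, (K : ℤ) + 2 = m := ⟨(m - 2).toNat, by omega⟩
  set g : ℤ × ℤ → ℝ := fun v => f (v.1 + 1, v.2 + 1) with hg
  have hg0 : ∀ v ∉ bx K, g v = 0 := by
    intro v hv
    by_contra hne
    have h1 := hs _ hne
    apply hv
    rw [mem_bx]
    unfold nm at h1
    simp only at h1
    have h2 := le_max_left |v.1 + 1| |v.2 + 1|
    have h3 := le_max_right |v.1 + 1| |v.2 + 1|
    have h4 := abs_le.1 (show |v.1 + 1| ≤ m - 3 by linarith)
    have h5 := abs_le.1 (show |v.2 + 1| ≤ m - 3 by linarith)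
    omega
  let e : ℤ × ℤ ≃ ℤ × ℤ := ⟨fun v => (v.1 + 1, v.2 + 1), fun v => (v.1 - 1, v.2 - 1),
    fun v => by simp, fun v => by simp⟩
  have hsum : ∑ v ∈ bx K, g v = 0 := by
    have h1 : ∑ᶠ v, g v = ∑ v ∈ bx K, g v := by
      refine finsum_eq_sum_of_support_subset _ fun v hv => ?_
      by_contra hn
      exact hv (hg0 v hn)
    rw [← h1, ← h0]
    exact finsum_comp_equiv e (f := f)
  obtain ⟨a, ha, hdv⟩ := exists_flow' hg0 hsum
  refine ⟨_, a, ha, ?_, ?_, ?_, h0, hb⟩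
  · funext s
    unfold fs
    rw [hdv]
    simp [hg]
  · intro e he
    rw [Finset.mem_union, Finset.mem_image, Finset.mem_image] at he
    have hbx : ∀ v ∈ bx K, nm v + 2 ≤ m := by
      intro v hv
      rw [mem_bx] at hv
      have : nm v ≤ K := max_le (abs_le.2 ⟨by omega, by omega⟩) (abs_le.2 ⟨by omega, by omega⟩)
      omega
    rcases he with ⟨v, hv, rfl⟩ | ⟨v, hv, rfl⟩
    · exact hbx v hv
    · exact hbx v hv
  · intro s h
    have := hs s h
    omega

/-- Partial masses of the difference of two probability charges. -/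
lemma part_two {m₁ m₂ : ℤ × ℤ → ℝ} (h₁ : ∀ s, 0 ≤ m₁ s) (h₂ : ∀ s, 0 ≤ m₂ s)
    (f₁ : m₁.support.Finite) (f₂ : m₂.support.Finite) (s₁ : ∑ᶠ s, m₁ s = 1)
    (s₂ : ∑ᶠ s, m₂ s = 1) (b : ℝ) (U : Set (ℤ × ℤ)) :
    |∑ᶠ s ∈ U, b * (m₁ s - m₂ s)| ≤ |b| := by
  classical
  have key : ∀ m : ℤ × ℤ → ℝ, (∀ s, 0 ≤ m s) → m.support.Finite → ∑ᶠ s, m s = 1 →
      0 ≤ ∑ᶠ s ∈ U, m s ∧ ∑ᶠ s ∈ U, m s ≤ 1 := by
    intro m h f e
    have h1 : ∑ᶠ s ∈ U, m s = ∑ s ∈ f.toFinset with s ∈ U, m s := by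
      rw [finsum_mem_eq_sum_of_inter_support_eq (t := f.toFinset.filter (· ∈ U))]
      ext s
      simp only [Set.mem_inter_iff, Function.mem_support, Finset.coe_filter, Set.Finite.mem_toFinset,
        Set.mem_ofPred_eq]
      tauto
    have h2 : ∑ᶠ s, m s = ∑ s ∈ f.toFinset, m s := finsum_eq_sum m f
    rw [h1]
    refine ⟨Finset.sum_nonneg fun s _ => h s, ?_⟩
    rw [← e, h2]
    exact Finset.sum_le_sum_of_subset_of_nonneg (Finset.filter_subset _ _) fun s _ _ => h s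
  have h3 : ∑ᶠ s ∈ U, b * (m₁ s - m₂ s) = b * (∑ᶠ s ∈ U, m₁ s - ∑ᶠ s ∈ U, m₂ s) := by
    have hgen : ∀ m : ℤ × ℤ → ℝ, m.support ⊆ m₁.support ∪ m₂.support → ∑ᶠ s ∈ U, m s =
        ∑ s ∈ (f₁.union f₂).toFinset with s ∈ U, m s := by
      intro m hm
      rw [finsum_mem_eq_sum_of_inter_support_eq (t := (f₁.union f₂).toFinset.filter (· ∈ U))]
      ext s
      simp only [Set.mem_inter_iff, Function.mem_support, Finset.coe_filter,
        Set.Finite.mem_toFinset, Set.mem_union, Set.mem_ofPred_eq]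
      have := @hm s
      simp only [Function.mem_support, Set.mem_union] at this
      tauto
    rw [hgen _ subset_union_left, hgen _ subset_union_right, hgen (fun s => b * (m₁ s - m₂ s)),
      ← Finset.sum_sub_distrib, Finset.mul_sum]
    intro s hs
    simp only [Function.mem_support, Set.mem_union] at hs ⊢
    by_contra hn
    push Not at hn
    exact hs (by rw [hn.1, hn.2, sub_self, mul_zero])
  rw [h3, abs_mul]
  have a1 := key m₁ h₁ f₁ s₁
  have a2 := key m₂ h₂ f₂ s₂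
  have : |∑ᶠ s ∈ U, m₁ s - ∑ᶠ s ∈ U, m₂ s| ≤ 1 := abs_le.2 ⟨by linarith, by linarith⟩
  calc |b| * |∑ᶠ s ∈ U, m₁ s - ∑ᶠ s ∈ U, m₂ s| ≤ |b| * 1 :=
        mul_le_mul_of_nonneg_left this (abs_nonneg b)
    _ = |b| := mul_one _

lemma chg_finite {Cm ρ : ℝ} {m : ℤ × ℤ → ℝ} (h : Chg Cm ρ m) : m.support.Finite := by
  have h1 : Set.Finite ((Finset.Icc (-⌊2 * ρ⌋) ⌊2 * ρ⌋ ×ˢ Finset.Icc (-⌊2 * ρ⌋) ⌊2 * ρ⌋ :
    Finset (ℤ × ℤ)) : Set (ℤ × ℤ)) := Finset.finite_toSet _
  refine h1.subset fun s hs => ?_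
  have h2 := (h.supp s hs).2
  have h3 : nm s ≤ ⌊2 * ρ⌋ := Int.le_floor.2 h2
  unfold nm at h3
  have h4 := abs_le.1 ((le_max_left _ _).trans h3)
  have h5 := abs_le.1 ((le_max_right _ _).trans h3)
  simp only [Finset.coe_product, Set.mem_prod, Finset.coe_Icc, Set.mem_Icc]
  exact ⟨h4, h5⟩

/-- The admissible observable of two opposite charges. -/
theorem adm_chg {Cm ρ ρ' : ℝ} {m m' : ℤ × ℤ → ℝ} (h : Chg Cm ρ m) (h' : Chg Cm ρ' m') (b : ℝ)
    {R : ℤ} (h2 : 2 ≤ R) (hR : 2 * ρ + 3 ≤ R) (hR' : 2 * ρ' + 3 ≤ R) :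
    ∃ (E : Finset Ed) (a : Ed → ℝ), Adm R |b| E a (fun s => b * (m s - m' s)) := by
  have f1 := chg_finite h
  have f2 := chg_finite h'
  refine exists_adm h2 (fun s hs => ?_) ?_ (part_two h.nonneg h'.nonneg f1 f2 h.sum h'.sum b)
  · have h3 : m s ≠ 0 ∨ m' s ≠ 0 := by
      by_contra hn
      push Not at hn
      exact hs (by rw [hn.1, hn.2, sub_self, mul_zero])
    have h4 : ((nm s + 3 : ℤ) : ℝ) ≤ R := by
      push_cast
      rcases h3 with h3 | h3
      · linarith [(h.supp s h3).2]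
      · linarith [(h'.supp s h3).2]
    exact_mod_cast h4
  · rw [← mul_finsum, finsum_sub_distrib f1 f2, h.sum, h'.sum, sub_self, mul_zero]

end Vale.Agent.P167.H638
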