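import Vale.Agent.P167.H638.GffQ
import Vale.Agent.P167.H638.KG

/-!
P167, general `q`, block K.12, unconditional.
-/

namespace Vale.Agent.P167.H638

open Vale.Agent.P167.K8 (K_G)

/-- **Block K.12.** -/
theorem k_G : K_G := k_G_of fun θ h0 h1 => gffG h0 (by linarith [Real.pi_pos])

/-- **Gaussian limit of the loop observables of the torus**, for all `0 ≤ l < π / 2`. -/
theorem h2 {l : ℝ} (h0 : 0 ≤ l) (hl : l < Real.pi / 2) {F : ℝ × ℝ → ℝ}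
    (hFs : ContDiff ℝ ((⊤ : ℕ∞) : WithTop ℕ∞) F) (hFc : HasCompactSupport F)
    (hF0 : ∫ x, F x = 0) {ε : ℝ} (hε : 0 < ε) : ∀ᶠ n : ℕ in Filter.atTop,
    ∀ (E : Finset Ed) (a : Ed → ℝ), (∀ e ∉ E, a e = 0) → H685.fs a = cm F ((n : ℝ)⁻¹) →
    ∃ q0 : ℕ, ∀ k : ℕ, q0 ≤ k → ∀ᶠ M : ℕ in Filter.atTop,
      ∀ (hM : Even (M + 1)) (hL : Even (2 * (k + 1))),
      |nuT l hM hL (xq l (A.torus (M + 1) (2 * (k + 1)) hM hL)
          (H685.pa (M + 1) (2 * (k + 1)) E a)) -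
        Real.exp (-(1 / (Real.pi - l)) * cv F)| ≤ ε :=
  gauss_torus (Real.cos_pos_of_mem_Ioo ⟨by linarith [Real.pi_pos], hl⟩) (gffG h0 hl) hFs hFc hF0 hε

end Vale.Agent.P167.H638
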