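import Mathlib

/-!
P167: radial charges and the logarithmic kernel of the plane (Newton's theorem).
-/

set_option autoImplicit false

namespace Vale.Agent.P167.H638

open MeasureTheory Real Set Filter Topology

/-- `log |x - y|`. -/
noncomputable def lg (x y : ℝ × ℝ) : ℝ :=
  Real.log (Real.sqrt ((x.1 - y.1) ^ 2 + (x.2 - y.2) ^ 2))

/-- `|x|²`. -/
def nq (x : ℝ × ℝ) : ℝ := x.1 ^ 2 + x.2 ^ 2

lemma nq_nonneg (x : ℝ × ℝ) : 0 ≤ nq x := by unfold nq; positivity

lemma continuous_nq : Continuous nq := by unfold nq; fun_prop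

lemma nq_smul (r : ℝ) (x : ℝ × ℝ) : nq (r • x) = r ^ 2 * nq x := by
  simp only [nq, Prod.smul_fst, Prod.smul_snd, smul_eq_mul]; ring

lemma lg_circle (x : ℝ × ℝ) (ρ θ : ℝ) :
    lg x (ρ * Real.cos θ, ρ * Real.sin θ)
      = Real.log ‖circleMap 0 ρ θ - ((x.1 : ℂ) + x.2 * Complex.I)‖ := by
  unfold lg
  congr 1
  rw [Complex.norm_def, Complex.normSq_apply]
  congr 1
  simp only [circleMap, zero_add, Complex.sub_re, Complex.sub_im, Complex.mul_re, Complex.mul_im,
    Complex.ofReal_re, Complex.ofReal_im, Complex.exp_ofReal_mul_I_re, Complex.exp_ofReal_mul_I_im,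
    Complex.add_re, Complex.add_im, Complex.I_re, Complex.I_im]
  ring

/-- The average of `log |x - ·|` over the circle of radius `ρ`. -/
lemma int_lg_circle (x : ℝ × ℝ) {ρ : ℝ} (hρ : 0 < ρ) :
    ∫ θ in (-π)..π, lg x (ρ * Real.cos θ, ρ * Real.sin θ)
      = 2 * π * (Real.log (max (nq x) (ρ ^ 2)) / 2) := by
  have h1 : ∫ θ in (-π)..π, lg x (ρ * Real.cos θ, ρ * Real.sin θ)
      = ∫ θ in (0)..(2 * π), lg x (ρ * Real.cos θ, ρ * Real.sin θ) := by
    have hp : Function.Periodic (fun θ => lg x (ρ * Real.cos θ, ρ * Real.sin θ)) (2 * π) := by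
      intro θ
      simp [Real.cos_add_two_pi, Real.sin_add_two_pi]
    have h2 := hp.intervalIntegral_add_eq (-π) 0
    have e1 : -π + 2 * π = π := by ring
    rw [e1, zero_add] at h2
    exact h2
  rw [h1]
  have h3 := circleAverage_log_norm_sub_const_eq_log_radius_add_posLog (c := 0)
    (a := ((x.1 : ℂ) + x.2 * Complex.I)) (R := ρ) hρ.ne'
  unfold circleAverage at h3
  simp only [← lg_circle] at h3
  have hpi : (2 * π) ≠ 0 := by positivity
  rw [smul_eq_mul, inv_mul_eq_iff_eq_mul₀ hpi] at h3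
  rw [h3]
  congr 1
  have hn : ‖(0 : ℂ) - ((x.1 : ℂ) + x.2 * Complex.I)‖ = Real.sqrt (nq x) := by
    rw [zero_sub, norm_neg, Complex.norm_add_mul_I]; rfl
  rw [hn]
  rcases le_or_gt (nq x) (ρ ^ 2) with h | h
  · rw [max_eq_right h, Real.log_pow]
    have h4 : ρ⁻¹ * Real.sqrt (nq x) ≤ 1 := by
      rw [inv_mul_le_iff₀ hρ, mul_one]
      exact Real.sqrt_le_iff.mpr ⟨hρ.le, h⟩
    have h5 : 0 ≤ ρ⁻¹ * Real.sqrt (nq x) := by positivity
    rw [(posLog_eq_zero_iff _).mpr (by rwa [abs_of_nonneg h5])]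
    push_cast; ring
  · rw [max_eq_left h.le]
    have hx : 0 < nq x := lt_of_le_of_lt (by positivity) h
    have h4 : 1 ≤ ρ⁻¹ * Real.sqrt (nq x) := by
      rw [le_inv_mul_iff₀ hρ, mul_one]
      exact Real.le_sqrt_of_sq_le h.le
    have h5 : 0 ≤ ρ⁻¹ * Real.sqrt (nq x) := by positivity
    rw [posLog_eq_log (by rwa [abs_of_nonneg h5]), Real.log_mul (by positivity)
      (Real.sqrt_pos.mpr hx).ne', Real.log_inv, Real.log_sqrt hx.le]
    ring

lemma abs_log_le (t : ℝ) : |Real.log t| = 2 * Real.posLog t - Real.log t := by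
  unfold Real.posLog
  rcases le_total 0 (Real.log t) with h | h
  · rw [abs_of_nonneg h, max_eq_right h]; ring
  · rw [abs_of_nonpos h, max_eq_left h]; ring


lemma lg_le_posLog (x : ℝ × ℝ) {ρ M : ℝ} (hρ : 0 ≤ ρ) (hM : ρ ≤ M) (θ : ℝ) :
    Real.posLog (Real.sqrt ((x.1 - ρ * Real.cos θ) ^ 2 + (x.2 - ρ * Real.sin θ) ^ 2))
      ≤ Real.posLog (Real.sqrt (nq x) + M) := by
  have h1 : Real.sqrt ((x.1 - ρ * Real.cos θ) ^ 2 + (x.2 - ρ * Real.sin θ) ^ 2)
      ≤ Real.sqrt (nq x) + ρ := by
    rw [Real.sqrt_le_left (by positivity)]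
    have hs := Real.sq_sqrt (nq_nonneg x)
    have hs0 := Real.sqrt_nonneg (nq x)
    have h2 : -(x.1 * Real.cos θ + x.2 * Real.sin θ) ≤ Real.sqrt (nq x) := by
      refine le_trans (le_abs_self _) ?_
      rw [abs_neg]
      apply Real.abs_le_sqrt
      unfold nq
      nlinarith [Real.sin_sq_add_cos_sq θ, sq_nonneg (x.1 * Real.sin θ - x.2 * Real.cos θ)]
    have h3 : ρ * (-(x.1 * Real.cos θ + x.2 * Real.sin θ)) ≤ ρ * Real.sqrt (nq x) :=
      mul_le_mul_of_nonneg_left h2 hρ
    unfold nq at hs h3 ⊢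
    nlinarith [Real.sin_sq_add_cos_sq θ, mul_self_nonneg ρ]
  refine Real.posLog_le_posLog (by positivity) ?_
  linarith

/-- Integral over a circle of the modulus of the logarithm. -/
lemma int_abs_lg_circle (x : ℝ × ℝ) {ρ M : ℝ} (hρ : 0 < ρ) (hM : ρ ≤ M) :
    ∫ θ in (-π)..π, |lg x (ρ * Real.cos θ, ρ * Real.sin θ)|
      ≤ 2 * π * (2 * Real.posLog (Real.sqrt (nq x) + M)
        - Real.log (max (nq x) (ρ ^ 2)) / 2) := by
  have hci : IntervalIntegrable (fun θ => lg x (ρ * Real.cos θ, ρ * Real.sin θ)) volume (-π) π := by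
    have h := circleIntegrable_log_norm_sub_const (a := ((x.1 : ℂ) + x.2 * Complex.I)) (c := 0) ρ
    have h2 : IntervalIntegrable (fun θ => lg x (ρ * Real.cos θ, ρ * Real.sin θ)) volume
        0 (2 * π) := by
      unfold CircleIntegrable at h
      simpa only [← lg_circle] using h
    have hp : Function.Periodic (fun θ => lg x (ρ * Real.cos θ, ρ * Real.sin θ)) (2 * π) := by
      intro θ
      simp [Real.cos_add_two_pi, Real.sin_add_two_pi]
    exact hp.intervalIntegrable₀ (by positivity) h2 _ _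
  have hpi : (-π) ≤ π := by linarith [Real.pi_pos]
  have hcl : IntervalIntegrable (fun θ => 2 * Real.posLog (Real.sqrt (nq x) + M)
      - lg x (ρ * Real.cos θ, ρ * Real.sin θ)) volume (-π) π :=
    IntervalIntegrable.sub intervalIntegrable_const hci
  calc ∫ θ in (-π)..π, |lg x (ρ * Real.cos θ, ρ * Real.sin θ)|
      ≤ ∫ θ in (-π)..π, (2 * Real.posLog (Real.sqrt (nq x) + M)
          - lg x (ρ * Real.cos θ, ρ * Real.sin θ)) := by
        refine intervalIntegral.integral_mono_on hpi hci.abs hcl (fun θ _ => ?_)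
        unfold lg
        rw [abs_log_le]
        have := lg_le_posLog x hρ.le hM θ
        linarith
    _ = _ := by
        rw [intervalIntegral.integral_sub intervalIntegrable_const hci, int_lg_circle x hρ,
          intervalIntegral.integral_const, smul_eq_mul]
        ring

lemma measurable_lg_polar (x : ℝ × ℝ) :
    Measurable (fun p : ℝ × ℝ => lg x (p.1 * Real.cos p.2, p.1 * Real.sin p.2)) := by
  unfold lg
  fun_prop


/-- Polar coordinates for functions on `ℝ × ℝ`. -/
lemma int_polar (f : ℝ × ℝ → ℝ) :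
    ∫ p in Ioi (0 : ℝ) ×ˢ Ioo (-π) π, p.1 * f (p.1 * Real.cos p.2, p.1 * Real.sin p.2)
      = ∫ y, f y := by
  have h := integral_comp_polarCoord_symm f
  simpa only [polarCoord_target, polarCoord_symm_apply, smul_eq_mul] using h

lemma vol_restrict_prod :
    (volume : Measure (ℝ × ℝ)).restrict (Ioi (0 : ℝ) ×ˢ Ioo (-π) π)
      = (volume.restrict (Ioi (0 : ℝ))).prod (volume.restrict (Ioo (-π) π)) := by
  rw [Measure.volume_eq_prod, Measure.prod_restrict]

lemma nq_polar (ρ θ : ℝ) : nq (ρ * Real.cos θ, ρ * Real.sin θ) = ρ ^ 2 := by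
  unfold nq
  simp only
  nlinarith [Real.sin_sq_add_cos_sq θ]

lemma setInt_Ioo (g : ℝ → ℝ) : ∫ θ in Ioo (-π) π, g θ = ∫ θ in (-π)..π, g θ := by
  rw [intervalIntegral.integral_of_le (by linarith [Real.pi_pos]), integral_Ioc_eq_integral_Ioo]

/-- Integrability in polar coordinates. -/
lemma integrable_lg_polar {V : ℝ → ℝ} (hV : Continuous V) {a b : ℝ} (ha : 0 < a)
    (hs : ∀ t, V t ≠ 0 → a ^ 2 ≤ t ∧ t ≤ b ^ 2) (hb : 0 < b) (x : ℝ × ℝ) :
    Integrable (fun p : ℝ × ℝ => p.1 * (lg x (p.1 * Real.cos p.2, p.1 * Real.sin p.2)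
      * V (p.1 ^ 2))) ((volume.restrict (Ioi (0 : ℝ))).prod (volume.restrict (Ioo (-π) π))) := by
  have hm : Measurable (fun p : ℝ × ℝ => p.1 * (lg x (p.1 * Real.cos p.2, p.1 * Real.sin p.2)
      * V (p.1 ^ 2))) :=
    measurable_fst.mul ((measurable_lg_polar x).mul
      (hV.measurable.comp (measurable_fst.pow_const 2)))
  obtain ⟨C, hC⟩ : ∃ C, ∀ t, |V t| ≤ C := by
    have hcs : HasCompactSupport V := by
      refine HasCompactSupport.intro (isCompact_Icc (a := a ^ 2) (b := b ^ 2)) (fun t ht => ?_)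
      by_contra h
      exact ht ⟨(hs t h).1, (hs t h).2⟩
    obtain ⟨C, hC⟩ := hcs.exists_bound_of_continuous hV
    exact ⟨C, hC⟩
  have hC0 : 0 ≤ C := le_trans (abs_nonneg _) (hC 0)
  have hci : ∀ ρ : ℝ, IntegrableOn (fun θ => lg x (ρ * Real.cos θ, ρ * Real.sin θ))
      (Ioo (-π) π) := by
    intro ρ
    have h := circleIntegrable_log_norm_sub_const (a := ((x.1 : ℂ) + x.2 * Complex.I)) (c := 0) ρ
    have h2 : IntervalIntegrable (fun θ => lg x (ρ * Real.cos θ, ρ * Real.sin θ)) volume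
        0 (2 * π) := by
      unfold CircleIntegrable at h
      simpa only [← lg_circle] using h
    have hp : Function.Periodic (fun θ => lg x (ρ * Real.cos θ, ρ * Real.sin θ)) (2 * π) := by
      intro θ
      simp [Real.cos_add_two_pi, Real.sin_add_two_pi]
    have h3 := hp.intervalIntegrable₀ (by positivity) h2 (-π) π
    exact ((intervalIntegrable_iff_integrableOn_Ioo_of_le
      (by linarith [Real.pi_pos])).mp h3)
  rw [integrable_prod_iff hm.aestronglyMeasurable]
  refine ⟨Filter.Eventually.of_forall (fun ρ => ?_), ?_⟩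
  · exact ((hci ρ).mul_const (V (ρ ^ 2))).const_mul ρ
  · set K : ℝ := 2 * π * (2 * Real.posLog (Real.sqrt (nq x) + b) + |Real.log (a ^ 2)| / 2
      + |Real.log (max (nq x) (b ^ 2))| / 2) with hK
    have hK0 : 0 ≤ K := by
      rw [hK]; have := Real.posLog_nonneg (x := Real.sqrt (nq x) + b); positivity
    have hbd : ∀ ρ : ℝ, 0 < ρ → ∫ θ in Ioo (-π) π, ‖ρ * (lg x (ρ * Real.cos θ, ρ * Real.sin θ)
        * V (ρ ^ 2))‖ ≤ (Icc a b).indicator (fun _ => b * C * K) ρ := by
      intro ρ hρ
      have e1 : (fun θ => ‖ρ * (lg x (ρ * Real.cos θ, ρ * Real.sin θ) * V (ρ ^ 2))‖)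
          = fun θ => (ρ * |V (ρ ^ 2)|) * |lg x (ρ * Real.cos θ, ρ * Real.sin θ)| := by
        funext θ
        rw [Real.norm_eq_abs, abs_mul, abs_mul, abs_of_pos hρ]; ring
      rw [e1, integral_const_mul, setInt_Ioo]
      by_cases hz : V (ρ ^ 2) = 0
      · rw [hz, abs_zero, mul_zero, zero_mul]
        exact Set.indicator_nonneg (fun _ _ => by positivity) _
      · obtain ⟨h1, h2⟩ := hs _ hz
        have h1' : a ≤ ρ := by nlinarith
        have h2' : ρ ≤ b := by nlinarith
        rw [Set.indicator_of_mem (show ρ ∈ Icc a b from ⟨h1', h2'⟩)]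
        have h3 := int_abs_lg_circle x hρ h2'
        have h4 : 2 * π * (2 * Real.posLog (Real.sqrt (nq x) + b)
            - Real.log (max (nq x) (ρ ^ 2)) / 2) ≤ K := by
          rw [hK]
          refine mul_le_mul_of_nonneg_left ?_ (by positivity)
          have h5 : Real.log (a ^ 2) ≤ Real.log (max (nq x) (ρ ^ 2)) :=
            Real.log_le_log (by positivity) (le_trans h1 (le_max_right _ _))
          have h6 := neg_abs_le (Real.log (a ^ 2))
          have h7 := abs_nonneg (Real.log (max (nq x) (b ^ 2)))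
          linarith
        have h8 : 0 ≤ ∫ θ in (-π)..π, |lg x (ρ * Real.cos θ, ρ * Real.sin θ)| :=
          intervalIntegral.integral_nonneg (by linarith [Real.pi_pos]) (fun _ _ => abs_nonneg _)
        calc ρ * |V (ρ ^ 2)| * ∫ θ in (-π)..π, |lg x (ρ * Real.cos θ, ρ * Real.sin θ)|
            ≤ (b * C) * K := by
              refine mul_le_mul ?_ (le_trans h3 h4) h8 (by positivity)
              exact mul_le_mul h2' (hC _) (abs_nonneg _) (by linarith)
          _ = b * C * K := rfl
    refine Integrable.mono' (g := (Icc a b).indicator (fun _ => b * C * K)) ?_ ?_ ?_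
    · exact ((integrable_indicator_iff measurableSet_Icc).mpr
        (integrableOn_const (C := b * C * K) (by simp) enorm_ne_top)).restrict
    · exact hm.aestronglyMeasurable.norm.integral_prod_right'
    · refine (ae_restrict_iff' measurableSet_Ioi).mpr (Filter.Eventually.of_forall (fun ρ hρ => ?_))
      rw [Real.norm_of_nonneg (integral_nonneg (fun _ => norm_nonneg _))]
      exact hbd ρ hρ

/-- Newton's theorem: a radial charge acts on the outside as a point charge. -/
theorem newton {V : ℝ → ℝ} (hV : Continuous V) {a b : ℝ} (ha : 0 < a)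
    (hs : ∀ t, V t ≠ 0 → a ^ 2 ≤ t ∧ t ≤ b ^ 2) (hb : 0 < b) (x : ℝ × ℝ) :
    ∫ y, lg x y * V (nq y) = ∫ y, (Real.log (max (nq x) (nq y)) / 2) * V (nq y) := by
  rw [← int_polar, ← int_polar (fun y => (Real.log (max (nq x) (nq y)) / 2) * V (nq y)),
    vol_restrict_prod]
  simp only [nq_polar]
  have hi := integrable_lg_polar hV ha hs hb x
  rw [integral_prod _ hi]
  have hi2 : Integrable (fun p : ℝ × ℝ => p.1 * ((Real.log (max (nq x) (p.1 ^ 2)) / 2)
      * V (p.1 ^ 2))) ((volume.restrict (Ioi (0 : ℝ))).prod (volume.restrict (Ioo (-π) π))) := by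
    have hc : Continuous (fun ρ : ℝ => ρ * ((Real.log (max (max (nq x) (ρ ^ 2)) (a ^ 2)) / 2)
        * V (ρ ^ 2))) := by
      refine continuous_id.mul (((Continuous.log (by fun_prop) (fun ρ => ?_)).div_const 2).mul
        (hV.comp (by fun_prop)))
      have : 0 < a ^ 2 := by positivity
      exact (lt_of_lt_of_le this (le_max_right _ _)).ne'
    have e2 : (fun ρ : ℝ => ρ * ((Real.log (max (nq x) (ρ ^ 2)) / 2) * V (ρ ^ 2)))
        = fun ρ : ℝ => ρ * ((Real.log (max (max (nq x) (ρ ^ 2)) (a ^ 2)) / 2) * V (ρ ^ 2)) := by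
      funext ρ
      by_cases hz : V (ρ ^ 2) = 0
      · simp [hz]
      · rw [max_eq_left (le_trans (hs _ hz).1 (le_max_right _ _))]
    have hcs : HasCompactSupport (fun ρ : ℝ => ρ * ((Real.log (max (nq x) (ρ ^ 2)) / 2)
        * V (ρ ^ 2))) := by
      refine HasCompactSupport.intro (isCompact_Icc (a := -b) (b := b)) (fun ρ hρ => ?_)
      have hz : V (ρ ^ 2) = 0 := by
        by_contra h
        have h2 := (hs _ h).2
        exact hρ ⟨by nlinarith, by nlinarith⟩
      simp [hz]
    have hint : Integrable (fun ρ : ℝ => ρ * ((Real.log (max (nq x) (ρ ^ 2)) / 2)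
        * V (ρ ^ 2))) := by
      refine Continuous.integrable_of_hasCompactSupport ?_ hcs
      rw [e2]; exact hc
    have h1 := (hint.restrict (s := Ioi (0 : ℝ))).comp_fst (volume.restrict (Ioo (-π) π))
    exact h1
  rw [integral_prod _ hi2]
  refine setIntegral_congr_fun measurableSet_Ioi (fun ρ hρ => ?_)
  have hρ' : 0 < ρ := hρ
  simp only
  rw [integral_const_mul, integral_mul_const, setInt_Ioo, int_lg_circle x hρ',
    setInt_Ioo, intervalIntegral.integral_const, smul_eq_mul]
  ring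


/-! ### Radial profiles -/

/-- A smooth radial mass distribution `x ↦ φ (|x|²)` of total mass one on `1 ≤ |x| ≤ 2`. -/
structure Prof where
  /-- the profile as a function of `|x|²` -/
  φ : ℝ → ℝ
  smooth : ContDiff ℝ ((⊤ : ℕ∞) : WithTop ℕ∞) φ
  supp : ∀ t, φ t ≠ 0 → 1 ≤ t ∧ t ≤ 4
  nonneg : ∀ t, 0 ≤ φ t
  mass : ∫ x : ℝ × ℝ, φ (nq x) = 1

/-- The mass distribution of radius `r`: mass one on `r ≤ |x| ≤ 2 r`. -/
noncomputable def Prof.ring (P : Prof) (r : ℝ) (x : ℝ × ℝ) : ℝ := (r ^ 2)⁻¹ * P.φ (nq x / r ^ 2)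

lemma scale_int (h : ℝ → ℝ) {r : ℝ} (hr : 0 < r) :
    ∫ x : ℝ × ℝ, (r ^ 2)⁻¹ * h (nq x / r ^ 2) = ∫ x : ℝ × ℝ, h (nq x) := by
  have h1 := Measure.integral_comp_smul (μ := (volume : Measure (ℝ × ℝ))) (fun x => h (nq x)) r⁻¹
  have e1 : (fun x : ℝ × ℝ => h (nq (r⁻¹ • x))) = fun x => h (nq x / r ^ 2) := by
    funext x
    rw [nq_smul]
    congr 1
    field_simp
  rw [e1] at h1
  rw [integral_const_mul, h1]
  have h2 : Module.finrank ℝ (ℝ × ℝ) = 2 := by simp
  rw [h2, smul_eq_mul, abs_of_nonneg (by positivity)]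
  field_simp

theorem exists_prof : Nonempty Prof := by
  let g : ℝ → ℝ := fun t => Real.smoothTransition (t - 1) * Real.smoothTransition (4 - t)
  have hg : ContDiff ℝ ((⊤ : ℕ∞) : WithTop ℕ∞) g := by
    have h1 : ContDiff ℝ ((⊤ : ℕ∞) : WithTop ℕ∞) Real.smoothTransition :=
      Real.smoothTransition.contDiff
    exact (h1.comp (contDiff_id.sub contDiff_const)).mul (h1.comp (contDiff_const.sub contDiff_id))
  have hg0 : ∀ t, 0 ≤ g t := fun t =>
    mul_nonneg (Real.smoothTransition.nonneg _) (Real.smoothTransition.nonneg _)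
  have hgs : ∀ t, g t ≠ 0 → 1 ≤ t ∧ t ≤ 4 := by
    intro t ht
    constructor
    · by_contra h
      push Not at h
      exact ht (by simp [g, Real.smoothTransition.zero_of_nonpos (show t - 1 ≤ 0 by linarith)])
    · by_contra h
      push Not at h
      exact ht (by simp [g, Real.smoothTransition.zero_of_nonpos (show 4 - t ≤ 0 by linarith)])
  have hcs : HasCompactSupport (fun x : ℝ × ℝ => g (nq x)) := by
    refine HasCompactSupport.intro
      ((isCompact_Icc (a := (-2 : ℝ)) (b := 2)).prod (isCompact_Icc (a := (-2 : ℝ)) (b := 2)))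
      (fun x hx => ?_)
    by_contra h
    have h2 := (hgs _ h).2
    unfold nq at h2
    exact hx ⟨⟨by nlinarith [sq_nonneg x.2], by nlinarith [sq_nonneg x.2]⟩,
      ⟨by nlinarith [sq_nonneg x.1], by nlinarith [sq_nonneg x.1]⟩⟩
  have hcont : Continuous (fun x : ℝ × ℝ => g (nq x)) := hg.continuous.comp continuous_nq
  have hpos : 0 < ∫ x : ℝ × ℝ, g (nq x) := by
    rw [integral_pos_iff_support_of_nonneg (fun x => hg0 _)
      (hcont.integrable_of_hasCompactSupport hcs)]
    refine IsOpen.measure_pos _ (isOpen_ne_fun hcont continuous_const) ⟨((3 / 2 : ℝ), 0), ?_⟩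
    have h1 : 0 < g (nq ((3 / 2 : ℝ), 0)) := by
      have : nq ((3 / 2 : ℝ), (0 : ℝ)) = 9 / 4 := by unfold nq; norm_num
      rw [this]
      exact mul_pos (Real.smoothTransition.pos_of_pos (by norm_num))
        (Real.smoothTransition.pos_of_pos (by norm_num))
    exact h1.ne'
  refine ⟨⟨fun t => (∫ x : ℝ × ℝ, g (nq x))⁻¹ * g t, contDiff_const.mul hg, ?_, ?_, ?_⟩⟩
  · intro t ht
    exact hgs t (right_ne_zero_of_mul ht)
  · intro t
    exact mul_nonneg (inv_nonneg.mpr hpos.le) (hg0 t)
  · rw [integral_const_mul]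
    exact inv_mul_cancel₀ hpos.ne'

namespace Prof

variable (P : Prof)

lemma cont : Continuous P.φ := P.smooth.continuous

lemma exists_bound : ∃ C, 0 < C ∧ ∀ t, P.φ t ≤ C := by
  have hcs : HasCompactSupport P.φ := by
    refine HasCompactSupport.intro (isCompact_Icc (a := (1 : ℝ)) (b := 4)) (fun t ht => ?_)
    by_contra h
    exact ht ⟨(P.supp t h).1, (P.supp t h).2⟩
  obtain ⟨C, hC⟩ := hcs.exists_bound_of_continuous P.cont
  exact ⟨max C 1, lt_of_lt_of_le one_pos (le_max_right _ _),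
    fun t => le_trans (le_trans (le_abs_self _) (hC t)) (le_max_left _ _)⟩

lemma ring_nonneg (r : ℝ) (x : ℝ × ℝ) : 0 ≤ P.ring r x :=
  mul_nonneg (by positivity) (P.nonneg _)

lemma ring_supp {r : ℝ} (hr : 0 < r) {x : ℝ × ℝ} (h : P.ring r x ≠ 0) :
    r ^ 2 ≤ nq x ∧ nq x ≤ (2 * r) ^ 2 := by
  have h1 := P.supp _ (right_ne_zero_of_mul h)
  have hr2 : 0 < r ^ 2 := by positivity
  rw [le_div_iff₀ hr2, div_le_iff₀ hr2] at h1
  constructor
  · linarith [h1.1]
  · linarith [h1.2]

lemma ring_smooth (r : ℝ) : ContDiff ℝ ((⊤ : ℕ∞) : WithTop ℕ∞) (P.ring r) := by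
  unfold ring nq
  exact contDiff_const.mul (P.smooth.comp (((contDiff_fst.pow 2).add (contDiff_snd.pow 2)).div_const _))

lemma ring_cont (r : ℝ) : Continuous (P.ring r) := (P.ring_smooth r).continuous

lemma ring_compact {r : ℝ} (hr : 0 < r) : HasCompactSupport (P.ring r) := by
  refine HasCompactSupport.intro ((isCompact_Icc (a := -(2 * r)) (b := 2 * r)).prod
    (isCompact_Icc (a := -(2 * r)) (b := 2 * r))) (fun x hx => ?_)
  by_contra h
  have h2 := (P.ring_supp hr h).2
  unfold nq at h2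
  exact hx ⟨⟨by nlinarith [sq_nonneg x.2], by nlinarith [sq_nonneg x.2]⟩,
    ⟨by nlinarith [sq_nonneg x.1], by nlinarith [sq_nonneg x.1]⟩⟩

lemma ring_int {r : ℝ} (hr : 0 < r) : ∫ x, P.ring r x = 1 := by
  unfold ring
  rw [scale_int P.φ hr, P.mass]

lemma ring_integrable {r : ℝ} (hr : 0 < r) : Integrable (P.ring r) :=
  (P.ring_cont r).integrable_of_hasCompactSupport (P.ring_compact hr)

end Prof


namespace Prof

variable (P : Prof)

/-- First constant of the profile. -/
noncomputable def κ1 : ℝ := ∫ y : ℝ × ℝ, Real.log (nq y) / 2 * P.φ (nq y)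

/-- Second constant of the profile. -/
noncomputable def κ2 : ℝ :=
  ∫ x : ℝ × ℝ, ∫ y : ℝ × ℝ, Real.log (max (nq x) (nq y)) / 2 * P.φ (nq x) * P.φ (nq y)

/-- The radial kernel against two rings. -/
noncomputable def gk (r s : ℝ) (x y : ℝ × ℝ) : ℝ :=
  Real.log (max (nq x) (nq y)) / 2 * P.ring r x * P.ring s y

lemma gk_integrable {r s : ℝ} (hr : 0 < r) (hs : 0 < s) :
    Integrable (fun z : (ℝ × ℝ) × (ℝ × ℝ) => P.gk r s z.1 z.2)
      ((volume : Measure (ℝ × ℝ)).prod volume) := by
  have e : (fun z : (ℝ × ℝ) × (ℝ × ℝ) => P.gk r s z.1 z.2)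
      = fun z => Real.log (max (max (nq z.1) (nq z.2)) (r ^ 2)) / 2 * P.ring r z.1
        * P.ring s z.2 := by
    funext z
    unfold gk
    by_cases h : P.ring r z.1 = 0
    · simp [h]
    · rw [max_eq_left (le_trans (P.ring_supp hr h).1 (le_max_left _ _))]
  have hc : Continuous (fun z : (ℝ × ℝ) × (ℝ × ℝ) => P.gk r s z.1 z.2) := by
    rw [e]
    refine (((Continuous.log ?_ (fun z => ?_)).div_const 2).mul
      ((P.ring_cont r).comp continuous_fst)).mul ((P.ring_cont s).comp continuous_snd)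
    · exact ((continuous_nq.comp continuous_fst).max (continuous_nq.comp continuous_snd)).max
        continuous_const
    · have : 0 < r ^ 2 := by positivity
      exact (lt_of_lt_of_le this (le_max_right _ _)).ne'
  have hcs : HasCompactSupport (fun z : (ℝ × ℝ) × (ℝ × ℝ) => P.gk r s z.1 z.2) := by
    refine HasCompactSupport.intro ((P.ring_compact hr).prod (P.ring_compact hs)) (fun z hz => ?_)
    unfold gk
    by_cases h1 : P.ring r z.1 = 0
    · simp [h1]
    · by_cases h2 : P.ring s z.2 = 0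
      · simp [h2]
      · exact absurd ⟨subset_tsupport _ h1, subset_tsupport _ h2⟩ hz
  have := hc.integrable_of_hasCompactSupport (μ := (volume : Measure ((ℝ × ℝ) × (ℝ × ℝ)))) hcs
  rwa [Measure.volume_eq_prod] at this

lemma gk_lt {r s : ℝ} (hr : 0 < r) (h : 2 * r ≤ s) :
    ∫ x, ∫ y, P.gk r s x y = Real.log s + P.κ1 := by
  have hs : 0 < s := by linarith
  have h1 : ∀ x y, P.gk r s x y = P.ring r x * (Real.log (nq y) / 2 * P.ring s y) := by
    intro x y
    unfold gk
    by_cases hx : P.ring r x = 0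
    · simp [hx]
    by_cases hy : P.ring s y = 0
    · simp [hy]
    have h2 := (P.ring_supp hr hx).2
    have h3 := (P.ring_supp hs hy).1
    have h4 : (2 * r) ^ 2 ≤ s ^ 2 := by nlinarith
    rw [max_eq_right (by linarith)]
    ring
  simp only [h1]
  simp only [integral_const_mul, integral_mul_const, P.ring_int hr, one_mul]
  have h5 : ∀ y, Real.log (nq y) / 2 * P.ring s y
      = (s ^ 2)⁻¹ * ((Real.log s + Real.log (nq y / s ^ 2) / 2) * P.φ (nq y / s ^ 2)) := by
    intro y
    unfold ring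
    by_cases hy : P.φ (nq y / s ^ 2) = 0
    · simp [hy]
    have h6 : nq y / s ^ 2 ≠ 0 := by linarith [(P.supp _ hy).1] |> fun h : (0:ℝ) < nq y / s ^ 2 => h.ne'
    have h7 : nq y ≠ 0 := fun h0 => h6 (by rw [h0, zero_div])
    rw [Real.log_div h7 (by positivity), Real.log_pow]
    push_cast
    ring
  simp only [h5]
  rw [scale_int (fun t => (Real.log s + Real.log t / 2) * P.φ t) hs]
  have hi1 : Integrable (fun y : ℝ × ℝ => P.φ (nq y)) := by
    have := P.ring_integrable (r := 1) one_pos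
    unfold ring at this
    simpa using this
  have hi2 : Integrable (fun y : ℝ × ℝ => Real.log (nq y) / 2 * P.φ (nq y)) := by
    have e : (fun y : ℝ × ℝ => Real.log (nq y) / 2 * P.φ (nq y))
        = fun y => Real.log (max (nq y) 1) / 2 * P.φ (nq y) := by
      funext y
      by_cases hy : P.φ (nq y) = 0
      · simp [hy]
      · rw [max_eq_left (P.supp _ hy).1]
    have hcs : HasCompactSupport (fun y : ℝ × ℝ => Real.log (nq y) / 2 * P.φ (nq y)) := by
      have h8 := P.ring_compact (r := 1) one_pos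
      refine HasCompactSupport.mono h8 (fun y hy => ?_)
      have : P.φ (nq y) ≠ 0 := right_ne_zero_of_mul hy
      unfold ring
      simpa using this
    refine Continuous.integrable_of_hasCompactSupport ?_ hcs
    rw [e]
    refine ((Continuous.log (continuous_nq.max continuous_const) (fun y => ?_)).div_const 2).mul
      (P.cont.comp continuous_nq)
    exact (lt_of_lt_of_le one_pos (le_max_right _ _)).ne'
  simp only [add_mul]
  rw [integral_add (hi1.const_mul _) hi2, integral_const_mul, P.mass, mul_one]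
  rfl

lemma gk_symm {r s : ℝ} (hr : 0 < r) (hs : 0 < s) :
    ∫ x, ∫ y, P.gk r s x y = ∫ x, ∫ y, P.gk s r x y := by
  rw [integral_integral_swap (P.gk_integrable hr hs)]
  refine integral_congr_ae (Filter.Eventually.of_forall fun x => ?_)
  refine integral_congr_ae (Filter.Eventually.of_forall fun y => ?_)
  simp only [gk]
  rw [max_comm]
  ring

lemma gk_self {r : ℝ} (hr : 0 < r) : ∫ x, ∫ y, P.gk r r x y = Real.log r + P.κ2 := by
  have h1 : ∀ x y, P.gk r r x y = (r ^ 2)⁻¹ * ((r ^ 2)⁻¹ *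
      ((Real.log r + Real.log (max (nq x / r ^ 2) (nq y / r ^ 2)) / 2) * P.φ (nq x / r ^ 2)
        * P.φ (nq y / r ^ 2))) := by
    intro x y
    unfold gk ring
    by_cases hx : P.φ (nq x / r ^ 2) = 0
    · simp [hx]
    have h6 : 0 < nq x / r ^ 2 := by linarith [(P.supp _ hx).1]
    have h7 : 0 < nq x := by
      rcases (div_pos_iff.mp h6) with h | h
      · exact h.1
      · exact absurd h.2 (not_lt.mpr (by positivity))
    have h8 : max (nq x / r ^ 2) (nq y / r ^ 2) = max (nq x) (nq y) / r ^ 2 :=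
      max_div_div_right (by positivity) _ _
    rw [h8, Real.log_div (lt_of_lt_of_le h7 (le_max_left _ _)).ne' (by positivity), Real.log_pow]
    push_cast
    ring
  simp only [h1]
  have h2 : ∀ x : ℝ × ℝ, ∫ y : ℝ × ℝ, (r ^ 2)⁻¹ * ((r ^ 2)⁻¹ *
      ((Real.log r + Real.log (max (nq x / r ^ 2) (nq y / r ^ 2)) / 2) * P.φ (nq x / r ^ 2)
        * P.φ (nq y / r ^ 2)))
      = (r ^ 2)⁻¹ * ∫ y : ℝ × ℝ, ((Real.log r + Real.log (max (nq x / r ^ 2) (nq y)) / 2)
        * P.φ (nq x / r ^ 2) * P.φ (nq y)) := by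
    intro x
    rw [integral_const_mul]
    congr 1
    exact scale_int (fun t => (Real.log r + Real.log (max (nq x / r ^ 2) t) / 2)
      * P.φ (nq x / r ^ 2) * P.φ t) hr
  simp only [h2]
  rw [scale_int (fun s => ∫ y : ℝ × ℝ, ((Real.log r + Real.log (max s (nq y)) / 2)
        * P.φ s * P.φ (nq y))) hr]
  have hi := P.gk_integrable (r := 1) (s := 1) one_pos one_pos
  have hring : ∀ x, P.ring 1 x = P.φ (nq x) := by intro x; unfold ring; simp
  have e3 : ∀ x y, ((Real.log r + Real.log (max (nq x) (nq y)) / 2) * P.φ (nq x) * P.φ (nq y))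
      = Real.log r * P.ring 1 x * P.ring 1 y + P.gk 1 1 x y := by
    intro x y
    unfold gk
    rw [hring, hring]
    ring
  simp only [e3]
  have hae := hi.prod_right_ae
  have h4 : ∀ᵐ x : ℝ × ℝ, ∫ y, (Real.log r * P.ring 1 x * P.ring 1 y + P.gk 1 1 x y)
      = Real.log r * P.ring 1 x + ∫ y, P.gk 1 1 x y := by
    filter_upwards [hae] with x hx
    rw [integral_add ((P.ring_integrable one_pos).const_mul _) hx, integral_const_mul,
      P.ring_int one_pos, mul_one]
  rw [integral_congr_ae h4, integral_add ((P.ring_integrable one_pos).const_mul _)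
    hi.integral_prod_left, integral_const_mul, P.ring_int one_pos, mul_one]
  congr 1
  unfold κ2
  refine integral_congr_ae (Filter.Eventually.of_forall fun x => ?_)
  refine integral_congr_ae (Filter.Eventually.of_forall fun y => ?_)
  simp only [gk, hring]

/-- The logarithmic energy of finitely many radial charges `b i` on the rings of radii `r i`. -/
theorem energy {n : ℕ} (r b : Fin n → ℝ) (hr : ∀ i, 0 < r i) :
    ∫ x, ∫ y, lg x y * (∑ i, b i * P.ring (r i) x) * (∑ j, b j * P.ring (r j) y)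
      = ∑ i, ∑ j, b i * b j * ∫ x, ∫ y, P.gk (r i) (r j) x y := by
  rcases Nat.eq_zero_or_pos n with hn | hn
  · subst hn
    simp
  -- the radial function
  set F : ℝ → ℝ := fun t => ∑ j, b j * ((r j ^ 2)⁻¹ * P.φ (t / r j ^ 2)) with hF
  have hFc : Continuous F := by
    rw [hF]
    exact continuous_finsetSum _ (fun j _ => continuous_const.mul
      (continuous_const.mul (P.cont.comp (continuous_id.div_const _))))
  have hne : (Finset.univ : Finset (Fin n)).Nonempty := ⟨⟨0, hn⟩, Finset.mem_univ _⟩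
  obtain ⟨i0, -, hi0⟩ := Finset.exists_min_image Finset.univ r hne
  obtain ⟨i1, -, hi1⟩ := Finset.exists_max_image Finset.univ r hne
  have hFs : ∀ t, F t ≠ 0 → r i0 ^ 2 ≤ t ∧ t ≤ (2 * r i1) ^ 2 := by
    intro t ht
    obtain ⟨j, -, hj⟩ := Finset.exists_ne_zero_of_sum_ne_zero ht
    have h1 := P.supp _ (right_ne_zero_of_mul (right_ne_zero_of_mul hj))
    have hr2 : 0 < r j ^ 2 := by have := hr j; positivity
    rw [le_div_iff₀ hr2, div_le_iff₀ hr2] at h1
    have h2 := hi0 j (Finset.mem_univ _)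
    have h3 := hi1 j (Finset.mem_univ _)
    have h4 := hr i0
    have h5 := hr j
    constructor
    · nlinarith [h1.1]
    · nlinarith [h1.2]
  have hFx : ∀ x : ℝ × ℝ, ∑ j, b j * P.ring (r j) x = F (nq x) := fun x => rfl
  have step1 : ∀ x : ℝ × ℝ,
      ∫ y, lg x y * (∑ i, b i * P.ring (r i) x) * (∑ j, b j * P.ring (r j) y)
        = ∫ y, ∑ i, ∑ j, b i * b j * P.gk (r i) (r j) x y := by
    intro x
    simp only [hFx]
    have h1 : (fun y => lg x y * F (nq x) * F (nq y)) = fun y => F (nq x) * (lg x y * F (nq y)) := by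
      funext y; ring
    rw [h1, integral_const_mul, newton hFc (hr i0) hFs (by have := hr i1; positivity) x,
      ← integral_const_mul]
    refine integral_congr_ae (Filter.Eventually.of_forall fun y => ?_)
    simp only [← hFx, gk, Finset.mul_sum, Finset.sum_mul]
    rw [Finset.sum_comm]
    refine Finset.sum_congr rfl fun i _ => Finset.sum_congr rfl fun j _ => ?_
    ring
  simp only [step1]
  have hint : ∀ i j, Integrable (fun z : (ℝ × ℝ) × (ℝ × ℝ) =>
      b i * b j * P.gk (r i) (r j) z.1 z.2) ((volume : Measure (ℝ × ℝ)).prod volume) :=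
    fun i j => (P.gk_integrable (hr i) (hr j)).const_mul _
  have hint2 : Integrable (fun z : (ℝ × ℝ) × (ℝ × ℝ) =>
      ∑ i, ∑ j, b i * b j * P.gk (r i) (r j) z.1 z.2)
      ((volume : Measure (ℝ × ℝ)).prod volume) :=
    integrable_finsetSum _ (fun i _ => integrable_finsetSum _ (fun j _ => hint i j))
  have e := integral_prod _ hint2
  simp only at e
  rw [← e, integral_finsetSum _ (fun i _ => integrable_finsetSum _ (fun j _ => hint i j))]
  refine Finset.sum_congr rfl fun i _ => ?_
  rw [integral_finsetSum _ (fun j _ => hint i j)]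
  refine Finset.sum_congr rfl fun j _ => ?_
  rw [integral_const_mul, integral_prod _ (P.gk_integrable (hr i) (hr j))]

/-- **Energy of separated radial charges.** -/
theorem energy_eq {n : ℕ} (r b : Fin n → ℝ) (hr : ∀ i, 0 < r i)
    (hsep : ∀ i j, i < j → 2 * r i ≤ r j) :
    ∫ x, ∫ y, lg x y * (∑ i, b i * P.ring (r i) x) * (∑ j, b j * P.ring (r j) y)
      = ∑ i, ∑ j, b i * b j * (Real.log (max (r i) (r j)) + if i = j then P.κ2 else P.κ1) := by
  rw [P.energy r b hr]
  refine Finset.sum_congr rfl fun i _ => Finset.sum_congr rfl fun j _ => ?_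
  congr 1
  rcases lt_trichotomy i j with h | h | h
  · have h1 := hsep i j h
    have h2 := hr i
    rw [P.gk_lt (hr i) h1, if_neg h.ne, max_eq_right (by linarith)]
  · subst h
    rw [P.gk_self (hr i), if_pos rfl, max_self]
  · have h1 := hsep j i h
    have h2 := hr j
    rw [P.gk_symm (hr i) (hr j), P.gk_lt (hr j) h1, if_neg h.ne', max_eq_left (by linarith)]


/-! ### Chains of radii -/

lemma sum_sum_succ (n : ℕ) (a : ℕ → ℕ → ℝ) :
    ∑ i ∈ Finset.range (n + 1), ∑ j ∈ Finset.range (n + 1), a i j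
      = (∑ i ∈ Finset.range n, ∑ j ∈ Finset.range n, a i j)
        + (∑ i ∈ Finset.range n, (a i n + a n i)) + a n n := by
  rw [Finset.sum_range_succ, Finset.sum_range_succ]
  simp only [Finset.sum_range_succ, Finset.sum_add_distrib]
  ring

lemma quad_chain (r b : ℕ → ℝ) (hm : Monotone r) (n : ℕ) :
    ∑ i ∈ Finset.range (n + 1), ∑ j ∈ Finset.range (n + 1), b i * b j
        * Real.log (max (r i) (r j))
      = (∑ i ∈ Finset.range (n + 1), b i) ^ 2 * Real.log (r n)
        - ∑ k ∈ Finset.range n, (∑ i ∈ Finset.range (k + 1), b i) ^ 2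
          * (Real.log (r (k + 1)) - Real.log (r k)) := by
  induction n with
  | zero =>
    simp only [zero_add, Finset.sum_range_one, Finset.range_zero, Finset.sum_empty, max_self,
      sub_zero]
    ring
  | succ n ih =>
    rw [sum_sum_succ, ih, Finset.sum_range_succ (fun k => (∑ i ∈ Finset.range (k + 1), b i) ^ 2
      * (Real.log (r (k + 1)) - Real.log (r k))), Finset.sum_range_succ b (n + 1)]
    have h1 : ∑ i ∈ Finset.range (n + 1), (b i * b (n + 1) * Real.log (max (r i) (r (n + 1)))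
        + b (n + 1) * b i * Real.log (max (r (n + 1)) (r i)))
        = 2 * b (n + 1) * Real.log (r (n + 1)) * ∑ i ∈ Finset.range (n + 1), b i := by
      rw [Finset.mul_sum]
      refine Finset.sum_congr rfl fun i hi => ?_
      have h2 : r i ≤ r (n + 1) := hm (by rw [Finset.mem_range] at hi; omega)
      rw [max_eq_right h2, max_eq_left h2]
      ring
    rw [h1, max_self]
    ring

lemma quad_diag (b : ℕ → ℝ) (k1 k2 : ℝ) (n : ℕ) :
    ∑ i ∈ Finset.range n, ∑ j ∈ Finset.range n, b i * b j * (if i = j then k2 else k1)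
      = k1 * (∑ i ∈ Finset.range n, b i) ^ 2 - (k1 - k2) * ∑ i ∈ Finset.range n, b i ^ 2 := by
  have h1 : ∀ i ∈ Finset.range n, ∑ j ∈ Finset.range n, b i * b j * (if i = j then k2 else k1)
      = k1 * (b i * ∑ j ∈ Finset.range n, b j) - (k1 - k2) * b i ^ 2 := by
    intro i hi
    have h2 : ∀ j ∈ Finset.range n, b i * b j * (if i = j then k2 else k1)
        = k1 * (b i * b j) - (if i = j then (k1 - k2) * b i ^ 2 else 0) := by
      intro j _
      split_ifs with h
      · subst h; ring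
      · ring
    rw [Finset.sum_congr rfl h2, Finset.sum_sub_distrib, ← Finset.mul_sum, ← Finset.mul_sum,
      Finset.sum_ite_eq, if_pos hi]
  rw [Finset.sum_congr rfl h1, Finset.sum_sub_distrib, ← Finset.mul_sum, ← Finset.mul_sum,
    ← Finset.sum_mul]
  ring

/-- The test function of the charges `b 0, …, b n` on the rings of radii `r 0, …, r n`. -/
noncomputable def charge (r b : ℕ → ℝ) (n : ℕ) (x : ℝ × ℝ) : ℝ :=
  ∑ i ∈ Finset.range (n + 1), b i * P.ring (r i) x

lemma charge_smooth (r b : ℕ → ℝ) (n : ℕ) :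
    ContDiff ℝ ((⊤ : ℕ∞) : WithTop ℕ∞) (P.charge r b n) := by
  unfold charge
  exact ContDiff.sum (fun i _ => contDiff_const.mul (P.ring_smooth _))

lemma charge_compact (r b : ℕ → ℝ) (n : ℕ) (hr : ∀ i, 0 < r i) :
    HasCompactSupport (P.charge r b n) := by
  refine HasCompactSupport.intro (K := ⋃ i ∈ Finset.range (n + 1), tsupport (P.ring (r i)))
    ((Finset.range (n + 1)).isCompact_biUnion (fun i _ => P.ring_compact (hr i))) (fun x hx => ?_)
  unfold charge
  refine Finset.sum_eq_zero (fun i hi => ?_)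
  have h1 : x ∉ tsupport (P.ring (r i)) := fun h => hx (Set.mem_biUnion hi h)
  rw [image_eq_zero_of_notMem_tsupport h1, mul_zero]

lemma charge_int (r b : ℕ → ℝ) (n : ℕ) (hr : ∀ i, 0 < r i) :
    ∫ x, P.charge r b n x = ∑ i ∈ Finset.range (n + 1), b i := by
  unfold charge
  rw [integral_finsetSum _ (fun i _ => (P.ring_integrable (hr i)).const_mul _)]
  refine Finset.sum_congr rfl (fun i _ => ?_)
  rw [integral_const_mul, P.ring_int (hr i), mul_one]

/-- Covariance (of the Gaussian free field modulo constants, kernel `-(2π)⁻¹ log |x - y|`) of a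
neutral system of radial charges: each annulus between two consecutive rings contributes the
square of the charge inside times the logarithm of the ratio of the radii. -/
theorem charge_cov (r b : ℕ → ℝ) (n : ℕ) (hr0 : 0 < r 0) (hr : ∀ i, 2 * r i ≤ r (i + 1))
    (hb : ∑ i ∈ Finset.range (n + 1), b i = 0) :
    ∫ x, ∫ y, (-(2 * π)⁻¹ * Real.log (Real.sqrt ((x.1 - y.1) ^ 2 + (x.2 - y.2) ^ 2)))
        * P.charge r b n x * P.charge r b n y
      = (2 * π)⁻¹ * (∑ k ∈ Finset.range n, (∑ i ∈ Finset.range (k + 1), b i) ^ 2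
          * Real.log (r (k + 1) / r k)
        + (P.κ1 - P.κ2) * ∑ i ∈ Finset.range (n + 1), b i ^ 2) := by
  have hpos : ∀ i, 0 < r i := by
    intro i
    induction i with
    | zero => exact hr0
    | succ i ih => linarith [hr i]
  have hm : Monotone r := monotone_nat_of_le_succ (fun i => by linarith [hr i, hpos i])
  have hsep : ∀ i j : ℕ, i < j → 2 * r i ≤ r j := by
    intro i j hij
    exact le_trans (hr i) (hm hij)
  have e1 : ∀ x, P.charge r b n x = ∑ i : Fin (n + 1), b i * P.ring (r i) x := by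
    intro x
    unfold charge
    rw [Finset.sum_range]
  have e2 : ∀ x y : ℝ × ℝ, (-(2 * π)⁻¹ * Real.log (Real.sqrt ((x.1 - y.1) ^ 2 + (x.2 - y.2) ^ 2)))
        * P.charge r b n x * P.charge r b n y
      = -(2 * π)⁻¹ * (lg x y * (∑ i : Fin (n + 1), b i * P.ring (r i) x)
        * (∑ i : Fin (n + 1), b i * P.ring (r i) y)) := by
    intro x y
    rw [← e1, ← e1]
    unfold lg
    ring
  simp only [e2, integral_const_mul]
  rw [P.energy_eq (fun i : Fin (n + 1) => r i) (fun i => b i) (fun i => hpos i)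
    (fun i j hij => hsep i j hij)]
  have e3 : ∑ i : Fin (n + 1), ∑ j : Fin (n + 1), b i * b j * (Real.log (max (r i) (r j))
        + if i = j then P.κ2 else P.κ1)
      = ∑ i ∈ Finset.range (n + 1), ∑ j ∈ Finset.range (n + 1), b i * b j
        * (Real.log (max (r i) (r j)) + if i = j then P.κ2 else P.κ1) := by
    rw [Finset.sum_range]
    refine Finset.sum_congr rfl (fun i _ => ?_)
    rw [Finset.sum_range]
    refine Finset.sum_congr rfl (fun j _ => ?_)
    simp only [Fin.ext_iff]
  rw [e3]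
  simp only [mul_add, Finset.sum_add_distrib]
  rw [quad_chain r b hm n, quad_diag, hb]
  have e4 : ∀ k ∈ Finset.range n, (∑ i ∈ Finset.range (k + 1), b i) ^ 2
        * (Real.log (r (k + 1)) - Real.log (r k))
      = (∑ i ∈ Finset.range (k + 1), b i) ^ 2 * Real.log (r (k + 1) / r k) := by
    intro k _
    rw [Real.log_div (hpos _).ne' (hpos _).ne']
  rw [Finset.sum_congr rfl e4]
  ring

end Prof

end Vale.Agent.P167.H638
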