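import Vale.Agent.P167.H562.EAbs

/-!
# P167, block LAYER: exponential moments of multi-scale sums with general bounds per scale
-/

open MeasureTheory ProbabilityTheory Real Finset
open scoped ENNReal

namespace Vale.Agent.P167.H638.L

open Vale.Agent.P167.H562 (Em Em_mono indep' Em_holder)

variable {Ω : Type*} [MeasurableSpace Ω] {μ : Measure Ω}

theorem geom_34 (J : ℕ) : ∑ j ∈ Finset.range J, ((3 : ℝ) / 4) ^ j ≤ 4 := by
  have h : ∀ J : ℕ, ∑ j ∈ Finset.range J, ((3 : ℝ) / 4) ^ j = 4 - 4 * (3 / 4) ^ J := by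
    intro J
    induction J with
    | zero => simp
    | succ n ih => rw [Finset.sum_range_succ, ih]; ring
  rw [h]
  have : (0 : ℝ) ≤ (3 / 4) ^ J := by positivity
  linarith

/-- Sums over scales `j < J`, colour classes `k : Fin c` and an index set of independent terms, each at
most `a j` times a variable with a bounded exponential moment; `a j ≤ α 2^(-j)` and
`a j ^ 2 * (number of terms) ≤ β 2^(-j)`. -/
theorem ms2 [IsProbabilityMeasure μ] {ι : Type*} (J c : ℕ) (hc : 0 < c)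
    (I : ℕ → Fin c → Finset ι) {X K : ℕ → ι → Ω → ℝ}
    (hX : ∀ j < J, ∀ k, ∀ i ∈ I j k, Measurable (X j i))
    (hK : ∀ j < J, ∀ k, ∀ i ∈ I j k, Measurable (K j i))
    (hind : ∀ j < J, ∀ k, iIndepFun (fun i : I j k => X j i) μ)
    {a : ℕ → ℝ} {α β s t M : ℝ} (hα : 0 ≤ α) (hβ : 0 ≤ β) (hs : 0 ≤ s)
    (hM0 : 0 ≤ M) (ha : ∀ j < J, a j ≤ α * (1 / 2) ^ j)
    (hK0 : ∀ j < J, ∀ k, ∀ i ∈ I j k, ∀ ω, 0 ≤ K j i ω)
    (hXK : ∀ j < J, ∀ k, ∀ i ∈ I j k, ∀ ω, |X j i ω| ≤ a j * K j i ω)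
    (hcard : ∀ j < J, ∀ k, a j ^ 2 * ((I j k).card : ℝ) ≤ β * (1 / 2) ^ j)
    (hts : 4 * c * α * |t| ≤ s)
    (hM : ∀ j < J, ∀ k, ∀ i ∈ I j k, Em μ (fun ω => (s + 1) * K j i ω) ≤ ENNReal.ofReal M) :
    Em μ (fun ω => t * ∑ j ∈ Finset.range J, ∑ k : Fin c, ∑ i ∈ I j k,
      (X j i ω - ∫ x, X j i x ∂μ)) ≤
      ENNReal.ofReal (exp (32 * M * exp ((s + 1) * M) * c ^ 2 * β * t ^ 2)) := by
  classical
  set G : ℝ := 2 * M * exp ((s + 1) * M) with hG
  have hG0 : 0 ≤ G := by positivity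
  have hc' : (0 : ℝ) < c := by exact_mod_cast hc
  let θ : ℕ × Fin c → ℝ := fun p => (3 / 4) ^ p.1 / (4 * c)
  let Y : ℕ × Fin c → Ω → ℝ := fun p ω => t * ∑ i ∈ I p.1 p.2, (X p.1 i ω - ∫ x, X p.1 i x ∂μ)
  have hθ : ∀ p, 0 < θ p := fun p => by positivity
  have hsum : ∑ p ∈ (Finset.range J) ×ˢ (Finset.univ : Finset (Fin c)), θ p ≤ 1 := by
    rw [Finset.sum_product]
    simp only [θ, Finset.sum_const, Finset.card_univ, Fintype.card_fin, nsmul_eq_mul]
    calc ∑ j ∈ Finset.range J, (c : ℝ) * ((3 / 4) ^ j / (4 * c))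
        = (1 / 4) * ∑ j ∈ Finset.range J, ((3 : ℝ) / 4) ^ j := by
          rw [Finset.mul_sum]
          exact Finset.sum_congr rfl fun j _ => by field_simp
      _ ≤ 1 := by linarith [geom_34 J]
  have hYm : ∀ p ∈ (Finset.range J) ×ˢ (Finset.univ : Finset (Fin c)), Measurable (Y p) := by
    intro p hp
    have hj : p.1 < J := by simpa using (Finset.mem_product.1 hp).1
    refine Measurable.const_mul ?_ _
    exact Finset.measurable_fun_sum _ fun i hi => (hX _ hj _ i hi).sub measurable_const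
  have hB : ∀ p ∈ (Finset.range J) ×ˢ (Finset.univ : Finset (Fin c)),
      Em μ (fun ω => (θ p)⁻¹ * Y p ω) ≤
        ENNReal.ofReal (exp (16 * G * c ^ 2 * β * t ^ 2)) := by
    rintro ⟨j, k⟩ hp
    have hj : j < J := by simpa using (Finset.mem_product.1 hp).1
    have e1 : (fun ω => (θ (j, k))⁻¹ * Y (j, k) ω) =
        fun ω => (((4 / 3) ^ j * (4 * c) * t) * ∑ i ∈ I j k, (X j i ω - ∫ x, X j i x ∂μ)) := by
      ext ω
      simp only [θ, Y]
      rw [inv_div, ← mul_assoc]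
      congr 1
      have h1 : ((3 : ℝ) / 4) ^ j * (4 / 3) ^ j = 1 := by rw [← mul_pow]; norm_num
      have h2 : ((3 : ℝ) / 4) ^ j ≠ 0 := by positivity
      field_simp
      linear_combination (-t) * h1
    rw [e1]
    have h := indep' (μ := μ) (I j k) (X := X j) (K := K j) (hX j hj k) (hK j hj k)
      (hind j hj k) (a := a j) (s := s) (t := (4 / 3) ^ j * (4 * c) * t) (M := M) hs
      (hK0 j hj k) (hXK j hj k) (by
        rw [abs_mul, abs_of_nonneg (by positivity : (0 : ℝ) ≤ (4 / 3) ^ j * (4 * c))]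
        have h1 : (4 / 3 : ℝ) ^ j * (4 * c) * |t| * a j ≤
            (4 / 3 : ℝ) ^ j * (4 * c) * |t| * (α * (1 / 2) ^ j) :=
          mul_le_mul_of_nonneg_left (ha j hj) (by positivity)
        have h2 : (4 / 3 : ℝ) ^ j * (4 * c) * |t| * (α * (1 / 2) ^ j) =
            (4 * c * α * |t|) * (2 / 3) ^ j := by
          have : ((2 : ℝ) / 3) ^ j = (4 / 3) ^ j * (1 / 2) ^ j := by
            rw [← mul_pow]; norm_num
          rw [this]; ring
        have h3 : ((2 : ℝ) / 3) ^ j ≤ 1 := pow_le_one₀ (by norm_num) (by norm_num)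
        have h4 : 0 ≤ 4 * c * α * |t| := by positivity
        nlinarith) (hM j hj k)
    refine le_trans h (ENNReal.ofReal_le_ofReal (Real.exp_le_exp.2 ?_))
    rw [← hG]
    have h4 : ((4 / 3) ^ j * (4 * (c : ℝ)) * t) ^ 2 * a j ^ 2 * (I j k).card ≤
        16 * c ^ 2 * β * t ^ 2 := by
      have h5 := hcard j hj k
      calc ((4 / 3) ^ j * (4 * (c : ℝ)) * t) ^ 2 * a j ^ 2 * (I j k).card
          = ((4 / 3) ^ j * (4 * (c : ℝ)) * t) ^ 2 * (a j ^ 2 * (I j k).card) := by ring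
        _ ≤ ((4 / 3) ^ j * (4 * (c : ℝ)) * t) ^ 2 * (β * (1 / 2) ^ j) :=
            mul_le_mul_of_nonneg_left h5 (by positivity)
        _ = 16 * c ^ 2 * β * t ^ 2 * (8 / 9) ^ j := by
            have : ((8 : ℝ) / 9) ^ j = ((4 / 3) ^ j) ^ 2 * (1 / 2) ^ j := by
              rw [← pow_mul, mul_comm j 2, pow_mul, ← mul_pow]; norm_num
            rw [this]; ring
        _ ≤ 16 * c ^ 2 * β * t ^ 2 * 1 :=
            mul_le_mul_of_nonneg_left (pow_le_one₀ (by norm_num) (by norm_num)) (by positivity)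
        _ = _ := mul_one _
    calc G * (((4 / 3) ^ j * (4 * (c : ℝ)) * t) ^ 2 * a j ^ 2) * (I j k).card
        = G * (((4 / 3) ^ j * (4 * (c : ℝ)) * t) ^ 2 * a j ^ 2 * (I j k).card) := by ring
      _ ≤ G * (16 * c ^ 2 * β * t ^ 2) := mul_le_mul_of_nonneg_left h4 hG0
      _ = _ := by ring
  have hfin := Em_holder ((Finset.range J) ×ˢ (Finset.univ : Finset (Fin c))) hYm
    (fun p _ => hθ p) hsum hB
  have e5 : (fun ω => t * ∑ j ∈ Finset.range J, ∑ k : Fin c, ∑ i ∈ I j k,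
      (X j i ω - ∫ x, X j i x ∂μ)) =
      fun ω => ∑ p ∈ (Finset.range J) ×ˢ (Finset.univ : Finset (Fin c)), Y p ω := by
    ext ω
    rw [Finset.sum_product]
    simp only [Y, Finset.mul_sum]
  rw [e5]
  refine le_trans hfin (ENNReal.ofReal_le_ofReal (Real.exp_le_exp.2 ?_))
  rw [← Finset.sum_mul]
  have h6 : 0 ≤ 16 * G * c ^ 2 * β * t ^ 2 := by positivity
  calc (∑ p ∈ (Finset.range J) ×ˢ (Finset.univ : Finset (Fin c)), θ p) *
        (16 * G * c ^ 2 * β * t ^ 2)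
      ≤ 1 * (16 * G * c ^ 2 * β * t ^ 2) := mul_le_mul_of_nonneg_right hsum h6
    _ = _ := by rw [hG]; ring

end Vale.Agent.P167.H638.L
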