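import Vale.Agent.P167.H638.L9

/-!
# P167, block LAYER: the abstract layer theorem
-/

namespace Vale.Agent.P167.H638.L

open Finset MeasureTheory Filter Topology
open Vale.Agent.P167.BR
open Vale.Agent.P167.H562 (Em)
open Vale.Agent.P167.H167 (Fd fd_pcs Geo tot)

theorem Em_int {S : Cfg → ℝ} (hS : Fd S) {t M : ℝ} (hM : 0 ≤ M)
    (h : Em μ (fun ω => t * S ω) ≤ ENNReal.ofReal M) : ∫ ω, Real.exp (t * S ω) ∂μ ≤ M := by
  have f : Fd (fun ω => Real.exp (t * S ω)) := hS.comp fun x => Real.exp (t * x)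
  rw [H562.Em_eq f.int] at h
  exact (ENNReal.ofReal_le_ofReal_iff hM).1 h

/-- A continuous function which vanishes at `0` is small at some positive point, together with all
smaller ones. -/
theorem exists_small {F : ℝ → ℝ} (hF : ContinuousAt F 0) (h0 : F 0 = 0) {ε : ℝ} (hε : 0 < ε) :
    ∃ δ > 0, ∀ x, 0 < x → x < δ → F x ≤ ε := by
  have h1 : ∀ᶠ x in 𝓝 (0 : ℝ), F x < ε := hF.eventually_lt_const (by rw [h0]; exact hε)
  obtain ⟨δ, hδ, h⟩ := Metric.eventually_nhds_iff.1 h1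
  refine ⟨δ, hδ, fun x hx hxδ => (h ?_).le⟩
  rw [Real.dist_eq, sub_zero, abs_of_pos hx]
  exact hxδ

theorem exists_small_const (k : ℝ) {ε : ℝ} (hε : 0 < ε) :
    ∃ δ > 0, ∀ x, 0 < x → x < δ → k * x ≤ ε :=
  exists_small (F := fun x => k * x) (by fun_prop) (by simp) hε

/-- **The layer theorem.** -/
theorem layer (K : ℤ) (c0 R B Q : ℝ) (hK : 1 ≤ K) (hc0 : 0 < c0) (hR : 0 ≤ R) (hB : 0 < B)
    (hQ : 0 < Q) : ∀ ε > 0, ∃ w0 > 0, ∀ w, 0 < w → w < w0 → ∃ n0 : ℝ, ∀ n ≥ n0,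
    ∀ (D T : Finset (ℤ × ℤ)) (p : ℤ × ℤ) (g : ℤ × ℤ → ℝ) (c : Ed → ℝ),
      Lay K c0 R B Q w n D T p g c →
      ∫ ω, |XD D p (fun z => g z + dvf c z) ω - XD D p g ω| ∂μ ≤ ε := by
  intro ε hε
  obtain ⟨c1, C1, hc1, hC1, hS⟩ := em_S
  obtain ⟨c2, C2, hc2, hC2, hGm⟩ := em_G
  obtain ⟨C3, α, hC3, hα, hbig⟩ := big_S
  have hKR : (1 : ℝ) ≤ K := by exact_mod_cast hK
  set k1 : ℝ := Q * K ^ 2 * B with hk1
  set k2 : ℝ := 9 * K ^ 2 * B with hk2
  have hk1p : 0 < k1 := by positivity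
  have hk2p : 0 < k2 := by positivity
  -- the scale `κ0`
  obtain ⟨κ0, hκ0, q1, q2, q3, q4, q5, q6, q7⟩ : ∃ κ0 : ℝ, 0 < κ0 ∧ κ0 ≤ 1 / 2 ∧ κ0 ≤ c0 ∧
      K * κ0 ≤ c0 ∧ (k1 + k2) * κ0 ≤ 1 / 5 ∧ k1 * κ0 * 10 ≤ c1 ∧ k2 * κ0 * 4 ≤ c2 ∧
      k1 * √κ0 ≤ c1 := by
    obtain ⟨d1, hd1, e1⟩ := exists_small_const 1 (by norm_num : (0 : ℝ) < 1 / 2)
    obtain ⟨d2, hd2, e2⟩ := exists_small_const 1 hc0
    obtain ⟨d3, hd3, e3⟩ := exists_small_const K hc0
    obtain ⟨d4, hd4, e4⟩ := exists_small_const (k1 + k2) (by norm_num : (0 : ℝ) < 1 / 5)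
    obtain ⟨d5, hd5, e5⟩ := exists_small_const (k1 * 10) hc1
    obtain ⟨d6, hd6, e6⟩ := exists_small_const (k2 * 4) hc2
    obtain ⟨d7, hd7, e7⟩ := exists_small (F := fun x => k1 * √x) (by fun_prop) (by simp) hc1
    set x := min (min (min d1 d2) (min d3 d4)) (min (min d5 d6) d7) / 2 with hx
    have hm : 0 < min (min (min d1 d2) (min d3 d4)) (min (min d5 d6) d7) :=
      lt_min (lt_min (lt_min hd1 hd2) (lt_min hd3 hd4)) (lt_min (lt_min hd5 hd6) hd7)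
    have hx0 : 0 < x := by positivity
    have hxlt : x < min (min (min d1 d2) (min d3 d4)) (min (min d5 d6) d7) := by
      rw [hx]; linarith
    simp only [lt_min_iff] at hxlt
    obtain ⟨⟨⟨l1, l2⟩, l3, l4⟩, ⟨l5, l6⟩, l7⟩ := hxlt
    refine ⟨x, hx0, ?_, ?_, e3 x hx0 l3, e4 x hx0 l4, ?_, ?_, e7 x hx0 l7⟩
    · have := e1 x hx0 l1; linarith
    · have := e2 x hx0 l2; linarith
    · have := e5 x hx0 l5; linarith
    · have := e6 x hx0 l6; linarith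
  obtain ⟨C4, n4, hC4, hn4, hNb⟩ := int_Nb κ0 R hκ0 hR
  -- the constants
  set e1 : ℝ := Real.exp (C1 * (3 * k1 * (k1 + k2) * Q * κ0) * 110) with he1
  set A1 : ℝ := Real.exp (C2 * (k2 ^ 2 * (4 * (R + 2) ^ 2) * κ0) * 20) with hA1
  set M5 : ℝ := Real.exp (C1 * (3 * k1 * (k1 + k2) * Q) * 2) with hM5
  have he1p : 0 < e1 := Real.exp_pos _
  have hA1p : 0 < A1 := Real.exp_pos _
  have hM5p : 0 < M5 := Real.exp_pos _
  -- `δ`
  obtain ⟨δ0, hδ0, hδ⟩ := exists_small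
    (F := fun x => √(√A1 * √C4) * √(2 * √(√x * √(10080 * e1)) + 8 * x)) (by fun_prop) (by simp) hε
  set δ := δ0 / 2 with hδd
  have hδp : 0 < δ := by positivity
  have hδε := hδ δ hδp (by rw [hδd]; linarith)
  -- `κ`
  obtain ⟨d8, hd8, e8⟩ := exists_small (F := fun x => 2 * M5 * √x) (by fun_prop) (by simp)
    (by positivity : 0 < δ / 2)
  set κ := min (d8 / 2) κ0 with hκd
  have hκ : 0 < κ := lt_min (by positivity) hκ0
  have hκκ0 : κ ≤ κ0 := min_le_right _ _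
  have hκδ : 2 * M5 * √κ ≤ δ / 2 := e8 κ hκ (lt_of_le_of_lt (min_le_left _ _) (by linarith))
  -- `w0`
  obtain ⟨d9, hd9, e9⟩ := exists_small (F := fun w => 4 * (C3 * Q * B * (2 * w / κ) ^ α))
    (by
      have h1 : ContinuousAt (fun w : ℝ => (2 * w / κ) ^ α) 0 :=
        ContinuousAt.rpow_const (by fun_prop) (Or.inr hα.le)
      exact (h1.const_mul _).const_mul _)
    (by simp [Real.zero_rpow hα.ne']) (by positivity : 0 < δ / 2)
  obtain ⟨d10, hd10, e10⟩ := exists_small (F := fun w => C3 * Q * B * (2 * w / κ0) ^ α)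
    (by
      have h1 : ContinuousAt (fun w : ℝ => (2 * w / κ0) ^ α) 0 :=
        ContinuousAt.rpow_const (by fun_prop) (Or.inr hα.le)
      exact h1.const_mul _)
    (by simp [Real.zero_rpow hα.ne']) hδp
  refine ⟨min (min d9 d10) (κ / 2), lt_min (lt_min hd9 hd10) (by positivity), fun w hw hww0 => ?_⟩
  simp only [lt_min_iff] at hww0
  obtain ⟨⟨w1, w2⟩, w3⟩ := hww0
  have g9 := e9 w hw w1
  have g10 := e10 w hw w2
  refine ⟨max (max (1 / κ) (1 / w)) (max n4 1), fun n hn D T p g c hL => ?_⟩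
  simp only [ge_iff_le, max_le_iff] at hn
  obtain ⟨⟨n1, n2⟩, n3, n5⟩ := hn
  have hnp : 0 < n := by linarith
  have hκn : 1 ≤ κ * n := by rw [div_le_iff₀ hκ] at n1; linarith
  have hwn : 1 ≤ w * n := by rw [div_le_iff₀ hw] at n2; linarith
  have hκ0n : 1 ≤ κ0 * n := hκn.trans (mul_le_mul_of_nonneg_right hκκ0 hnp.le)
  obtain ⟨m, hG, hm⟩ := hL.geo
  have hc0m : κ0 * n ≤ m := (mul_le_mul_of_nonneg_right q2 hnp.le).trans hm
  have hKr : (K : ℝ) * (κ0 * n) ≤ c0 * n := by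
    calc (K : ℝ) * (κ0 * n) = K * κ0 * n := by ring
      _ ≤ c0 * n := mul_le_mul_of_nonneg_right q3 hnp.le
  -- smallness of the masses
  have hsm : ∀ ω, ∀ A ∈ pcs ω D, Small (κ0 * n) A →
      |mass D p g A| + |mass D p (dvf c) A| ≤ 1 / 5 := by
    intro ω A hA hs
    obtain ⟨m1, m2⟩ := hL.mb hB hQ.le hw hnp hκ0n (mul_le_mul_of_nonneg_right q2 hnp.le) hA hs
    have m3 := (hL.mb_small hB hQ.le hw hnp (by linarith) q2 q4 hκ0n le_rfl).1
    linarith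
  have hpos1 : ∀ ω, Pos D p g (κ0 * n) ω := pos_of hG hκ0n hc0m hL.dg hKr hL.totg
    fun ω A hA hs => by
      have := hsm ω A hA hs
      linarith [abs_nonneg (mass D p (dvf c) A)]
  have hpos2 : ∀ ω, Pos D p (fun z => g z + dvf c z) (κ0 * n) ω :=
    pos_of hG hκ0n hc0m (hL.dg.add hL.dη) hKr (tot_add hL.totg hL.totη) fun ω A hA hs => by
      rw [mass_add]
      exact (abs_add_le _ _).trans (hsm ω A hA hs)
  -- exponential moments
  have t1 : ∫ ω, Real.exp (4 * Sf D p (fun _ => 0) g (κ0 * n) ω) ∂μ ≤ √A1 ^ 2 := by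
    rw [Real.sq_sqrt hA1p.le]
    refine Em_int (fd_Sf _ _ _ _ _) hA1p.le ?_
    refine (hGm K c0 R B Q w n D T p g c κ0 4 hL hB hQ.le hR hw n5 hκ0 q1 q2 q3 q4 hκ0n
      (by rw [abs_of_pos (by norm_num : (0 : ℝ) < 4)]; exact q6)).trans
      (le_of_eq ?_)
    rw [hA1, hk2]
    norm_num
  have t2 : ∫ ω, (16 : ℝ) ^ Nb D (κ0 * n) ω ∂μ ≤ √C4 ^ 2 := by
    rw [Real.sq_sqrt hC4.le]
    exact hNb n n3 D hL.box
  have t3 : ∀ s : ℝ, |s| = 10 → ∫ ω, Real.exp (s * Sf D p g (dvf c) (κ0 * n) ω) ∂μ ≤ e1 := by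
    intro s hs
    refine Em_int (fd_Sf _ _ _ _ _) he1p.le ?_
    refine (hS K c0 R B Q w n D T p g c κ0 s hL hB hQ.le hw hnp hκ0 q1 q2 q3 q4 hκ0n
      (by rw [hs]; exact q5)).trans (le_of_eq ?_)
    have hs2 : s ^ 2 = 100 := by rw [← sq_abs, hs]; norm_num
    rw [he1, hs, hs2, hk1, hk2]
    norm_num
  -- first moment at the scale `κ`
  have hκ12 : κ ≤ 1 / 2 := hκκ0.trans q1
  have hsq : 0 < √κ := Real.sqrt_pos.2 hκ
  have hsq1 : √κ ≤ 1 := Real.sqrt_le_one.2 (by linarith)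
  have hss : √κ * √κ = κ := Real.mul_self_sqrt hκ.le
  have t4 : ∀ s : ℝ, |s| = 1 / √κ → Em μ (fun ω => s * Sf D p g (dvf c) (κ * n) ω) ≤
      ENNReal.ofReal M5 := by
    intro s hs
    refine (hS K c0 R B Q w n D T p g c κ s hL hB hQ.le hw hnp hκ hκ12 (hκκ0.trans q2)
      ((mul_le_mul_of_nonneg_left hκκ0 (by linarith)).trans q3)
      ((mul_le_mul_of_nonneg_left hκκ0 (by positivity)).trans q4) hκn ?_).trans
      (ENNReal.ofReal_le_ofReal (Real.exp_le_exp.2 ?_))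
    · rw [hs, ← hk1]
      have h1 : k1 * κ * (1 / √κ) = k1 * √κ := by
        rw [mul_one_div, div_eq_iff hsq.ne', mul_assoc k1 (√κ) (√κ), hss]
      rw [h1]
      exact (mul_le_mul_of_nonneg_left (Real.sqrt_le_sqrt hκκ0) hk1p.le).trans q7
    · rw [hs, ← hk1, ← hk2]
      have hs2 : s ^ 2 = 1 / κ := by
        rw [← sq_abs, hs, div_pow, one_pow, Real.sq_sqrt hκ.le]
      rw [hs2]
      have h2 : κ * (1 / κ + 1 / √κ) ≤ 2 := by
        have e1 : κ * (1 / κ + 1 / √κ) = 1 + √κ := by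
          rw [mul_add, mul_one_div_cancel hκ.ne']
          congr 1
          rw [mul_one_div, div_eq_iff hsq.ne', hss]
        rw [e1]; linarith
      calc C1 * (3 * k1 * (k1 + k2) * Q * κ) * (1 / κ + 1 / √κ)
          = C1 * (3 * k1 * (k1 + k2) * Q) * (κ * (1 / κ + 1 / √κ)) := by ring
        _ ≤ _ := mul_le_mul_of_nonneg_left h2 (by positivity)
  have t5 : ∫ ω, |Sf D p g (dvf c) (κ * n) ω| ∂μ ≤ δ / 2 := by
    have h := int_abs_le (fd_Sf D p g (dvf c) (κ * n)) (τ := 1 / √κ) (by positivity) hM5p.le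
      (t4 _ (abs_of_pos (by positivity))) (t4 _ (by rw [abs_neg]; exact abs_of_pos (by positivity)))
    refine (h.trans (le_of_eq ?_)).trans hκδ
    rw [div_div_eq_mul_div, div_one]
  -- intermediate pieces
  have t6 : ∫ ω, bigV D p (dvf c) (κ * n) ω ∂μ ≤ C3 * Q * B * (2 * w / κ) ^ α :=
    hbig K c0 R B Q w n D T p g c κ hL hB hQ.le hw hwn (by linarith) (by linarith) hnp
  have t7 : ∫ ω, bigV D p (dvf c) (κ0 * n) ω ∂μ ≤ δ :=
    (hbig K c0 R B Q w n D T p g c κ0 hL hB hQ.le hw hwn (by linarith) (by linarith) hnp).trans g10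
  have t8 : ∫ ω, |Sf D p g (dvf c) (κ0 * n) ω| ∂μ ≤ δ := by
    have f1 : Fd (fun ω => |Sf D p g (dvf c) (κ * n) ω|) := (fd_Sf D p g (dvf c) (κ * n)).abs
    have f2 := fd_bigV D p (dvf c) (κ * n)
    calc ∫ ω, |Sf D p g (dvf c) (κ0 * n) ω| ∂μ
        ≤ ∫ ω, (|Sf D p g (dvf c) (κ * n) ω| + 4 * bigV D p (dvf c) (κ * n) ω) ∂μ := by
          refine integral_mono (fd_Sf D p g (dvf c) (κ0 * n)).abs.int
            (f1.int.add (f2.int.const_mul 4)) fun ω => ?_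
          simp only
          have h1 := Sf_sub (ω := ω) (g := g) hG hκ0n hc0m hL.dη hKr hL.totη
            (mul_le_mul_of_nonneg_right hκκ0 hnp.le) (hsm ω)
          have h2 := abs_sub_abs_le_abs_sub (Sf D p g (dvf c) (κ0 * n) ω)
            (Sf D p g (dvf c) (κ * n) ω)
          linarith
      _ = ∫ ω, |Sf D p g (dvf c) (κ * n) ω| ∂μ + 4 * ∫ ω, bigV D p (dvf c) (κ * n) ω ∂μ := by
          rw [integral_add f1.int (f2.int.const_mul 4), integral_const_mul]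
      _ ≤ δ := by linarith
  have t9 := int_exp_sub (fd_Sf D p g (dvf c) (κ0 * n)) hδp.le he1p.le t8
    (t3 10 (abs_of_pos (by norm_num))) (t3 (-10) (by rw [abs_neg]; exact abs_of_pos (by norm_num)))
  have hfin := comb hpos1 hpos2 (Real.sqrt_nonneg A1) (Real.sqrt_nonneg C4)
    (Real.sqrt_nonneg (√δ * √(10080 * e1))) hδp.le t1 t2
    (by rw [Real.sq_sqrt (by positivity)]; exact t9) t7
  exact hfin.trans hδε

end Vale.Agent.P167.H638.L
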