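import Vale.Agent.P167.H638.L10
import Vale.Agent.P167.H638.LDefs
import Vale.Agent.P167.H436.Geo

/-!
# P167, block LAYER: assembly, from `S2aQ` and `S_strip` to all neutral charges (form in `ℝ × ℝ`)
-/

namespace Vale.Agent.P167.H638.L

open Finset Filter Topology MeasureTheory
open Vale.Agent.P167.BR (VD XD sites eds mem_eds)
open Vale.Agent.P167.H825 (dv dvg lapl domP enl pdir Box alp epos S2aQ)
open Vale.Agent.P167.H327 (fl dv_fl fl_ne fl_le cm_abs_le exists_bd cont_dvg hcs_dvg contDiff_dvg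
  dvg_eq_zero tsupport_dvg isOpen_domP mem_enl)
open Vale.Agent.P167.E6 (IsPolygon Encloses dir region)
open Vale.Agent.P167.H167 (Fd Geo tot)
open scoped ContDiff

theorem dv_eq_dvf : dv = dvf := rfl

/-! ### The discrete domain near a compact set -/

/-- The squares near a compact subset of the domain are in the enlarged polygon. -/
theorem deepK {S₀ : Finset (ℤ × ℤ)} {C : Set (ℝ × ℝ)} (hC : IsCompact C) (hCd : C ⊆ domP S₀) :
    ∃ κ > 0, ∀ᶠ n : ℕ in atTop, ∀ z : ℤ × ℤ,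
      (∃ x ∈ C, |n * x.1 - z.1| ≤ 1 ∧ |n * x.2 - z.2| ≤ 1) →
      ∀ v : ℤ × ℤ, (nm (v - z) : ℝ) ≤ κ * n → v ∈ enl S₀ n := by
  obtain ⟨r, hr, hd⟩ := hC.exists_cthickening_subset_open (isOpen_domP S₀) hCd
  refine ⟨r / 2, by positivity, ?_⟩
  have hev : ∀ᶠ n : ℕ in atTop, 4 / r ≤ (n : ℝ) :=
    tendsto_natCast_atTop_atTop.eventually_ge_atTop _
  filter_upwards [hev, eventually_gt_atTop 0] with n hn hn0 z ⟨x, hx, h1, h2⟩ v hv
  have hn0' : (0 : ℝ) < n := by exact_mod_cast hn0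
  have hrn : 4 ≤ r * n := by rw [div_le_iff₀ hr] at hn; linarith
  set y : ℝ × ℝ := ((v.1 + 1 / 2) / n, (v.2 + 1 / 2) / n) with hy
  have hv1 : |((v.1 - z.1 : ℤ) : ℝ)| ≤ r / 2 * n := by
    refine le_trans ?_ hv
    exact_mod_cast le_max_left _ _
  have hv2 : |((v.2 - z.2 : ℤ) : ℝ)| ≤ r / 2 * n := by
    refine le_trans ?_ hv
    exact_mod_cast le_max_right _ _
  push_cast at hv1 hv2
  have hyd : y ∈ domP S₀ := by
    apply hd
    refine Metric.mem_cthickening_of_dist_le y x r C hx ?_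
    rw [Prod.dist_eq, Real.dist_eq, Real.dist_eq]
    refine max_le ?_ ?_
    · rw [hy]
      simp only
      have e : ((v.1 : ℝ) + 1 / 2) / n - x.1 = (v.1 + 1 / 2 - n * x.1) / n := by field_simp
      rw [e, abs_div, abs_of_pos hn0', div_le_iff₀ hn0']
      rw [abs_le] at *
      constructor <;> linarith [hv1.1, hv1.2, h1.1, h1.2]
    · rw [hy]
      simp only
      have e : ((v.2 : ℝ) + 1 / 2) / n - x.2 = (v.2 + 1 / 2 - n * x.2) / n := by field_simp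
      rw [e, abs_div, abs_of_pos hn0', div_le_iff₀ hn0']
      rw [abs_le] at *
      constructor <;> linarith [hv2.1, hv2.2, h2.1, h2.2]
  have hyr : (⟨y.1, y.2⟩ : ℂ) ∈ region 1 S₀ := interior_subset hyd
  obtain ⟨f, hf, b1, b2, b3, b4⟩ := hyr
  simp only [one_mul] at b1 b2 b3 b4
  rw [mem_enl]
  rw [hy] at b1 b2 b3 b4
  simp only at b1 b2 b3 b4
  rw [le_div_iff₀ hn0'] at b1 b3
  rw [div_le_iff₀ hn0'] at b2 b4
  refine ⟨f, hf, ⟨?_, ?_⟩, ?_, ?_⟩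
  · have : ((n * f.1 : ℤ) : ℝ) < (v.1 + 1 : ℤ) := by push_cast; linarith
    have := Int.cast_lt.1 this
    omega
  · have : (v.1 : ℝ) < (n * f.1 + n : ℤ) := by push_cast; linarith
    exact_mod_cast this
  · have : ((n * f.2 : ℤ) : ℝ) < (v.2 + 1 : ℤ) := by push_cast; linarith
    have := Int.cast_lt.1 this
    omega
  · have : (v.2 : ℝ) < (n * f.2 + n : ℤ) := by push_cast; linarith
    exact_mod_cast this

/-- The enlarged polygon is in a box of size `R n`. -/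
theorem enl_box (S₀ : Finset (ℤ × ℤ)) : ∃ R : ℝ, 0 ≤ R ∧ ∀ n : ℕ, 0 < n → ∀ v ∈ enl S₀ n,
    (nm v : ℝ) ≤ R * n := by
  refine ⟨∑ f ∈ S₀, (|(f.1 : ℝ)| + |(f.2 : ℝ)|) + 1, by positivity, fun n hn v hv => ?_⟩
  rw [mem_enl] at hv
  obtain ⟨f, hf, ⟨h1, h2⟩, h3, h4⟩ := hv
  have hn' : (1 : ℝ) ≤ n := by exact_mod_cast hn
  have h5 : |(f.1 : ℝ)| + |(f.2 : ℝ)| ≤ ∑ f ∈ S₀, (|(f.1 : ℝ)| + |(f.2 : ℝ)|) :=
    Finset.single_le_sum (f := fun f : ℤ × ℤ => |(f.1 : ℝ)| + |(f.2 : ℝ)|)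
      (fun _ _ => by positivity) hf
  have a1 : |(v.1 : ℝ)| ≤ n * |(f.1 : ℝ)| + n := by
    have g1 : (n : ℝ) * f.1 ≤ v.1 := by exact_mod_cast h1
    have g2 : (v.1 : ℝ) < n * f.1 + n := by exact_mod_cast h2
    have g3 : |(n : ℝ) * f.1| = n * |(f.1 : ℝ)| := by rw [abs_mul, abs_of_pos (by linarith)]
    have := neg_abs_le ((n : ℝ) * f.1)
    have := le_abs_self ((n : ℝ) * f.1)
    rw [abs_le]
    constructor <;> linarith
  have a2 : |(v.2 : ℝ)| ≤ n * |(f.2 : ℝ)| + n := by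
    have g1 : (n : ℝ) * f.2 ≤ v.2 := by exact_mod_cast h3
    have g2 : (v.2 : ℝ) < n * f.2 + n := by exact_mod_cast h4
    have g3 : |(n : ℝ) * f.2| = n * |(f.2 : ℝ)| := by rw [abs_mul, abs_of_pos (by linarith)]
    have := neg_abs_le ((n : ℝ) * f.2)
    have := le_abs_self ((n : ℝ) * f.2)
    rw [abs_le]
    constructor <;> linarith
  have e : (nm v : ℝ) = max |(v.1 : ℝ)| |(v.2 : ℝ)| := by
    unfold nm; push_cast; rfl
  rw [e]
  refine max_le ?_ ?_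
  · nlinarith [abs_nonneg (f.1 : ℝ), abs_nonneg (f.2 : ℝ)]
  · nlinarith [abs_nonneg (f.1 : ℝ), abs_nonneg (f.2 : ℝ)]

/-! ### Cells -/

theorem cl_near {n : ℕ} (hn : 0 < n) {x : ℝ × ℝ} {z : ℤ × ℤ} (h : x ∈ H638.cl (1 / n) z) :
    |n * x.1 - z.1| ≤ 1 ∧ |n * x.2 - z.2| ≤ 1 := by
  have hn' : (0 : ℝ) < n := by exact_mod_cast hn
  rw [H638.cl_eq (by positivity)] at h
  obtain ⟨⟨h1, h2⟩, h3, h4⟩ := h
  simp only [one_div] at h1 h2 h3 h4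
  have aux : ∀ a : ℝ, ∀ b : ℝ, (n : ℝ)⁻¹ * (b - 1) ≤ a → a < (n : ℝ)⁻¹ * b → |n * a - b| ≤ 1 := by
    intro a b g1 g2
    have e1 : n * ((n : ℝ)⁻¹ * (b - 1)) = b - 1 := by field_simp
    have e2 : n * ((n : ℝ)⁻¹ * b) = b := by field_simp
    have g3 := mul_le_mul_of_nonneg_left g1 hn'.le
    have g4 := mul_lt_mul_of_pos_left g2 hn'
    rw [abs_le]
    constructor <;> linarith
  exact ⟨aux _ _ h1 h2, aux _ _ h3 h4⟩

theorem deep_cm {S₀ : Finset (ℤ × ℤ)} {C : Set (ℝ × ℝ)} {κ : ℝ} {n : ℕ} (hn : 0 < n)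
    (h : ∀ z : ℤ × ℤ, (∃ x ∈ C, |n * x.1 - z.1| ≤ 1 ∧ |n * x.2 - z.2| ≤ 1) →
      ∀ v : ℤ × ℤ, (nm (v - z) : ℝ) ≤ κ * n → v ∈ enl S₀ n) {F : ℝ × ℝ → ℝ}
    (hF : ∀ x, F x ≠ 0 → x ∈ C) {c0 : ℝ} (hc : c0 ≤ κ) :
    Deep (c0 * n) (enl S₀ n) (H638.cm F (1 / n)) := by
  intro z hz v hv
  obtain ⟨x, hx, hFx⟩ := H638.cm_ne hz
  have hn' : (0 : ℝ) ≤ n := Nat.cast_nonneg n
  exact h z ⟨x, hF x hFx, cl_near hn hx⟩ v (hv.trans (mul_le_mul_of_nonneg_right hc hn'))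

theorem fl_mem {S₀ : Finset (ℤ × ℤ)} {C : Set (ℝ × ℝ)} {κ : ℝ} {n : ℕ} (hn : 0 < n) (hκ : 0 < κ)
    (h : ∀ z : ℤ × ℤ, (∃ x ∈ C, |n * x.1 - z.1| ≤ 1 ∧ |n * x.2 - z.2| ≤ 1) →
      ∀ v : ℤ × ℤ, (nm (v - z) : ℝ) ≤ κ * n → v ∈ enl S₀ n) {φ₁ φ₂ : ℝ × ℝ → ℝ}
    (h1 : ∀ x, φ₁ x ≠ 0 → x ∈ C) (h2 : ∀ x, φ₂ x ≠ 0 → x ∈ C) {e : Ed}
    (he : fl φ₁ φ₂ (1 / n) e ≠ 0) : e ∈ eds (enl S₀ n) := by
  have hn' : (0 : ℝ) < n := by exact_mod_cast hn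
  obtain ⟨x, hx, a1, a2, a3, a4⟩ := fl_ne (by positivity) he
  have hxC : x ∈ C := hx.elim (h1 x) (h2 x)
  have aux : ∀ a : ℝ, ∀ b : ℝ, 1 / (n : ℝ) * b ≤ a → a ≤ 1 / (n : ℝ) * (b + 1) →
      |n * a - b| ≤ 1 := by
    intro a b g1 g2
    have e1 : n * (1 / (n : ℝ) * b) = b := by field_simp
    have e2 : n * (1 / (n : ℝ) * (b + 1)) = b + 1 := by field_simp
    have g3 := mul_le_mul_of_nonneg_left g1 hn'.le
    have g4 := mul_le_mul_of_nonneg_left g2 hn'.le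
    rw [abs_le]
    constructor <;> linarith
  have hm := h (epos e) ⟨x, hxC, aux _ _ a1 a2, aux _ _ a3 a4⟩ (epos e) (by
    rw [sub_self]
    have : nm (0 : ℤ × ℤ) = 0 := by simp [nm]
    rw [this]
    push_cast
    positivity)
  rw [mem_eds]
  rcases e with v | v
  · simp only [epos] at hm
    by_cases hp : Even (v.1 + v.2)
    · right; simp only [tlv, hp, if_true]; exact hm
    · left; simp only [hdv, hp, if_false]; exact hm
  · simp only [epos] at hm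
    by_cases hp : Even (v.1 + v.2)
    · left; simp only [hdv, hp, if_true]; exact hm
    · right; simp only [tlv, hp, if_false]; exact hm

/-! ### Comparison of `V` -/

theorem VD_sub_le (D : Finset (ℤ × ℤ)) (p : ℤ × ℤ) (f f' : ℤ × ℤ → ℝ) :
    |VD D p f - VD D p f'| ≤ ∫ x, |XD D p f x - XD D p f' x| ∂μ := by
  unfold VD
  rw [← integral_sub (fd_XD D p f).int (fd_XD D p f').int]
  exact abs_integral_le_integral_abs

theorem ne_supp {C : Set (ℝ × ℝ)} {φ : ℝ × ℝ → ℝ} (h : tsupport φ ⊆ C) (x : ℝ × ℝ) (hx : φ x ≠ 0) :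
    x ∈ C := h (subset_tsupport _ hx)

theorem tsupport_mul_sub (χ φ : ℝ × ℝ → ℝ) : tsupport (fun x => χ x * φ x) ⊆ tsupport φ :=
  tsupport_mul_subset_right

/-- The cell masses of a sum. -/
theorem cm_add {F G : ℝ × ℝ → ℝ} (hF : Integrable F) (hG : Integrable G) (δ : ℝ) (s : ℤ × ℤ) :
    H638.cm (fun x => F x + G x) δ s = H638.cm F δ s + H638.cm G δ s := by
  unfold H638.cm
  rw [integral_add hF.integrableOn hG.integrableOn]

theorem dvg_add {φ₁ φ₂ φ₁' φ₂' : ℝ × ℝ → ℝ} (h1 : ContDiff ℝ ∞ φ₁) (h2 : ContDiff ℝ ∞ φ₂)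
    (h1' : ContDiff ℝ ∞ φ₁') (h2' : ContDiff ℝ ∞ φ₂') (x : ℝ × ℝ) :
    dvg (fun y => φ₁ y + φ₁' y) (fun y => φ₂ y + φ₂' y) x = dvg φ₁ φ₂ x + dvg φ₁' φ₂' x := by
  unfold dvg
  have e1 : fderiv ℝ (fun y => φ₁ y + φ₁' y) x = fderiv ℝ φ₁ x + fderiv ℝ φ₁' x :=
    fderiv_add (h1.differentiable (by simp) x) (h1'.differentiable (by simp) x)
  have e2 : fderiv ℝ (fun y => φ₂ y + φ₂' y) x = fderiv ℝ φ₂ x + fderiv ℝ φ₂' x :=
    fderiv_add (h2.differentiable (by simp) x) (h2'.differentiable (by simp) x)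
  rw [e1, e2]
  simp only [_root_.add_apply]
  ring

theorem dvg_smul {φ₁ φ₂ : ℝ × ℝ → ℝ} (h1 : ContDiff ℝ ∞ φ₁) (h2 : ContDiff ℝ ∞ φ₂) (s : ℝ)
    (x : ℝ × ℝ) : dvg (fun y => s * φ₁ y) (fun y => s * φ₂ y) x = s * dvg φ₁ φ₂ x := by
  unfold dvg
  have e1 : fderiv ℝ (fun y => s * φ₁ y) x = s • fderiv ℝ φ₁ x :=
    fderiv_const_mul (h1.differentiable (by simp) x) s
  have e2 : fderiv ℝ (fun y => s * φ₂ y) x = s • fderiv ℝ φ₂ x :=
    fderiv_const_mul (h2.differentiable (by simp) x) s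
  rw [e1, e2]
  simp only [_root_.smul_apply, smul_eq_mul]
  ring

end Vale.Agent.P167.H638.L
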