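import Vale.Agent.P167.H638.L11

/-!
# P167, block LAYER: from `S2aQ` and `S_strip` to all flows (form in `ℝ × ℝ`)
-/

namespace Vale.Agent.P167.H638.L

open Finset Filter Topology MeasureTheory
open Vale.Agent.P167.BR (VD XD sites eds mem_eds)
open Vale.Agent.P167.H825 (dv dvg lapl domP enl pdir Box alp epos S2aQ)
open Vale.Agent.P167.H327 (fl dv_fl fl_ne fl_le cm_abs_le exists_bd cont_dvg hcs_dvg contDiff_dvg
  dvg_eq_zero tsupport_dvg isOpen_domP mem_enl)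
open Vale.Agent.P167.E6 (IsPolygon Encloses dir region)
open Vale.Agent.P167.H167 (Fd Geo tot)
open scoped ContDiff

/-- The properties of a cut-off function of width `w` (as in `S_strip`). -/
def ChiP (b : Box) (φ₁ φ₂ : ℝ × ℝ → ℝ) (B Q w : ℝ) (χ : ℝ × ℝ → ℝ) : Prop :=
  ContDiff ℝ ∞ χ ∧ (∀ x, 0 ≤ χ x ∧ χ x ≤ 1) ∧
      b.lines ⊆ interior {x | χ x = 0} ∧
      (∀ x, χ x ≠ 1 → |x.1 - b.xl| ≤ 3 * w ∨ |x.1 - b.xr| ≤ 3 * w ∨ |x.2 - b.yb| ≤ 3 * w ∨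
        |x.2 - b.yt| ≤ 3 * w) ∧
      ∀ n : ℕ, 1 ≤ w * n → ∃ T : Finset (ℤ × ℤ),
        (∀ e, fl (fun x => (1 - χ x) * φ₁ x) (fun x => (1 - χ x) * φ₂ x) (1 / n) e ≠ 0 →
          hdv e ∈ T) ∧
        (∀ z, dv (fl (fun x => (1 - χ x) * φ₁ x) (fun x => (1 - χ x) * φ₂ x) (1 / n)) z ≠ 0 →
          z ∈ T) ∧
        (∀ e, |fl (fun x => (1 - χ x) * φ₁ x) (fun x => (1 - χ x) * φ₂ x) (1 / n) e| ≤ B / n) ∧
        (∀ z, |dv (fl (fun x => (1 - χ x) * φ₁ x) (fun x => (1 - χ x) * φ₂ x) (1 / n)) z| ≤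
          B / (w * n ^ 2)) ∧
        (∀ L : ℤ, 1 ≤ L → (L : ℝ) ≤ n → ((cel T L).card : ℝ) * L ^ 2 ≤ Q * n * (w * n + L)) ∧
        (∀ (x : ℤ × ℤ) (r : ℤ), 1 ≤ r →
          ((T.filter fun v => nm (v - x) ≤ r).card : ℝ) ≤ Q * r * min (r : ℝ) (w * n))

theorem strip_iff : S_strip ↔ ∀ (b : Box) (φ₁ φ₂ : ℝ × ℝ → ℝ), ContDiff ℝ ∞ φ₁ → ContDiff ℝ ∞ φ₂ →
    HasCompactSupport φ₁ → HasCompactSupport φ₂ → ∃ B Q : ℝ, 0 < B ∧ 0 < Q ∧ ∀ w : ℝ, 0 < w →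
    w ≤ 1 → ∃ χ : ℝ × ℝ → ℝ, ChiP b φ₁ φ₂ B Q w χ := Iff.rfl

variable {b : Box} {φ₁ φ₂ θ₁ θ₂ χ ψ : ℝ × ℝ → ℝ}

theorem dvf_neg (c : Ed → ℝ) (z : ℤ × ℤ) : dvf (fun e => - c e) z = - dvf c z := by
  unfold dvf; ring

theorem hcs_mul (h : HasCompactSupport φ₁) : HasCompactSupport fun x => χ x * φ₁ x :=
  h.mul_left

theorem dvg_split (hχ : ContDiff ℝ ∞ χ) (h1 : ContDiff ℝ ∞ φ₁) (h2 : ContDiff ℝ ∞ φ₂)
    (x : ℝ × ℝ) : dvg φ₁ φ₂ x = dvg (fun y => (1 - χ y) * φ₁ y) (fun y => (1 - χ y) * φ₂ y) x +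
      dvg (fun y => χ y * φ₁ y) (fun y => χ y * φ₂ y) x := by
  rw [← dvg_add ((contDiff_const.sub hχ).mul h1) ((contDiff_const.sub hχ).mul h2) (hχ.mul h1)
    (hχ.mul h2)]
  congr 1
  · funext y; ring
  · funext y; ring

theorem integrable_dvg (h1 : ContDiff ℝ ∞ φ₁) (h2 : ContDiff ℝ ∞ φ₂) (s1 : HasCompactSupport φ₁)
    (s2 : HasCompactSupport φ₂) : Integrable (dvg φ₁ φ₂) :=
  (cont_dvg h1 h2).integrable_of_hasCompactSupport (hcs_dvg s1 s2)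

theorem nat16 {n : ℕ} (hn : 32 ≤ n) : (1 : ℤ) ≤ ((n / 16 : ℕ) : ℤ) ∧ 16 * ((n / 16 : ℕ) : ℤ) ≤ n ∧
    1 / 32 * (n : ℝ) ≤ (((n / 16 : ℕ) : ℤ) : ℝ) := by
  refine ⟨by omega, by omega, ?_⟩
  have h1 : n ≤ 32 * (n / 16) := by omega
  have h2 : (n : ℝ) ≤ 32 * ((n / 16 : ℕ) : ℝ) := by exact_mod_cast h1
  have h3 : (((n / 16 : ℕ) : ℤ) : ℝ) = ((n / 16 : ℕ) : ℝ) := by norm_cast
  rw [h3]
  linarith

/-- **The effect of the cut-off on the functional.** -/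
theorem cut_le (S : CA.Dat) (h1 : ContDiff ℝ ∞ φ₁) (h2 : ContDiff ℝ ∞ φ₂) (g1 : ContDiff ℝ ∞ θ₁)
    (g2 : ContDiff ℝ ∞ θ₂) (s1 : HasCompactSupport φ₁) (s2 : HasCompactSupport φ₂)
    (u1 : HasCompactSupport θ₁) (u2 : HasCompactSupport θ₂) (t1 : tsupport φ₁ ⊆ domP S.Q)
    (t2 : tsupport φ₂ ⊆ domP S.Q) (v1 : tsupport θ₁ ⊆ domP S.Q) (v2 : tsupport θ₂ ⊆ domP S.Q)
    {B Q : ℝ} (hB : 0 < B) (hQ : 0 < Q) {ε : ℝ} (hε : 0 < ε) :
    ∃ w0 > 0, ∀ w, 0 < w → w < w0 → ∀ χ, ChiP b φ₁ φ₂ B Q w χ → ∀ᶠ n : ℕ in atTop,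
      |VD (S.D n) (S.b n) (H638.cm (fun x => dvg (fun y => χ y * φ₁ y) (fun y => χ y * φ₂ y) x +
          dvg θ₁ θ₂ x) (1 / n)) -
        VD (S.D n) (S.b n) (H638.cm (fun x => dvg φ₁ φ₂ x + dvg θ₁ θ₂ x) (1 / n))| ≤ ε := by
  set C : Set (ℝ × ℝ) := (tsupport φ₁ ∪ tsupport φ₂) ∪ (tsupport θ₁ ∪ tsupport θ₂) with hC
  have hCc : IsCompact C := (s1.isCompact.union s2.isCompact).union (u1.isCompact.union u2.isCompact)
  have hCd : C ⊆ domP S.Q := Set.union_subset (Set.union_subset t1 t2) (Set.union_subset v1 v2)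
  obtain ⟨κ, hκ, hdeep⟩ := deepK hCc hCd
  obtain ⟨R, hR, hbox⟩ := enl_box S.Q
  have hF1 : Continuous fun x => dvg φ₁ φ₂ x + dvg θ₁ θ₂ x := (cont_dvg h1 h2).add (cont_dvg g1 g2)
  have hF2 : HasCompactSupport fun x => dvg φ₁ φ₂ x + dvg θ₁ θ₂ x :=
    (hcs_dvg s1 s2).add (hcs_dvg u1 u2)
  obtain ⟨M, hM, hMb⟩ := exists_bd hF1 hF2
  set c0 : ℝ := min κ (1 / 32) with hc0
  have hc0p : 0 < c0 := lt_min hκ (by norm_num)
  obtain ⟨w0, hw0, hlay⟩ := layer 2 c0 R (B + M) Q (by norm_num) hc0p hR (by positivity) hQ ε hε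
  refine ⟨w0, hw0, fun w hw hww χ hχ => ?_⟩
  obtain ⟨n0, hn0⟩ := hlay w hw hww
  obtain ⟨hχs, hχ1, hχl, hχd, hχn⟩ := hχ
  have e1 : ∀ᶠ n : ℕ in atTop, n0 ≤ (n : ℝ) := tendsto_natCast_atTop_atTop.eventually_ge_atTop _
  have e2 : ∀ᶠ n : ℕ in atTop, 1 / w ≤ (n : ℝ) := tendsto_natCast_atTop_atTop.eventually_ge_atTop _
  filter_upwards [hdeep, e1, e2, eventually_ge_atTop 32] with n hd hn1 hn2 hn3
  have hn : 0 < n := by omega
  have hn' : (0 : ℝ) < n := by exact_mod_cast hn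
  have hwn : 1 ≤ w * n := by rw [div_le_iff₀ hw] at hn2; linarith
  obtain ⟨T, T1, T2, T3, T4, T5, T6⟩ := hχn n hwn
  obtain ⟨m1, m2, m3⟩ := nat16 hn3
  have hs1 : ContDiff ℝ ∞ fun x => (1 - χ x) * φ₁ x := (contDiff_const.sub hχs).mul h1
  have hs2 : ContDiff ℝ ∞ fun x => (1 - χ x) * φ₂ x := (contDiff_const.sub hχs).mul h2
  set c : Ed → ℝ := fun e =>
    - fl (fun x => (1 - χ x) * φ₁ x) (fun x => (1 - χ x) * φ₂ x) (1 / n) e with hc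
  set g : ℤ × ℤ → ℝ := H638.cm (fun x => dvg φ₁ φ₂ x + dvg θ₁ θ₂ x) (1 / n) with hg
  have hdc : ∀ z, dvf c z = - H638.cm (dvg (fun x => (1 - χ x) * φ₁ x) fun x => (1 - χ x) * φ₂ x)
      (1 / n) z := by
    intro z
    rw [hc, dvf_neg, ← dv_fl hs1 hs2 (by positivity), dv_eq_dvf]
  have hsum : (fun x => dvg φ₁ φ₂ x + dvg θ₁ θ₂ x) =
      dvg (fun x => φ₁ x + θ₁ x) (fun x => φ₂ x + θ₂ x) := by
    funext x
    rw [dvg_add h1 h2 g1 g2]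
  have mC : ∀ {φ : ℝ × ℝ → ℝ}, tsupport φ ⊆ C → ∀ x, φ x ≠ 0 → x ∈ C := fun h x hx =>
    ne_supp h x hx
  have c1 : tsupport φ₁ ⊆ C := fun x hx => Or.inl (Or.inl hx)
  have c2 : tsupport φ₂ ⊆ C := fun x hx => Or.inl (Or.inr hx)
  have c3 : tsupport θ₁ ⊆ C := fun x hx => Or.inr (Or.inl hx)
  have c4 : tsupport θ₂ ⊆ C := fun x hx => Or.inr (Or.inr hx)
  have k1 : ∀ x, (1 - χ x) * φ₁ x ≠ 0 → x ∈ C := fun x hx => mC c1 x (right_ne_zero_of_mul hx)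
  have k2 : ∀ x, (1 - χ x) * φ₂ x ≠ 0 → x ∈ C := fun x hx => mC c2 x (right_ne_zero_of_mul hx)
  have hL : Lay 2 c0 R (B + M) Q w n (S.D n) T (S.b n) g c := by
    refine ⟨⟨((n / 16 : ℕ) : ℤ), H436.geo_dat S m1 m2, ?_⟩, hbox n hn, ?_, ?_, ?_, ?_, ?_, ?_, ?_,
      ?_, ?_, T6, T5⟩
    · exact (mul_le_mul_of_nonneg_right (min_le_right _ _) hn'.le).trans m3
    · have : g = dvf (fl (fun x => φ₁ x + θ₁ x) (fun x => φ₂ x + θ₂ x) (1 / n)) := by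
        funext z
        rw [hg, hsum, ← dv_fl (h1.add g1) (h2.add g2) (by positivity), dv_eq_dvf]
      rw [this]
      refine tot_dvf fun e he => fl_mem hn hκ hd (φ₁ := fun x => φ₁ x + θ₁ x)
        (φ₂ := fun x => φ₂ x + θ₂ x) ?_ ?_ he
      · intro x hx
        by_cases h : φ₁ x = 0
        · exact mC c3 x fun h' => hx (by simp [h, h'])
        · exact mC c1 x h
      · intro x hx
        by_cases h : φ₂ x = 0
        · exact mC c4 x fun h' => hx (by simp [h, h'])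
        · exact mC c2 x h
    · refine deep_cm hn hd (F := fun x => dvg φ₁ φ₂ x + dvg θ₁ θ₂ x) ?_ (min_le_left _ _)
      intro x hx
      by_contra hxC
      refine hx ?_
      rw [dvg_eq_zero (fun h => hxC (c1 h)) (fun h => hxC (c2 h)),
        dvg_eq_zero (fun h => hxC (c3 h)) (fun h => hxC (c4 h)), add_zero]
    · have hD : Deep (c0 * n) (enl S.Q n)
          (H638.cm (dvg (fun x => (1 - χ x) * φ₁ x) fun x => (1 - χ x) * φ₂ x) (1 / n)) := by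
        refine deep_cm hn hd ?_ (min_le_left _ _)
        intro x hx
        by_contra hxC
        refine hx (dvg_eq_zero (fun h => hxC (c1 ?_)) fun h => hxC (c2 ?_))
        · exact tsupport_mul_sub _ _ h
        · exact tsupport_mul_sub _ _ h
      intro z hz
      rw [hdc] at hz
      exact hD z (neg_ne_zero.1 hz)
    · intro z
      have h := cm_abs_le hMb (δ := 1 / (n : ℝ)) (by positivity) z
      refine h.trans ?_
      rw [one_div, inv_pow, ← div_eq_mul_inv]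
      exact div_le_div_of_nonneg_right (by linarith) (by positivity)
    · intro e he
      exact fl_mem hn hκ hd k1 k2 (neg_ne_zero.1 he)
    · intro e he
      exact T1 e (neg_ne_zero.1 he)
    · intro z hz
      rw [hc, dvf_neg] at hz
      exact T2 z (neg_ne_zero.1 hz)
    · intro e
      rw [hc]
      simp only [abs_neg]
      exact (T3 e).trans (div_le_div_of_nonneg_right (by linarith) hn'.le)
    · intro z
      rw [hc, dvf_neg, abs_neg]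
      exact (T4 z).trans (div_le_div_of_nonneg_right (by linarith) (by positivity))
  have h := hn0 n hn1 (S.D n) T (S.b n) g c hL
  have hkey : (fun z => g z + dvf c z) =
      H638.cm (fun x => dvg (fun y => χ y * φ₁ y) (fun y => χ y * φ₂ y) x + dvg θ₁ θ₂ x)
        (1 / n) := by
    funext z
    have i1 := integrable_dvg h1 h2 s1 s2
    have i2 := integrable_dvg g1 g2 u1 u2
    have i3 := integrable_dvg (hχs.mul h1) (hχs.mul h2) (hcs_mul (χ := χ) s1) (hcs_mul (χ := χ) s2)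
    have i4 := integrable_dvg hs1 hs2 (hcs_mul (χ := fun x => 1 - χ x) s1)
      (hcs_mul (χ := fun x => 1 - χ x) s2)
    rw [hg, hdc, cm_add i1 i2, cm_add i3 i2]
    have : dvg φ₁ φ₂ = fun x => dvg (fun y => (1 - χ y) * φ₁ y) (fun y => (1 - χ y) * φ₂ y) x +
        dvg (fun y => χ y * φ₁ y) (fun y => χ y * φ₂ y) x := by
      funext x
      exact dvg_split hχs h1 h2 x
    rw [this, cm_add i4 i3]
    ring
  rw [hkey] at h
  exact (VD_sub_le _ _ _ _).trans h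

/-! ### The limit `w → 0` -/

/-- A compact subset of the open box is far from the lines. -/
theorem far_lines {C : Set (ℝ × ℝ)} (hC : IsCompact C)
    (h : C ⊆ {x | b.xl < x.1 ∧ x.1 < b.xr ∧ b.yb < x.2 ∧ x.2 < b.yt}) :
    ∃ d > 0, ∀ x ∈ C, b.xl + d < x.1 ∧ x.1 + d < b.xr ∧ b.yb + d < x.2 ∧ x.2 + d < b.yt := by
  have hf : Continuous fun x : ℝ × ℝ =>
      min (min (x.1 - b.xl) (b.xr - x.1)) (min (x.2 - b.yb) (b.yt - x.2)) := by fun_prop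
  obtain ⟨d, hd, hd'⟩ := hC.exists_forall_le' hf.continuousOn (a := 0) fun x hx => by
    obtain ⟨a1, a2, a3, a4⟩ := h hx
    simp only [lt_min_iff, sub_pos]
    exact ⟨⟨a1, a2⟩, a3, a4⟩
  refine ⟨d / 2, by positivity, fun x hx => ?_⟩
  have := hd' x hx
  simp only [le_min_iff] at this
  obtain ⟨⟨a1, a2⟩, a3, a4⟩ := this
  refine ⟨?_, ?_, ?_, ?_⟩ <;> linarith

theorem chi_near {d w : ℝ} (hwd : 3 * w < d)
    (hχ : ∀ x : ℝ × ℝ, χ x ≠ 1 → |x.1 - b.xl| ≤ 3 * w ∨ |x.1 - b.xr| ≤ 3 * w ∨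
      |x.2 - b.yb| ≤ 3 * w ∨ |x.2 - b.yt| ≤ 3 * w) {x : ℝ × ℝ}
    (hx : b.xl + d < x.1 ∧ x.1 + d < b.xr ∧ b.yb + d < x.2 ∧ x.2 + d < b.yt) :
    ∀ᶠ y in 𝓝 x, χ y = 1 := by
  have ho : IsOpen {y : ℝ × ℝ | b.xl + d < y.1 ∧ y.1 + d < b.xr ∧ b.yb + d < y.2 ∧
      y.2 + d < b.yt} := by
    have e : {y : ℝ × ℝ | b.xl + d < y.1 ∧ y.1 + d < b.xr ∧ b.yb + d < y.2 ∧ y.2 + d < b.yt} =
        {y | b.xl + d < y.1} ∩ ({y | y.1 + d < b.xr} ∩ ({y | b.yb + d < y.2} ∩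
          {y | y.2 + d < b.yt})) := rfl
    rw [e]
    exact (isOpen_lt (by fun_prop) (by fun_prop)).inter ((isOpen_lt (by fun_prop)
      (by fun_prop)).inter ((isOpen_lt (by fun_prop) (by fun_prop)).inter
        (isOpen_lt (by fun_prop) (by fun_prop))))
  filter_upwards [ho.mem_nhds hx] with y ⟨a1, a2, a3, a4⟩
  by_contra hc
  rcases hχ y hc with h | h | h | h <;> rw [abs_le] at h <;> linarith [h.1, h.2]

theorem dvg_congr {x : ℝ × ℝ} {φ₁' φ₂' : ℝ × ℝ → ℝ} (h1 : φ₁ =ᶠ[𝓝 x] φ₁') (h2 : φ₂ =ᶠ[𝓝 x] φ₂') :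
    dvg φ₁ φ₂ x = dvg φ₁' φ₂' x := by
  unfold dvg
  rw [h1.fderiv_eq, h2.fderiv_eq]

theorem alp_congr {f f' : ℝ × ℝ → ℝ} (h : ∀ x, f x * ψ x = f' x * ψ x) (s : ℝ) :
    alp f ψ s = alp f' ψ s := by
  unfold alp
  simp only [h]

theorem alp_pos (f : ℝ × ℝ → ℝ) (ψ : ℝ × ℝ → ℝ) (s : ℝ) : 0 < alp f ψ s := Real.exp_pos _

theorem disj_lines {K : Set (ℝ × ℝ)} (h : K ⊆ interior {x | χ x = 0}) :
    Disjoint (tsupport fun x => χ x * φ₁ x) K := by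
  rw [Set.disjoint_left]
  intro x hx hK
  have h1 : interior {x | χ x = 0} ∈ 𝓝 x := isOpen_interior.mem_nhds (h hK)
  rw [tsupport, mem_closure_iff_nhds] at hx
  obtain ⟨y, hy, hy'⟩ := hx _ h1
  have h2 : y ∈ {x | χ x = 0} := interior_subset hy
  have h3 : χ y = 0 := h2
  exact hy' (by simp [h3])

/-- **(2a) for all flows.** -/
theorem s2a_real (h2a : S2aQ) (hs : S_strip) (S : CA.Dat) (hdir : pdir S.p 0 = S.r)
    (hb : b.Ok S.Q)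
    (hgp : ∀ i : ℤ, ∀ y ∈ ({b.xl, b.xr, b.yb, b.yt} : Set ℝ), y ≠ i + S.tp ∧ y ≠ i - S.tp)
    (h1 : ContDiff ℝ ∞ φ₁) (h2 : ContDiff ℝ ∞ φ₂) (hψ : ContDiff ℝ ∞ ψ)
    (s1 : HasCompactSupport φ₁) (s2 : HasCompactSupport φ₂) (s3 : HasCompactSupport ψ)
    (t1 : tsupport φ₁ ⊆ domP S.Q) (t2 : tsupport φ₂ ⊆ domP S.Q)
    (t3 : tsupport ψ ⊆ {x | b.xl < x.1 ∧ x.1 < b.xr ∧ b.yb < x.2 ∧ x.2 < b.yt}) (s : ℝ) :
    Tendsto (fun n : ℕ =>
      VD (S.D n) (S.b n) (H638.cm (fun x => dvg φ₁ φ₂ x + s * lapl ψ x) (1 / n)) -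
      alp (dvg φ₁ φ₂) ψ s * VD (S.D n) (S.b n) (H638.cm (dvg φ₁ φ₂) (1 / n))) atTop (𝓝 0) := by
  have : NeZero S.l := ⟨by have := S.poly.1; omega⟩
  set a := alp (dvg φ₁ φ₂) ψ s with ha
  have hap : 0 < a := alp_pos _ _ _
  obtain ⟨B, Q, hB, hQ, hχ⟩ := strip_iff.1 hs b φ₁ φ₂ h1 h2 s1 s2
  have d1 : ContDiff ℝ ∞ fun x => fderiv ℝ ψ x (1, 0) :=
    (hψ.fderiv_right (by simp)).clm_apply contDiff_const
  have d2 : ContDiff ℝ ∞ fun x => fderiv ℝ ψ x (0, 1) :=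
    (hψ.fderiv_right (by simp)).clm_apply contDiff_const
  have hsub : ∀ v : ℝ × ℝ, tsupport (fun x => fderiv ℝ ψ x v) ⊆ tsupport ψ := by
    intro v
    refine closure_minimal (fun x hx => ?_) (isClosed_tsupport _)
    by_contra hc
    refine hx ?_
    have : fderiv ℝ ψ x = 0 := image_eq_zero_of_notMem_tsupport fun h => hc
      (tsupport_fderiv_subset ℝ h)
    simp [this]
  have hsub' : ∀ v : ℝ × ℝ, tsupport (fun x => s * fderiv ℝ ψ x v) ⊆ tsupport ψ := fun v =>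
    (tsupport_mul_subset_right).trans (hsub v)
  have q3 : tsupport ψ ⊆ domP S.Q := fun x hx => by
    obtain ⟨a1, a2, a3, a4⟩ := t3 hx
    exact hb.sub x a1.le a2.le a3.le a4.le
  have hk : ∀ v : ℝ × ℝ, HasCompactSupport fun x => s * fderiv ℝ ψ x v := fun v =>
    s3.isCompact.of_isClosed_subset (isClosed_tsupport _) (hsub' v)
  have hlap : ∀ x, s * lapl ψ x =
      dvg (fun x => s * fderiv ℝ ψ x (1, 0)) (fun x => s * fderiv ℝ ψ x (0, 1)) x := by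
    intro x
    unfold lapl
    rw [dvg_smul d1 d2]
  have z1 : ContDiff ℝ ∞ fun _ : ℝ × ℝ => (0 : ℝ) := contDiff_const
  have z2 : HasCompactSupport fun _ : ℝ × ℝ => (0 : ℝ) := HasCompactSupport.zero
  have z3 : tsupport (fun _ : ℝ × ℝ => (0 : ℝ)) ⊆ domP S.Q := by
    have : tsupport (fun _ : ℝ × ℝ => (0 : ℝ)) = ∅ := tsupport_eq_empty_iff.2 rfl
    rw [this]; exact Set.empty_subset _
  have z4 : ∀ x, dvg (fun _ : ℝ × ℝ => (0 : ℝ)) (fun _ => 0) x = 0 := by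
    intro x
    unfold dvg
    simp
  obtain ⟨d, hd, hdC⟩ := far_lines s3.isCompact t3
  rw [Metric.tendsto_atTop']
  intro ε hε
  obtain ⟨w1, hw1, hw1'⟩ := cut_le (b := b) S h1 h2 (contDiff_const.mul d1) (contDiff_const.mul d2)
    s1 s2 (hk _) (hk _) t1 t2 ((hsub' _).trans q3) ((hsub' _).trans q3) hB hQ
    (by positivity : 0 < ε / 4)
  obtain ⟨w2, hw2, hw2'⟩ := cut_le (b := b) S h1 h2 z1 z1 s1 s2 z2 z2 t1 t2 z3 z3 hB hQ
    (by positivity : 0 < ε / (4 * a))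
  set w : ℝ := min (min w1 w2) (min 1 (d / 3)) / 2 with hw
  have hm : 0 < min (min w1 w2) (min 1 (d / 3)) :=
    lt_min (lt_min hw1 hw2) (lt_min one_pos (by positivity))
  have hwp : 0 < w := by positivity
  have hwlt : w < min (min w1 w2) (min 1 (d / 3)) := by rw [hw]; linarith
  simp only [lt_min_iff] at hwlt
  obtain ⟨⟨l1, l2⟩, l3, l4⟩ := hwlt
  obtain ⟨χ, hχw⟩ := hχ w hwp l3.le
  have m1 := hw1' w hwp l1 χ hχw
  have m2 := hw2' w hwp l2 χ hχw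
  obtain ⟨hχs, hχ1, hχl, hχd, hχn⟩ := hχw
  have hloc : ∀ x ∈ tsupport ψ, ∀ᶠ y in 𝓝 x, χ y = 1 := fun x hx =>
    chi_near (by linarith) hχd (hdC x hx)
  have haa : alp (dvg (fun y => χ y * φ₁ y) fun y => χ y * φ₂ y) ψ s = a := by
    rw [ha]
    refine alp_congr (fun x => ?_) s
    by_cases hx : ψ x = 0
    · simp [hx]
    · have h := hloc x (subset_tsupport _ hx)
      have e : dvg (fun y => χ y * φ₁ y) (fun y => χ y * φ₂ y) x = dvg φ₁ φ₂ x := by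
        refine dvg_congr ?_ ?_
        · filter_upwards [h] with y hy; simp [hy]
        · filter_upwards [h] with y hy; simp [hy]
      rw [e]
  have m3 := h2a S.l S.p S.Q S.poly S.enc S.tp S.tp0 S.tp1 b hb hgp (fun y => χ y * φ₁ y)
    (fun y => χ y * φ₂ y) ψ (hχs.mul h1) (hχs.mul h2) hψ (hcs_mul s1) (hcs_mul s2) s3
    ((tsupport_mul_sub _ _).trans t1) ((tsupport_mul_sub _ _).trans t2) t3
    (disj_lines hχl) (disj_lines hχl) s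
  rw [haa, hdir, Metric.tendsto_atTop'] at m3
  obtain ⟨N, hN⟩ := m3 (ε / 4) (by positivity)
  obtain ⟨N', hN'⟩ := eventually_atTop.1 (m1.and m2)
  refine ⟨max N N', fun n hn => ?_⟩
  have r1 := hN n (lt_of_le_of_lt (le_max_left _ _) hn)
  obtain ⟨r2, r3⟩ := hN' n ((le_max_right _ _).trans hn.le)
  rw [Real.dist_eq, sub_zero] at r1 ⊢
  simp only [← hlap, z4, add_zero] at r2 r3
  change |VD (S.D n) (S.b n) _ - a * VD (S.D n) (S.b n) _| < ε / 4 at r1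
  set V1 := VD (S.D n) (S.b n)
    (H638.cm (fun x => dvg (fun y => χ y * φ₁ y) (fun y => χ y * φ₂ y) x + s * lapl ψ x) (1 / n))
  set V2 := VD (S.D n) (S.b n) (H638.cm (fun x => dvg φ₁ φ₂ x + s * lapl ψ x) (1 / n))
  set V3 := VD (S.D n) (S.b n)
    (H638.cm (fun x => dvg (fun y => χ y * φ₁ y) (fun y => χ y * φ₂ y) x) (1 / n))
  set V4 := VD (S.D n) (S.b n) (H638.cm (fun x => dvg φ₁ φ₂ x) (1 / n))
  change |V1 - a * V3| < ε / 4 at r1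
  change |V2 - a * V4| < ε
  have r4 : |a * V3 - a * V4| ≤ ε / 4 := by
    rw [← mul_sub, abs_mul, abs_of_pos hap]
    calc a * |V3 - V4| ≤ a * (ε / (4 * a)) := mul_le_mul_of_nonneg_left r3 hap.le
      _ = ε / 4 := by field_simp
  rw [abs_lt] at r1 ⊢
  rw [abs_le] at r2 r4
  constructor <;> linarith [r1.1, r1.2, r2.1, r2.2, r4.1, r4.2]

end Vale.Agent.P167.H638.L
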