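import Vale.Agent.P167.H638.L1
import Vale.Agent.P167.H167.Sml

/-!
# P167, block LAYER: linear statistics of the small pieces which visit a given set of squares
-/

namespace Vale.Agent.P167.H638.L

open Finset MeasureTheory ProbabilityTheory
open Vale.Agent.P167.BR
open Vale.Agent.P167.H166 (bxx mem_bxx)
open Vale.Agent.P167.H562 (LocFun LocSet Em iIndepFun_of_local)
open Vale.Agent.P167.H45 (zz Bq Bq_fin Bq_disj zz_box box_of_small code code_eq cl cl_spec gp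
  grid_fin iInd meas_locfun loc_int bs bs_le small_box)
open Vale.Agent.P167.H167 (Fd fd_pcs Bg em_Bg not_small_one pcs_filter_eq)

variable {D T : Finset (ℤ × ℤ)} {ω ω' : Cfg} {A : Finset Ed}

open Classical in
/-- The `ρ`-small pieces which visit `T`. -/
noncomputable def sT (D T : Finset (ℤ × ℤ)) (ρ : ℝ) (ω : Cfg) : Finset (Finset Ed) :=
  (pcs ω D).filter fun A => (∃ e ∈ A, hdv e ∈ T) ∧ Small ρ A

theorem mem_sT {ρ : ℝ} : A ∈ sT D T ρ ω ↔ A ∈ pcs ω D ∧ (∃ e ∈ A, hdv e ∈ T) ∧ Small ρ A := by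
  simp only [sT, Finset.mem_filter]

theorem fd_sT (D T : Finset (ℤ × ℤ)) (ρ : ℝ) {β : Type*} (g : Finset (Finset Ed) → β) :
    Fd (fun ω => g (sT D T ρ ω)) := by
  classical
  exact fd_pcs D fun s => g (s.filter fun A => (∃ e ∈ A, hdv e ∈ T) ∧ Small ρ A)

/-- The class of a small piece. -/
def Qt (T : Finset (ℤ × ℤ)) (ρ : ℝ) (j : ℕ) (z : ℤ × ℤ) (A : Finset Ed) : Prop :=
  (∃ e ∈ A, hdv e ∈ T) ∧ Small (ρ / 2 ^ j) A ∧ ¬ Small (ρ / 2 ^ (j + 1)) A ∧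
    zz ⌈ρ / 2 ^ j⌉ A = z

open Classical in
/-- One scale and one cell. -/
noncomputable def YT (D T : Finset (ℤ × ℤ)) (ρ : ℝ) (φ : Finset Ed → ℝ) (j : ℕ)
    (z : ℤ × ℤ) (ω : Cfg) : ℝ := ∑ A ∈ (pcs ω D).filter (Qt T ρ j z), φ A

theorem YT_loc (D T : Finset (ℤ × ℤ)) (ρ : ℝ) (φ : Finset Ed → ℝ) (j : ℕ)
    (z : ℤ × ℤ) : LocFun (Bq ⌈ρ / 2 ^ j⌉ z) (YT D T ρ φ j z) := by
  classical
  intro ω ω' hw
  unfold YT
  rw [pcs_filter_eq (Qt T ρ j z) (S := Bq ⌈ρ / 2 ^ j⌉ z) (fun A hA e he => ?_) hw]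
  rw [← hA.2.2.2]
  exact box_of_small hA.2.1 (Finset.mem_image_of_mem _ he)

theorem fd_YT (D T : Finset (ℤ × ℤ)) (ρ : ℝ) (φ : Finset Ed → ℝ) (j : ℕ)
    (z : ℤ × ℤ) : Fd (YT D T ρ φ j z) := by
  classical
  exact fd_pcs D fun s => ∑ A ∈ s.filter (Qt T ρ j z), φ A

/-- The cells of the grid of mesh `L` which are met by `T`. -/
def cel (T : Finset (ℤ × ℤ)) (L : ℤ) : Finset (ℤ × ℤ) := T.image fun v => (v.1 / L, v.2 / L)

/-- The cells and their left and lower neighbours. -/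
def cel4 (T : Finset (ℤ × ℤ)) (L : ℤ) : Finset (ℤ × ℤ) :=
  (cel T L).biUnion fun z => {z, (z.1 - 1, z.2), (z.1, z.2 - 1), (z.1 - 1, z.2 - 1)}

theorem card_cel4 (T : Finset (ℤ × ℤ)) (L : ℤ) : (cel4 T L).card ≤ 4 * (cel T L).card := by
  unfold cel4
  refine (Finset.card_biUnion_le).trans ?_
  rw [mul_comm, ← smul_eq_mul, ← Finset.sum_const]
  exact Finset.sum_le_sum fun z _ => Finset.card_le_four

theorem mem_cel4 {L : ℤ} (hL : 0 < L) {v z : ℤ × ℤ} (hv : v ∈ T) (h : v ∈ Bq L z) :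
    z ∈ cel4 T L := by
  unfold cel4 cel
  rw [Finset.mem_biUnion]
  refine ⟨(v.1 / L, v.2 / L), Finset.mem_image_of_mem _ hv, ?_⟩
  obtain ⟨b1, b2, b3, b4⟩ := h
  have aux : ∀ p w : ℤ, L * p ≤ w → w < L * p + 2 * L → p = w / L ∨ p = w / L - 1 := by
    intro p w h1 h2
    have h3 : p ≤ w / L := by rw [Int.le_ediv_iff_mul_le hL]; linarith
    have h4 : w / L < p + 2 := by rw [Int.ediv_lt_iff_lt_mul hL]; linarith
    omega
  simp only [Finset.mem_insert, Finset.mem_singleton, Prod.ext_iff]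
  rcases aux _ _ b1 b2 with h | h <;> rcases aux _ _ b3 b4 with h' | h' <;> simp [← h, ← h']

theorem cell_nearT {ρ : ℝ} {j : ℕ} {z : ℤ × ℤ} (h : Qt T ρ j z A) :
    ∃ e ∈ A, nm (hdv e - gp ⌈ρ / 2 ^ j⌉ z) ≤ 2 * ⌈ρ / 2 ^ j⌉ := by
  obtain ⟨⟨e, he, h1⟩, h2, -, h4⟩ := h
  have h5 := box_of_small h2 (Finset.mem_image_of_mem hdv he)
  rw [h4] at h5
  obtain ⟨b1, b2, b3, b4⟩ := h5
  refine ⟨e, he, ?_⟩
  rw [H45.nm_le]
  simp only [gp, Prod.fst_sub, Prod.snd_sub, abs_le]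
  refine ⟨⟨?_, ?_⟩, ?_, ?_⟩ <;> linarith

theorem cell_mem {ρ : ℝ} {j : ℕ} (hj : 1 ≤ ρ / 2 ^ j) {z : ℤ × ℤ} (h : Qt T ρ j z A) :
    z ∈ cel4 T ⌈ρ / 2 ^ j⌉ := by
  obtain ⟨⟨e, he, h1⟩, h2, -, h4⟩ := h
  have h5 := box_of_small h2 (Finset.mem_image_of_mem hdv he)
  rw [h4] at h5
  exact mem_cel4 (Int.ceil_pos.2 (by linarith)) h1 h5

/-- The decomposition into scales and cells. -/
theorem decT {ρ : ℝ} {J : ℕ} (hJ : ρ / 2 ^ J ≤ 1) (hJ' : ∀ j < J, 1 ≤ ρ / 2 ^ j)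
    (φ : Finset Ed → ℝ) (ω : Cfg) :
    ∑ A ∈ sT D T ρ ω, φ A =
      ∑ j ∈ Finset.range J, ∑ z ∈ cel4 T ⌈ρ / 2 ^ j⌉, YT D T ρ φ j z ω := by
  classical
  have hcl : ∀ A ∈ sT D T ρ ω, cl ρ A < J ∧ Small (ρ / 2 ^ (cl ρ A)) A ∧
      ¬ Small (ρ / 2 ^ (cl ρ A + 1)) A := fun A hA => by
    obtain ⟨h1, -, h3⟩ := mem_sT.1 hA
    exact cl_spec h3 (not_small_one h1 hJ)
  have h1 : ∑ A ∈ sT D T ρ ω, φ A =
      ∑ j ∈ Finset.range J, ∑ A ∈ (sT D T ρ ω).filter (fun A => cl ρ A = j), φ A := by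
    rw [Finset.sum_fiberwise_of_maps_to]
    intro A hA
    exact Finset.mem_range.2 (hcl A hA).1
  rw [h1]
  refine Finset.sum_congr rfl fun j hj => ?_
  have hj1 := hJ' j (Finset.mem_range.1 hj)
  have hmap : ∀ A ∈ (sT D T ρ ω).filter (fun A => cl ρ A = j), Qt T ρ j (zz ⌈ρ / 2 ^ j⌉ A) A := by
    intro A hA
    obtain ⟨h2, h3⟩ := Finset.mem_filter.1 hA
    obtain ⟨-, h4, h5⟩ := hcl A h2
    rw [h3] at h4 h5
    exact ⟨(mem_sT.1 h2).2.1, h4, h5, rfl⟩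
  have h2 : ∑ A ∈ (sT D T ρ ω).filter (fun A => cl ρ A = j), φ A =
      ∑ z ∈ cel4 T ⌈ρ / 2 ^ j⌉, ∑ A ∈ ((sT D T ρ ω).filter (fun A => cl ρ A = j)).filter
        (fun A => zz ⌈ρ / 2 ^ j⌉ A = z), φ A := by
    rw [Finset.sum_fiberwise_of_maps_to]
    intro A hA
    exact cell_mem hj1 (hmap A hA)
  rw [h2]
  refine Finset.sum_congr rfl fun z _ => ?_
  unfold YT
  refine Finset.sum_congr ?_ fun _ _ => rfl
  ext A
  constructor
  · intro hA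
    obtain ⟨h3, h4⟩ := Finset.mem_filter.1 hA
    have h5 := hmap A h3
    rw [h4] at h5
    exact Finset.mem_filter.2 ⟨(mem_sT.1 (Finset.mem_filter.1 h3).1).1, h5⟩
  · intro hA
    obtain ⟨h3, h4, h5, h6, h7⟩ := Finset.mem_filter.1 hA
    rw [Finset.mem_filter]
    have hpow : (1 : ℝ) ≤ 2 ^ j := one_le_pow₀ (by norm_num)
    have hρ0 : 0 ≤ ρ := by
      by_contra hcon
      push Not at hcon
      have : ρ / 2 ^ j < 0 := div_neg_of_neg_of_pos hcon (by positivity)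
      linarith
    have h8 : Small ρ A := H45.Small.mono (div_le_self hρ0 hpow) h5
    have h9 : A ∈ sT D T ρ ω := mem_sT.2 ⟨h3, h4, h8⟩
    refine ⟨Finset.mem_filter.2 ⟨h9, ?_⟩, h7⟩
    obtain ⟨-, g1, g2⟩ := hcl A h9
    -- uniqueness of the class
    rcases lt_trichotomy (cl ρ A) j with h | h | h
    · exfalso
      apply g2
      refine H45.Small.mono ?_ h5
      exact div_le_div_of_nonneg_left hρ0 (by positivity) (pow_le_pow_right₀ (by norm_num) (by omega))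
    · exact h
    · exfalso
      apply h6
      refine H45.Small.mono ?_ g1
      exact div_le_div_of_nonneg_left hρ0 (by positivity) (pow_le_pow_right₀ (by norm_num) (by omega))

theorem exists_J {ρ : ℝ} (_hρ : 1 ≤ ρ) : ∃ J : ℕ, ρ / 2 ^ J ≤ 1 ∧ ∀ j < J, 1 ≤ ρ / 2 ^ j := by
  have hex : ∃ J : ℕ, ρ / 2 ^ J ≤ 1 := by
    obtain ⟨J, hJ⟩ := pow_unbounded_of_one_lt ρ (by norm_num : (1 : ℝ) < 2)
    exact ⟨J, by rw [div_le_one (by positivity)]; exact hJ.le⟩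
  exact ⟨Nat.find hex, Nat.find_spec hex, fun j hj => (not_le.1 (Nat.find_min hex hj)).le⟩

/-- The big pieces near a cell. -/
noncomputable def Bz (D : Finset (ℤ × ℤ)) (ρ : ℝ) (j : ℕ) (z : ℤ × ℤ) (ω : Cfg) : ℝ :=
  ((Bg D (gp ⌈ρ / 2 ^ j⌉ z) (2 * ⌈ρ / 2 ^ j⌉) (max (ρ / 2 ^ (j + 1)) 1) ω).card : ℝ)

theorem Bz_nonneg (D : Finset (ℤ × ℤ)) (ρ : ℝ) (j : ℕ) (z : ℤ × ℤ) (ω : Cfg) :
    0 ≤ Bz D ρ j z ω := by unfold Bz; positivity

theorem fd_Bz (D : Finset (ℤ × ℤ)) (ρ : ℝ) (j : ℕ) (z : ℤ × ℤ) : Fd (Bz D ρ j z) := by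
  classical
  exact fd_pcs D fun s => (((s.filter fun A => (∃ e ∈ A, nm (hdv e - gp ⌈ρ / 2 ^ j⌉ z) ≤
        2 * ⌈ρ / 2 ^ j⌉) ∧ ¬ Small (max (ρ / 2 ^ (j + 1)) 1) A).card : ℕ) : ℝ)

theorem card_le_Bz {ρ : ℝ} {j : ℕ} {z : ℤ × ℤ} {P : Finset Ed → Prop} [DecidablePred P]
    (hP : ∀ A ∈ pcs ω D, P A → Qt T ρ j z A) :
    (((pcs ω D).filter P).card : ℝ) ≤ Bz D ρ j z ω := by
  classical
  unfold Bz
  have h2 : ((pcs ω D).filter P).card ≤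
      (Bg D (gp ⌈ρ / 2 ^ j⌉ z) (2 * ⌈ρ / 2 ^ j⌉) (max (ρ / 2 ^ (j + 1)) 1) ω).card := by
    refine Finset.card_le_card fun A hA => ?_
    obtain ⟨h2, h3⟩ := Finset.mem_filter.1 hA
    have h3 := hP A h2 h3
    unfold Bg
    rw [Finset.mem_filter]
    refine ⟨h2, cell_nearT h3, ?_⟩
    rcases max_choice (ρ / 2 ^ (j + 1)) (1 : ℝ) with h | h
    · rw [h]; exact h3.2.2.1
    · rw [h]; exact not_small_one h2 le_rfl
  exact_mod_cast h2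

theorem abs_YT_le {ρ : ℝ} {j : ℕ} {z : ℤ × ℤ} {φ : Finset Ed → ℝ} {a : ℝ} (ha : 0 ≤ a)
    (hφ : ∀ A ∈ pcs ω D, (∃ e ∈ A, hdv e ∈ T) → Small (ρ / 2 ^ j) A → |φ A| ≤ a) :
    |YT D T ρ φ j z ω| ≤ a * Bz D ρ j z ω := by
  classical
  unfold YT
  refine (Finset.abs_sum_le_sum_abs _ _).trans ?_
  calc ∑ A ∈ (pcs ω D).filter (Qt T ρ j z), |φ A|
      ≤ ∑ _A ∈ (pcs ω D).filter (Qt T ρ j z), a :=
        Finset.sum_le_sum fun A hA => by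
          obtain ⟨h2, h3⟩ := Finset.mem_filter.1 hA
          exact hφ A h2 h3.1 h3.2.1
    _ = (((pcs ω D).filter (Qt T ρ j z)).card : ℝ) * a := by rw [Finset.sum_const, nsmul_eq_mul]
    _ ≤ Bz D ρ j z ω * a := mul_le_mul_of_nonneg_right (card_le_Bz fun A _ h => h) ha
    _ = _ := mul_comm _ _

/-- Exponential moments of the number of the pieces of a cell. -/
theorem em_Bz : ∃ l M : ℝ, 0 < l ∧ 0 ≤ M ∧ ∀ (D : Finset (ℤ × ℤ)) (ρ : ℝ) (j : ℕ) (z : ℤ × ℤ),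
    1 ≤ ρ / 2 ^ j → Em μ (fun ω => l * Bz D ρ j z ω) ≤ ENNReal.ofReal M := by
  obtain ⟨l, M, hl, hM, hem⟩ := em_Bg 6
  refine ⟨l, M, hl, hM, fun D ρ j z h1 => ?_⟩
  have h2 : (⌈ρ / 2 ^ j⌉ : ℝ) < ρ / 2 ^ j + 1 := Int.ceil_lt_add_one _
  have h3 : ρ / 2 ^ (j + 1) = ρ / 2 ^ j / 2 := by rw [pow_succ]; field_simp
  have h4 : 1 ≤ ⌈ρ / 2 ^ j⌉ := Int.one_le_ceil_iff.2 (by linarith)
  refine hem D _ _ _ (le_max_right _ _) (by omega) ?_
  push_cast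
  rw [h3]
  have h5 := le_max_left (ρ / 2 ^ j / 2) (1 : ℝ)
  have h6 := le_max_right (ρ / 2 ^ j / 2) (1 : ℝ)
  linarith

/-- **Linear statistics of the small pieces which visit `T`.** -/
theorem em_T : ∃ c C : ℝ, 0 < c ∧ 0 ≤ C ∧ ∀ (D T : Finset (ℤ × ℤ)) (ρ : ℝ)
    (φ : Finset Ed → ℝ) (a : ℕ → ℝ) (α β t : ℝ), 1 ≤ ρ → 0 ≤ α → 0 ≤ β → (∀ j, 0 ≤ a j) →
    (∀ (j : ℕ) (ω : Cfg), 1 ≤ ρ / 2 ^ j → ∀ A ∈ pcs ω D, (∃ e ∈ A, hdv e ∈ T) →
      Small (ρ / 2 ^ j) A → |φ A| ≤ a j) →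
    (∀ j, 1 ≤ ρ / 2 ^ j → a j ≤ α * (1 / 2) ^ j) →
    (∀ j, 1 ≤ ρ / 2 ^ j → a j ^ 2 * ((cel T ⌈ρ / 2 ^ j⌉).card : ℝ) ≤ β * (1 / 2) ^ j) →
    α * |t| ≤ c →
    Em μ (fun ω => t * (∑ A ∈ sT D T ρ ω, φ A - ∫ ω', ∑ A ∈ sT D T ρ ω', φ A ∂μ)) ≤
      ENNReal.ofReal (Real.exp (C * β * t ^ 2)) := by
  classical
  obtain ⟨l, M, hl, hM, hem⟩ := em_Bz
  refine ⟨l / 32, 32 * M * Real.exp ((1 + 1) * M) * (4 : ℕ) ^ 2 * (4 * (2 / l) ^ 2), by positivity,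
    by positivity, fun D T ρ φ a α β t hρ hα hβ ha0 hφ ha1 ha2 hat => ?_⟩
  obtain ⟨J, hJ, hJ'⟩ := exists_J hρ
  have hmain := ms2 (μ := μ) J 4 (by norm_num)
    (fun j k => (cel4 T ⌈ρ / 2 ^ j⌉).filter (fun z => code z = k))
    (X := fun j z ω => YT D T ρ φ j z ω)
    (K := fun j z ω => l / 2 * Bz D ρ j z ω)
    (fun j _ k z _ => (fd_YT D T ρ φ j z).meas)
    (fun j _ k z _ => (fd_Bz D ρ j z).meas.const_mul _)
    (fun j _ k => by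
      refine iIndepFun_of_local iInd
        (S := fun z : ((cel4 T ⌈ρ / 2 ^ j⌉).filter (fun z => code z = k) : Finset (ℤ × ℤ)) =>
          Bq ⌈ρ / 2 ^ j⌉ (z : ℤ × ℤ)) ?_ (fun z => (fd_YT D T ρ φ j z).meas)
        (fun z => YT_loc D T ρ φ j z)
      intro z z' hzz
      have h1 : code (z : ℤ × ℤ) = k := (Finset.mem_filter.1 z.2).2
      have h2 : code (z' : ℤ × ℤ) = k := (Finset.mem_filter.1 z'.2).2
      obtain ⟨h3, h4⟩ := code_eq (h1.trans h2.symm)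
      exact Bq_disj (fun h => hzz (Subtype.ext h)) h3 h4)
    (a := fun j => 2 / l * a j) (α := 2 / l * α) (β := 4 * (2 / l) ^ 2 * β) (s := 1) (t := t)
    (M := M) (by positivity) (by positivity) zero_le_one hM
    (fun j hj => by
      have := ha1 j (hJ' j hj)
      calc 2 / l * a j ≤ 2 / l * (α * (1 / 2) ^ j) := mul_le_mul_of_nonneg_left this (by positivity)
        _ = _ := by ring)
    (fun j _ k z _ ω => by
      have := Bz_nonneg D ρ j z ω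
      positivity)
    (fun j hj k z _ ω => by
      have h1 := abs_YT_le (D := D) (T := T) (z := z) (ha0 j) (hφ j ω (hJ' j hj))
      calc |YT D T ρ φ j z ω| ≤ a j * Bz D ρ j z ω := h1
        _ = _ := by field_simp)
    (fun j hj k => by
      have h1 := ha2 j (hJ' j hj)
      have h2 : (((cel4 T ⌈ρ / 2 ^ j⌉).filter (fun z => code z = k)).card : ℝ) ≤
          4 * ((cel T ⌈ρ / 2 ^ j⌉).card : ℝ) := by
        exact_mod_cast (Finset.card_filter_le _ _).trans (card_cel4 T _)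
      calc (2 / l * a j) ^ 2 * (((cel4 T ⌈ρ / 2 ^ j⌉).filter (fun z => code z = k)).card : ℝ)
          ≤ (2 / l * a j) ^ 2 * (4 * ((cel T ⌈ρ / 2 ^ j⌉).card : ℝ)) :=
            mul_le_mul_of_nonneg_left h2 (by positivity)
        _ = 4 * (2 / l) ^ 2 * (a j ^ 2 * ((cel T ⌈ρ / 2 ^ j⌉).card : ℝ)) := by ring
        _ ≤ 4 * (2 / l) ^ 2 * (β * (1 / 2) ^ j) := mul_le_mul_of_nonneg_left h1 (by positivity)
        _ = _ := by ring)
    (by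
      rw [show 4 * ((4 : ℕ) : ℝ) * (2 / l * α) * |t| = 32 * (α * |t|) / l by push_cast; ring]
      rw [div_le_one hl]
      linarith)
    (fun j hj k z _ => by
      have e1 : (fun ω => (1 + 1) * (l / 2 * Bz D ρ j z ω)) = fun ω => l * Bz D ρ j z ω := by
        funext ω; ring
      rw [e1]
      exact hem D ρ j z (hJ' j hj))
  have hdec := fun ω => decT (D := D) (T := T) hJ hJ' φ ω
  have hI : ∫ ω', ∑ A ∈ sT D T ρ ω', φ A ∂μ =
      ∑ j ∈ Finset.range J, ∑ z ∈ cel4 T ⌈ρ / 2 ^ j⌉, ∫ ω', YT D T ρ φ j z ω' ∂μ := by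
    simp only [hdec]
    rw [integral_finsetSum _ fun j _ => integrable_finsetSum _ fun z _ => (fd_YT D T ρ φ j z).int]
    refine Finset.sum_congr rfl fun j _ => ?_
    rw [integral_finsetSum _ fun z _ => (fd_YT D T ρ φ j z).int]
  have heq : (fun ω => t * (∑ A ∈ sT D T ρ ω, φ A - ∫ ω', ∑ A ∈ sT D T ρ ω', φ A ∂μ)) =
      fun ω => t * ∑ j ∈ Finset.range J, ∑ k : Fin 4,
        ∑ i ∈ (cel4 T ⌈ρ / 2 ^ j⌉).filter (fun z => code z = k),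
        (YT D T ρ φ j i ω - ∫ x_1, YT D T ρ φ j i x_1 ∂μ) := by
    ext ω
    congr 1
    rw [hI, hdec, ← Finset.sum_sub_distrib]
    refine Finset.sum_congr rfl fun j _ => ?_
    rw [← Finset.sum_sub_distrib]
    exact (Finset.sum_fiberwise (cel4 T ⌈ρ / 2 ^ j⌉) code _).symm
  rw [heq]
  refine hmain.trans (ENNReal.ofReal_le_ofReal (Real.exp_le_exp.2 (le_of_eq ?_)))
  ring

/-- **First moments of the statistics of the small pieces which visit `T`.** -/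
theorem abs_T : ∃ C : ℝ, 0 ≤ C ∧ ∀ (D T : Finset (ℤ × ℤ)) (ρ : ℝ)
    (φ : Finset Ed → ℝ) (a : ℕ → ℝ) (β : ℝ), 1 ≤ ρ → 0 ≤ β → (∀ j, 0 ≤ a j) →
    (∀ (j : ℕ) (ω : Cfg), 1 ≤ ρ / 2 ^ j → ∀ A ∈ pcs ω D, (∃ e ∈ A, hdv e ∈ T) →
      Small (ρ / 2 ^ j) A → |φ A| ≤ a j) →
    (∀ j, 1 ≤ ρ / 2 ^ j → a j * ((cel T ⌈ρ / 2 ^ j⌉).card : ℝ) ≤ β * (1 / 2) ^ j) →
    ∫ ω, ∑ A ∈ sT D T ρ ω, |φ A| ∂μ ≤ C * β := by
  classical
  obtain ⟨l, M, hl, hM, hem⟩ := em_Bz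
  refine ⟨8 * (M / l), by positivity, fun D T ρ φ a β hρ hβ ha0 hφ ha2 => ?_⟩
  obtain ⟨J, hJ, hJ'⟩ := exists_J hρ
  have hE : ∀ j, 1 ≤ ρ / 2 ^ j → ∀ z, ∫ ω, Bz D ρ j z ω ∂μ ≤ M / l := by
    intro j hj z
    have h1 := hem D ρ j z hj
    have hfd : Fd (fun ω => Real.exp (l * Bz D ρ j z ω)) := (fd_Bz D ρ j z).comp fun x =>
      Real.exp (l * x)
    rw [H562.Em_eq hfd.int] at h1
    have h2 : ∫ ω, Real.exp (l * Bz D ρ j z ω) ∂μ ≤ M := (ENNReal.ofReal_le_ofReal_iff hM).1 h1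
    rw [le_div_iff₀ hl, mul_comm, ← integral_const_mul]
    refine le_trans (integral_mono ((fd_Bz D ρ j z).int.const_mul l) hfd.int fun ω => ?_) h2
    have := Real.add_one_le_exp (l * Bz D ρ j z ω)
    simp only
    linarith
  have hdec := fun ω => decT (D := D) (T := T) hJ hJ' (fun A => |φ A|) ω
  simp only [hdec]
  rw [integral_finsetSum _ fun j _ => integrable_finsetSum _ fun z _ => (fd_YT D T ρ _ j z).int]
  have hj : ∀ j ∈ Finset.range J, ∫ ω, ∑ z ∈ cel4 T ⌈ρ / 2 ^ j⌉, YT D T ρ (fun A => |φ A|) j z ω ∂μ ≤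
      4 * (M / l) * β * (1 / 2) ^ j := by
    intro j hj
    have hj := hJ' j (Finset.mem_range.1 hj)
    rw [integral_finsetSum _ fun z _ => (fd_YT D T ρ _ j z).int]
    have h1 : ∀ z, ∫ ω, YT D T ρ (fun A => |φ A|) j z ω ∂μ ≤ a j * (M / l) := by
      intro z
      calc ∫ ω, YT D T ρ (fun A => |φ A|) j z ω ∂μ ≤ ∫ ω, a j * Bz D ρ j z ω ∂μ := by
            refine integral_mono (fd_YT D T ρ _ j z).int ((fd_Bz D ρ j z).int.const_mul _)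
              fun ω => ?_
            refine (le_abs_self _).trans (abs_YT_le (ha0 j) fun A h1 h2 h3 => ?_)
            rw [abs_abs]
            exact hφ j ω hj A h1 h2 h3
        _ = a j * ∫ ω, Bz D ρ j z ω ∂μ := integral_const_mul _ _
        _ ≤ _ := mul_le_mul_of_nonneg_left (hE j hj z) (ha0 j)
    calc ∑ z ∈ cel4 T ⌈ρ / 2 ^ j⌉, ∫ ω, YT D T ρ (fun A => |φ A|) j z ω ∂μ
        ≤ ∑ _z ∈ cel4 T ⌈ρ / 2 ^ j⌉, a j * (M / l) := Finset.sum_le_sum fun z _ => h1 z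
      _ = ((cel4 T ⌈ρ / 2 ^ j⌉).card : ℝ) * (a j * (M / l)) := by
          rw [Finset.sum_const, nsmul_eq_mul]
      _ ≤ (4 * ((cel T ⌈ρ / 2 ^ j⌉).card : ℝ)) * (a j * (M / l)) := by
          refine mul_le_mul_of_nonneg_right (by exact_mod_cast card_cel4 T _) ?_
          have := ha0 j
          positivity
      _ = 4 * (M / l) * (a j * ((cel T ⌈ρ / 2 ^ j⌉).card : ℝ)) := by ring
      _ ≤ 4 * (M / l) * (β * (1 / 2) ^ j) := mul_le_mul_of_nonneg_left (ha2 j hj) (by positivity)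
      _ = _ := by ring
  calc _ ≤ ∑ j ∈ Finset.range J, 4 * (M / l) * β * (1 / 2) ^ j := Finset.sum_le_sum hj
    _ = 4 * (M / l) * β * (2 * ∑ j ∈ Finset.range J, ((1 : ℝ) / 2) ^ (j + 1)) := by
        rw [← Finset.mul_sum]
        congr 1
        rw [Finset.mul_sum]
        refine Finset.sum_congr rfl fun j _ => ?_
        rw [pow_succ]; ring
    _ ≤ 4 * (M / l) * β * (2 * 1) :=
        mul_le_mul_of_nonneg_left (mul_le_mul_of_nonneg_left (H562.geom_half J) (by norm_num))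
          (by positivity)
    _ = _ := by ring

end Vale.Agent.P167.H638.L
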