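import Vale.Agent.P167.H638.L2

/-!
# P167, block LAYER: masses of divergences of flows on the medial edges, decomposition into blocks
-/

namespace Vale.Agent.P167.H638.L

open Finset MeasureTheory
open Vale.Agent.P167.BR

variable {D T : Finset (ℤ × ℤ)} {p : ℤ × ℤ} {ω ω' : Cfg} {A : Finset Ed}

/-- The site with coefficient `+1` in the divergence of the flow through `e`. -/
def up : Ed → ℤ × ℤ
  | Sum.inl v => (v.1 + 1, v.2 + 1)
  | Sum.inr v => (v.1, v.2 + 1)

/-- The site with coefficient `-1` in the divergence of the flow through `e`. -/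
def dn : Ed → ℤ × ℤ
  | Sum.inl v => (v.1 + 1, v.2)
  | Sum.inr v => (v.1 + 1, v.2 + 1)

/-- The divergence of a flow (the same as `H825.dv`). -/
def dvf (c : Ed → ℝ) (z : ℤ × ℤ) : ℝ :=
  c (Sum.inl (z.1 - 1, z.2 - 1)) - c (Sum.inl (z.1 - 1, z.2)) +
    c (Sum.inr (z.1, z.2 - 1)) - c (Sum.inr (z.1 - 1, z.2 - 1))

theorem up_dn (e : Ed) : (up e = ls e ∧ dn e = rs e) ∨ (up e = rs e ∧ dn e = ls e) := by
  rcases e with ⟨x, y⟩ | ⟨x, y⟩ <;> by_cases h : Even (x + y) <;> simp [up, dn, ls, rs, h]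

theorem sum_single {E : Finset Ed} {c : Ed → ℝ} (hc : ∀ e, c e ≠ 0 → e ∈ E) (e₀ : Ed) :
    ∑ e ∈ E, (if e = e₀ then c e else 0) = c e₀ := by
  classical
  rw [Finset.sum_ite_eq']
  split_ifs with h
  · rfl
  · by_contra hcon
    exact h (hc _ fun h0 => hcon h0.symm)

theorem dvf_eq {E : Finset Ed} {c : Ed → ℝ} (hc : ∀ e, c e ≠ 0 → e ∈ E) (z : ℤ × ℤ) :
    dvf c z = ∑ e ∈ E, c e * ((if up e = z then 1 else 0) - if dn e = z then 1 else 0) := by
  classical
  have h : ∀ e ∈ E, c e * ((if up e = z then (1 : ℝ) else 0) - if dn e = z then 1 else 0) =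
      (if e = Sum.inl (z.1 - 1, z.2 - 1) then c e else 0) -
      (if e = Sum.inl (z.1 - 1, z.2) then c e else 0) +
      (if e = Sum.inr (z.1, z.2 - 1) then c e else 0) -
      (if e = Sum.inr (z.1 - 1, z.2 - 1) then c e else 0) := by
    intro e _
    obtain ⟨z1, z2⟩ := z
    rcases e with ⟨x, y⟩ | ⟨x, y⟩
    · have e1 : (up (Sum.inl (x, y)) = (z1, z2)) ↔
          ((Sum.inl (x, y) : Ed) = Sum.inl (z1 - 1, z2 - 1)) := by
        simp only [up, Prod.mk.injEq, Sum.inl.injEq]; omega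
      have e2 : (dn (Sum.inl (x, y)) = (z1, z2)) ↔
          ((Sum.inl (x, y) : Ed) = Sum.inl (z1 - 1, z2)) := by
        simp only [dn, Prod.mk.injEq, Sum.inl.injEq]; omega
      simp only [e1, e2, reduceCtorEq, if_false, add_zero, sub_zero]
      split_ifs <;> ring
    · have e1 : (up (Sum.inr (x, y)) = (z1, z2)) ↔
          ((Sum.inr (x, y) : Ed) = Sum.inr (z1, z2 - 1)) := by
        simp only [up, Prod.mk.injEq, Sum.inr.injEq]; omega
      have e2 : (dn (Sum.inr (x, y)) = (z1, z2)) ↔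
          ((Sum.inr (x, y) : Ed) = Sum.inr (z1 - 1, z2 - 1)) := by
        simp only [dn, Prod.mk.injEq, Sum.inr.injEq]; omega
      simp only [e1, e2, reduceCtorEq, if_false, zero_add, sub_zero]
      split_ifs <;> ring
  rw [Finset.sum_congr rfl h, Finset.sum_sub_distrib, Finset.sum_add_distrib,
    Finset.sum_sub_distrib, sum_single hc, sum_single hc, sum_single hc, sum_single hc]
  rfl

theorem sum_dvf {E : Finset Ed} {c : Ed → ℝ} (hc : ∀ e, c e ≠ 0 → e ∈ E) {Z : Finset (ℤ × ℤ)}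
    (hu : ∀ e ∈ E, up e ∈ Z) (hd : ∀ e ∈ E, dn e ∈ Z) (s : ℤ × ℤ → ℝ) :
    ∑ z ∈ Z, s z * dvf c z = ∑ e ∈ E, c e * (s (up e) - s (dn e)) := by
  classical
  simp only [dvf_eq hc, Finset.mul_sum]
  rw [Finset.sum_comm]
  refine Finset.sum_congr rfl fun e he => ?_
  have h1 : ∀ z ∈ Z, s z * (c e * ((if up e = z then (1 : ℝ) else 0) - if dn e = z then 1 else 0)) =
      (if up e = z then c e * s z else 0) - (if dn e = z then c e * s z else 0) := by
    intro z _
    split_ifs <;> ring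
  rw [Finset.sum_congr rfl h1, Finset.sum_sub_distrib, Finset.sum_ite_eq, Finset.sum_ite_eq,
    if_pos (hu e he), if_pos (hd e he)]
  ring

open Classical in
/-- Indicator of the sites separated from `p`. -/
noncomputable def sep (D : Finset (ℤ × ℤ)) (p : ℤ × ℤ) (A : Finset Ed) (z : ℤ × ℤ) : ℝ :=
  if BR.Sep D A z p then 1 else 0

theorem mass_eq (f : ℤ × ℤ → ℝ) : mass D p f A = ∑ z ∈ sites D, sep D p A z * f z := by
  classical
  unfold mass sep
  refine Finset.sum_congr rfl fun z _ => ?_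
  split_ifs <;> simp

theorem sep_eq {e : Ed} (he : e ∈ eds D) (hA : e ∉ A) : sep D p A (up e) = sep D p A (dn e) := by
  classical
  have h : BR.Sep D A (ls e) p ↔ BR.Sep D A (rs e) p := by
    unfold BR.Sep
    constructor
    · rintro ⟨u, hu, h⟩
      refine ⟨u, hu, ?_⟩
      rwa [hu e he, if_neg hA, add_zero] at h
    · rintro ⟨u, hu, h⟩
      refine ⟨u, hu, ?_⟩
      rwa [hu e he, if_neg hA, add_zero]
  unfold sep
  rcases up_dn e with ⟨h1, h2⟩ | ⟨h1, h2⟩
  · rw [h1, h2]; simp only [h]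
  · rw [h1, h2]; simp only [h]

theorem up_mem {e : Ed} (he : e ∈ eds D) : up e ∈ sites D := by
  rcases up_dn e with ⟨h1, -⟩ | ⟨h1, -⟩
  · rw [h1]; exact ls_mem_sites he
  · rw [h1]; exact rs_mem_sites he

theorem dn_mem {e : Ed} (he : e ∈ eds D) : dn e ∈ sites D := by
  rcases up_dn e with ⟨-, h1⟩ | ⟨-, h1⟩
  · rw [h1]; exact rs_mem_sites he
  · rw [h1]; exact ls_mem_sites he

/-- The mass of a divergence is the flow through the piece. -/
theorem mass_dvf {c : Ed → ℝ} (hc : ∀ e, c e ≠ 0 → e ∈ eds D) (hA : A ⊆ eds D) :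
    mass D p (dvf c) A = ∑ e ∈ A, c e * (sep D p A (up e) - sep D p A (dn e)) := by
  rw [mass_eq, sum_dvf hc (fun e he => up_mem he) (fun e he => dn_mem he)]
  refine (Finset.sum_subset hA fun e he heA => ?_).symm
  rw [sep_eq he heA, sub_self, mul_zero]

theorem mass_dvf_zero {c : Ed → ℝ} (hc : ∀ e, c e ≠ 0 → e ∈ eds D) (hA : A ⊆ eds D)
    (h : ∀ e ∈ A, c e = 0) : mass D p (dvf c) A = 0 := by
  rw [mass_dvf hc hA]
  exact Finset.sum_eq_zero fun e he => by rw [h e he, zero_mul]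

theorem abs_mass_le (f : ℤ × ℤ → ℝ) : |mass D p f A| ≤ ∑ z ∈ sites D, |f z| := by
  classical
  unfold mass
  refine (Finset.abs_sum_le_sum_abs _ _).trans (Finset.sum_le_sum fun z _ => ?_)
  split_ifs
  · exact le_rfl
  · simp

theorem mass_add (f g : ℤ × ℤ → ℝ) :
    mass D p (fun z => f z + g z) A = mass D p f A + mass D p g A := by
  simp only [mass_eq, mul_add, Finset.sum_add_distrib]

theorem mass_sum {ι : Type*} (s : Finset ι) (f : ι → ℤ × ℤ → ℝ) :
    mass D p (fun z => ∑ i ∈ s, f i z) A = ∑ i ∈ s, mass D p (f i) A := by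
  simp only [mass_eq, Finset.mul_sum]
  exact Finset.sum_comm

theorem tot_dvf {c : Ed → ℝ} (hc : ∀ e, c e ≠ 0 → e ∈ eds D) : ∑ z ∈ sites D, dvf c z = 0 := by
  have h := sum_dvf hc (fun e he => up_mem he) (fun e he => dn_mem he) fun _ => 1
  simpa using h

/-! ### Blocks -/

open Classical in
/-- The part of a flow through the edges with head in the cell `b`. -/
noncomputable def blk (c : Ed → ℝ) (h : ℤ) (b : ℤ × ℤ) (e : Ed) : ℝ :=
  if ((hdv e).1 / h, (hdv e).2 / h) = b then c e else 0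

theorem dvf_sum {ι : Type*} (s : Finset ι) (c : ι → Ed → ℝ) (z : ℤ × ℤ) :
    dvf (fun e => ∑ i ∈ s, c i e) z = ∑ i ∈ s, dvf (c i) z := by
  simp only [dvf, Finset.sum_add_distrib, Finset.sum_sub_distrib]

theorem sum_blk {c : Ed → ℝ} (hT : ∀ e, c e ≠ 0 → hdv e ∈ T) (h : ℤ) :
    (fun e => ∑ b ∈ cel T h, blk c h b e) = c := by
  classical
  funext e
  unfold blk
  rw [Finset.sum_ite_eq]
  split_ifs with hb
  · rfl
  · by_contra hcon
    exact hb (Finset.mem_image_of_mem (fun v : ℤ × ℤ => (v.1 / h, v.2 / h))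
      (hT e fun h0 => hcon h0.symm))

theorem blk_ne {c : Ed → ℝ} {h : ℤ} {b : ℤ × ℤ} {e : Ed} (hb : blk c h b e ≠ 0) :
    c e ≠ 0 ∧ ((hdv e).1 / h, (hdv e).2 / h) = b := by
  unfold blk at hb
  split_ifs at hb with h1
  · exact ⟨hb, h1⟩
  · exact absurd rfl hb

/-- The decomposition of the mass into blocks. -/
theorem mass_blk {c : Ed → ℝ} (hc : ∀ e, c e ≠ 0 → e ∈ eds D) (hT : ∀ e, c e ≠ 0 → hdv e ∈ T)
    (hA : A ⊆ eds D) (h : ℤ) :
    |mass D p (dvf c) A| ≤ ∑ b ∈ cel T h, (∑ z ∈ sites D, |dvf (blk c h b) z|) *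
      (open Classical in if ∃ e ∈ A, ((hdv e).1 / h, (hdv e).2 / h) = b then 1 else 0) := by
  classical
  have h1 : mass D p (dvf c) A = ∑ b ∈ cel T h, mass D p (dvf (blk c h b)) A := by
    rw [← mass_sum]
    congr 1
    funext z
    rw [← dvf_sum, sum_blk hT]
  rw [h1]
  refine (Finset.abs_sum_le_sum_abs _ _).trans (Finset.sum_le_sum fun b _ => ?_)
  split_ifs with hb
  · rw [mul_one]; exact abs_mass_le _
  · rw [mul_zero, mass_dvf_zero (fun e he => hc e (blk_ne he).1) hA, abs_zero]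
    intro e he
    by_contra hcon
    exact hb ⟨e, he, (blk_ne hcon).2⟩

end Vale.Agent.P167.H638.L
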