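import Vale.Agent.P167.H638.L3

/-!
# P167, block LAYER: the masses of the macroscopic pieces
-/

namespace Vale.Agent.P167.H638.L

open Finset MeasureTheory
open Vale.Agent.P167.BR
open Vale.Agent.P167.H562 (Em)
open Vale.Agent.P167.H167 (Fd fd_pcs Bg em_Bg ind ArmE fd_arm arm_of_piece armE_le cs_le ind_mem
  ind_notMem ind_sq exists_far_head)

variable {D T : Finset (ℤ × ℤ)} {p : ℤ × ℤ} {ω ω' : Cfg} {A : Finset Ed}

/-- The sites at the corners of the squares of a cell. -/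
noncomputable def Zb (h : ℤ) (b : ℤ × ℤ) : Finset (ℤ × ℤ) :=
  Finset.Icc (h * b.1) (h * b.1 + h) ×ˢ Finset.Icc (h * b.2) (h * b.2 + h)

/-- The sites on the boundary of a cell. -/
def Bad (h : ℤ) (b z : ℤ × ℤ) : Prop :=
  z.1 = h * b.1 ∨ z.1 = h * b.1 + h ∨ z.2 = h * b.2 ∨ z.2 = h * b.2 + h

theorem card_Zb {h : ℤ} (hh : 1 ≤ h) (b : ℤ × ℤ) : ((Zb h b).card : ℝ) = (h + 1) ^ 2 := by
  have h1 : ((Zb h b).card : ℤ) = (h + 1) ^ 2 := by
    unfold Zb
    rw [Finset.card_product, Int.card_Icc, Int.card_Icc]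
    have e1 : h * b.1 + h + 1 - h * b.1 = h + 1 := by ring
    have e2 : h * b.2 + h + 1 - h * b.2 = h + 1 := by ring
    rw [e1, e2]
    push_cast
    rw [Int.toNat_of_nonneg (by linarith)]
    ring
  calc ((Zb h b).card : ℝ) = (((Zb h b).card : ℤ) : ℝ) := by push_cast; rfl
    _ = _ := by rw [h1]; push_cast; ring

open Classical in
theorem card_bad {h : ℤ} (hh : 1 ≤ h) (b : ℤ × ℤ) :
    (((Zb h b).filter (Bad h b)).card : ℝ) ≤ 4 * (h + 1) := by
  have h1 : (Zb h b).filter (Bad h b) ⊆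
      (({h * b.1, h * b.1 + h} : Finset ℤ) ×ˢ Finset.Icc (h * b.2) (h * b.2 + h)) ∪
      (Finset.Icc (h * b.1) (h * b.1 + h) ×ˢ ({h * b.2, h * b.2 + h} : Finset ℤ)) := by
    intro z hz
    obtain ⟨h2, h3⟩ := Finset.mem_filter.1 hz
    obtain ⟨h4, h5⟩ := Finset.mem_product.1 h2
    simp only [Finset.mem_union, Finset.mem_product, Finset.mem_insert, Finset.mem_singleton]
    rcases h3 with h | h | h | h
    · exact Or.inl ⟨Or.inl h, h5⟩
    · exact Or.inl ⟨Or.inr h, h5⟩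
    · exact Or.inr ⟨h4, Or.inl h⟩
    · exact Or.inr ⟨h4, Or.inr h⟩
  have h2 : (((Zb h b).filter (Bad h b)).card : ℤ) ≤ 4 * (h + 1) := by
    have h3 := (Finset.card_le_card h1).trans (Finset.card_union_le _ _)
    rw [Finset.card_product, Finset.card_product, Int.card_Icc, Int.card_Icc] at h3
    have e1 : h * b.1 + h + 1 - h * b.1 = h + 1 := by ring
    have e2 : h * b.2 + h + 1 - h * b.2 = h + 1 := by ring
    rw [e1, e2] at h3
    have c1 : ({h * b.1, h * b.1 + h} : Finset ℤ).card ≤ 2 := Finset.card_le_two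
    have c2 : ({h * b.2, h * b.2 + h} : Finset ℤ).card ≤ 2 := Finset.card_le_two
    have h4 : ((Zb h b).filter (Bad h b)).card ≤ 2 * (h + 1).toNat + (h + 1).toNat * 2 :=
      h3.trans (add_le_add (Nat.mul_le_mul_right _ c1) (Nat.mul_le_mul_left _ c2))
    have h5 : ((h + 1).toNat : ℤ) = h + 1 := Int.toNat_of_nonneg (by linarith)
    omega
  exact_mod_cast h2

theorem hd_near {e : Ed} {z : ℤ × ℤ} (h : up e = z ∨ dn e = z) :
    ((hdv e).1 = z.1 - 1 ∨ (hdv e).1 = z.1) ∧ ((hdv e).2 = z.2 - 1 ∨ (hdv e).2 = z.2) := by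
  rcases h with rfl | rfl <;> rcases e with ⟨x, y⟩ | ⟨x, y⟩ <;> by_cases he : Even (x + y) <;>
    simp [up, dn, hdv, he]

theorem cell_iff {h : ℤ} (hh : 1 ≤ h) {v b : ℤ × ℤ} : (v.1 / h, v.2 / h) = b ↔
    (h * b.1 ≤ v.1 ∧ v.1 < h * b.1 + h) ∧ (h * b.2 ≤ v.2 ∧ v.2 < h * b.2 + h) := by
  have h0 : 0 < h := by linarith
  have aux : ∀ x y : ℤ, x / h = y ↔ h * y ≤ x ∧ x < h * y + h := by
    intro x y
    constructor
    · rintro rfl
      exact ⟨Int.mul_ediv_self_le h0.ne', by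
        have := Int.lt_mul_ediv_self_add (x := x) h0
        linarith⟩
    · rintro ⟨h1, h2⟩
      have h3 : y ≤ x / h := by rw [Int.le_ediv_iff_mul_le h0]; linarith
      have h4 : x / h < y + 1 := by rw [Int.ediv_lt_iff_lt_mul h0]; linarith
      omega
  rw [Prod.ext_iff]
  simp only [aux]

/-- The `l¹` norm of the divergence of a block. -/
theorem l1_blk {c : Ed → ℝ} {h : ℤ} (hh : 1 ≤ h) (b : ℤ × ℤ) {m1 m2 : ℝ} (hm1 : ∀ e, |c e| ≤ m1)
    (hm2 : ∀ z, |dvf c z| ≤ m2) :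
    ∑ z ∈ sites D, |dvf (blk c h b) z| ≤ (h + 1) ^ 2 * m2 + 16 * (h + 1) * m1 := by
  classical
  have hm10 : 0 ≤ m1 := (abs_nonneg _).trans (hm1 (Sum.inl (0, 0)))
  have hm20 : 0 ≤ m2 := (abs_nonneg _).trans (hm2 0)
  have hb : ∀ e, |blk c h b e| ≤ m1 := by
    intro e
    unfold blk
    split_ifs
    · exact hm1 e
    · rw [abs_zero]; exact hm10
  have key : ∀ z, |dvf (blk c h b) z| ≤ if z ∈ Zb h b then m2 + (if Bad h b z then 4 * m1 else 0)
      else 0 := by
    intro z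
    have e1 := hd_near (e := Sum.inl (z.1 - 1, z.2 - 1)) (z := z) (Or.inl (by simp [up]))
    have e2 := hd_near (e := Sum.inl (z.1 - 1, z.2)) (z := z) (Or.inr (by simp [dn]))
    have e3 := hd_near (e := Sum.inr (z.1, z.2 - 1)) (z := z) (Or.inl (by simp [up]))
    have e4 := hd_near (e := Sum.inr (z.1 - 1, z.2 - 1)) (z := z) (Or.inr (by simp [dn]))
    split_ifs with hz hbad
    · calc |dvf (blk c h b) z| ≤ 4 * m1 := by
            unfold dvf
            have := hb (Sum.inl (z.1 - 1, z.2 - 1))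
            have := hb (Sum.inl (z.1 - 1, z.2))
            have := hb (Sum.inr (z.1, z.2 - 1))
            have := hb (Sum.inr (z.1 - 1, z.2 - 1))
            simp only [abs_le] at *
            constructor <;> linarith
        _ ≤ _ := by linarith
    · rw [add_zero]
      unfold Bad at hbad
      push Not at hbad
      obtain ⟨b1, b2, b3, b4⟩ := hbad
      unfold Zb at hz
      rw [Finset.mem_product, Finset.mem_Icc, Finset.mem_Icc] at hz
      obtain ⟨⟨a1, a2⟩, a3, a4⟩ := hz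
      have hin : ∀ e, ((hdv e).1 = z.1 - 1 ∨ (hdv e).1 = z.1) ∧
          ((hdv e).2 = z.2 - 1 ∨ (hdv e).2 = z.2) → blk c h b e = c e := by
        intro e he
        unfold blk
        rw [if_pos]
        rw [cell_iff hh]
        omega
      have : dvf (blk c h b) z = dvf c z := by
        unfold dvf
        rw [hin _ e1, hin _ e2, hin _ e3, hin _ e4]
      rw [this]
      exact hm2 z
    · have hout : ∀ e, ((hdv e).1 = z.1 - 1 ∨ (hdv e).1 = z.1) ∧
          ((hdv e).2 = z.2 - 1 ∨ (hdv e).2 = z.2) → blk c h b e = 0 := by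
        intro e he
        unfold blk
        rw [if_neg]
        rw [cell_iff hh]
        intro hcon
        apply hz
        unfold Zb
        rw [Finset.mem_product, Finset.mem_Icc, Finset.mem_Icc]
        omega
      have : dvf (blk c h b) z = 0 := by
        unfold dvf
        rw [hout _ e1, hout _ e2, hout _ e3, hout _ e4]
        ring
      rw [this, abs_zero]
  have hZ : (0 : ℝ) ≤ (h : ℝ) := by exact_mod_cast (by linarith : (0 : ℤ) ≤ h)
  calc ∑ z ∈ sites D, |dvf (blk c h b) z|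
      ≤ ∑ z ∈ sites D, (if z ∈ Zb h b then m2 + (if Bad h b z then 4 * m1 else 0) else 0) :=
        Finset.sum_le_sum fun z _ => key z
    _ = ∑ z ∈ (sites D).filter (· ∈ Zb h b), (m2 + (if Bad h b z then 4 * m1 else 0)) := by
        rw [Finset.sum_filter]
    _ ≤ ∑ z ∈ Zb h b, (m2 + (if Bad h b z then 4 * m1 else 0)) := by
        refine Finset.sum_le_sum_of_subset_of_nonneg (fun z hz => (Finset.mem_filter.1 hz).2)
          fun z _ _ => ?_
        split_ifs <;> positivity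
    _ = (h + 1) ^ 2 * m2 + (((Zb h b).filter (Bad h b)).card : ℝ) * (4 * m1) := by
        rw [Finset.sum_add_distrib, Finset.sum_const, nsmul_eq_mul, card_Zb hh,
          ← Finset.sum_filter, Finset.sum_const, nsmul_eq_mul]
    _ ≤ (h + 1) ^ 2 * m2 + (4 * (h + 1)) * (4 * m1) := by
        have := mul_le_mul_of_nonneg_right (card_bad hh b) (by positivity : 0 ≤ 4 * m1)
        linarith
    _ = _ := by ring

/-- The mean number of the big pieces of a box. -/
theorem big_arm : ∃ C α : ℝ, 0 < C ∧ 0 < α ∧ ∀ (D : Finset (ℤ × ℤ)) (x : ℤ × ℤ) (h : ℤ) (d : ℝ),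
    1 ≤ h → (h : ℝ) ≤ d → ∫ ω, ((Bg D x h d ω).card : ℝ) ∂μ ≤ C * ((h : ℝ) / d) ^ α := by
  classical
  obtain ⟨l, M, hl, hM, hem⟩ := em_Bg 1
  obtain ⟨C, α, hC, hα, hα1, harm⟩ := armE_le
  have hfd : ∀ (D : Finset (ℤ × ℤ)) (x : ℤ × ℤ) (h : ℤ) (d : ℝ),
      Fd (fun ω => ((Bg D x h d ω).card : ℝ)) := fun D x h d =>
    fd_pcs D fun s => (((s.filter fun A => (∃ e ∈ A, nm (hdv e - x) ≤ h) ∧ ¬ Small d A).card : ℕ) : ℝ)
  -- second moment
  have h2 : ∀ (D : Finset (ℤ × ℤ)) (x : ℤ × ℤ) (h : ℤ) (d : ℝ), 1 ≤ h → (h : ℝ) ≤ d →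
      ∫ ω, ((Bg D x h d ω).card : ℝ) ^ 2 ∂μ ≤ 2 * M / l ^ 2 := by
    intro D x h d hh hd
    have h1 : (1 : ℝ) ≤ h := by exact_mod_cast hh
    have h3 := hem D x h d (by linarith) (by linarith) (by push_cast; linarith)
    have h4 : Fd (fun ω => Real.exp (l * ((Bg D x h d ω).card : ℝ))) := (hfd D x h d).comp fun y =>
      Real.exp (l * y)
    rw [H562.Em_eq h4.int] at h3
    have h5 := (ENNReal.ofReal_le_ofReal_iff hM).1 h3
    calc ∫ ω, ((Bg D x h d ω).card : ℝ) ^ 2 ∂μ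
        ≤ ∫ ω, 2 / l ^ 2 * Real.exp (l * ((Bg D x h d ω).card : ℝ)) ∂μ := by
          refine integral_mono ((hfd D x h d).pow 2).int (h4.int.const_mul _) fun ω => ?_
          have h6 := H562.sq_le_two_exp (y := l * ((Bg D x h d ω).card : ℝ)) (by positivity)
          simp only
          rw [div_mul_eq_mul_div, le_div_iff₀ (by positivity)]
          nlinarith
      _ = 2 / l ^ 2 * ∫ ω, Real.exp (l * ((Bg D x h d ω).card : ℝ)) ∂μ := integral_const_mul _ _
      _ ≤ 2 / l ^ 2 * M := mul_le_mul_of_nonneg_left h5 (by positivity)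
      _ = _ := by ring
  set a0 : ℝ := √(2 * M / l ^ 2) with ha0
  have ha0' : 0 ≤ a0 := Real.sqrt_nonneg _
  have ha0s : a0 ^ 2 = 2 * M / l ^ 2 := Real.sq_sqrt (by positivity)
  refine ⟨(a0 + 1) * (√C + 1) * 2, α / 2, by positivity, by positivity, fun D x h d hh hd => ?_⟩
  have hh1 : (1 : ℝ) ≤ h := by exact_mod_cast hh
  have hd0 : 0 < d := by linarith
  have hq : (0 : ℝ) < (h : ℝ) / d := by positivity
  -- `1 ≤ (2 h / d) ^ (α / 2) 2`
  have hpow2 : (2 : ℝ) ^ (α / 2) ≤ 2 := by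
    calc (2 : ℝ) ^ (α / 2) ≤ 2 ^ (1 : ℝ) :=
          Real.rpow_le_rpow_of_exponent_le (by norm_num) (by linarith)
      _ = 2 := Real.rpow_one 2
  have hmul : ((2 * h : ℝ) / d) ^ (α / 2) ≤ 2 * ((h : ℝ) / d) ^ (α / 2) := by
    rw [mul_div_assoc, Real.mul_rpow (by norm_num) hq.le]
    exact mul_le_mul_of_nonneg_right hpow2 (by positivity)
  have hbase : ∫ ω, ((Bg D x h d ω).card : ℝ) ∂μ ≤ a0 := by
    have := cs_le (hfd D x h d) (Fd.const (1 : ℝ)) ha0' (zero_le_one)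
      (by rw [ha0s]; exact h2 D x h d hh hd) (by simp)
    simpa using (le_abs_self _).trans this
  set R : ℤ := ⌈d / 2⌉ with hR
  by_cases hlt : h < R
  · have hX : ∀ ω, ((Bg D x h d ω).card : ℝ) = ((Bg D x h d ω).card : ℝ) * ind (ArmE x h R) ω := by
      intro ω
      by_cases hω : ω ∈ ArmE x h R
      · rw [ind_mem hω, mul_one]
      · rw [ind_notMem hω, mul_zero]
        have : Bg D x h d ω = ∅ := by
          rw [Finset.eq_empty_iff_forall_notMem]
          intro A hA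
          unfold Bg at hA
          obtain ⟨h5, ⟨e, he, h6⟩, h7⟩ := Finset.mem_filter.1 hA
          obtain ⟨b, hb, h8⟩ := exists_far_head h7 x
          exact hω (arm_of_piece h5 hlt he hb h6 (Int.ceil_le.2 h8))
        rw [this]
        simp
    have hRp : 1 ≤ R := by omega
    have hRR : d / 2 ≤ R := Int.le_ceil _
    have hR0 : (0 : ℝ) < R := by linarith
    have harm' := harm x h R hh hRp
    have hq' : (0 : ℝ) ≤ C * ((h : ℝ) / R) ^ α := by positivity
    have h9 := cs_le (hfd D x h d) (fd_arm x h R) ha0' (Real.sqrt_nonneg (C * ((h : ℝ) / R) ^ α))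
      (by rw [ha0s]; exact h2 D x h d hh hd)
      (by rw [Real.sq_sqrt hq']; simp only [ind_sq]; exact harm')
    have h10 : √(C * ((h : ℝ) / R) ^ α) ≤ √C * ((2 * h : ℝ) / d) ^ (α / 2) := by
      rw [Real.sqrt_mul hC.le]
      refine mul_le_mul_of_nonneg_left ?_ (Real.sqrt_nonneg _)
      rw [Real.sqrt_eq_rpow, ← Real.rpow_mul (by positivity)]
      have : α * (1 / 2) = α / 2 := by ring
      rw [this]
      refine Real.rpow_le_rpow (by positivity) ?_ (by positivity)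
      rw [div_le_div_iff₀ hR0 hd0]
      nlinarith
    calc ∫ ω, ((Bg D x h d ω).card : ℝ) ∂μ
        = ∫ ω, ((Bg D x h d ω).card : ℝ) * ind (ArmE x h R) ω ∂μ := by
          congr 1; funext ω; exact hX ω
      _ ≤ a0 * √(C * ((h : ℝ) / R) ^ α) := (le_abs_self _).trans h9
      _ ≤ a0 * (√C * (2 * ((h : ℝ) / d) ^ (α / 2))) :=
          mul_le_mul_of_nonneg_left (h10.trans (mul_le_mul_of_nonneg_left hmul
            (Real.sqrt_nonneg _))) ha0'
      _ ≤ _ := by
          have h11 : 0 ≤ ((h : ℝ) / d) ^ (α / 2) := by positivity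
          have h12 : 0 ≤ √C := Real.sqrt_nonneg _
          have h13 : a0 * √C ≤ (a0 + 1) * (√C + 1) := by nlinarith
          calc _ = a0 * √C * (2 * ((h : ℝ) / d) ^ (α / 2)) := by ring
            _ ≤ (a0 + 1) * (√C + 1) * (2 * ((h : ℝ) / d) ^ (α / 2)) :=
                mul_le_mul_of_nonneg_right h13 (by positivity)
            _ = _ := by ring
  · have hRR : d / 2 ≤ R := Int.le_ceil _
    have h5 : (R : ℝ) ≤ h := by exact_mod_cast not_lt.1 hlt
    have h6 : 1 ≤ (2 * h : ℝ) / d := by rw [le_div_iff₀ hd0]; linarith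
    have h7 : 1 ≤ ((2 * h : ℝ) / d) ^ (α / 2) := Real.one_le_rpow h6 (by positivity)
    have h8 : 1 ≤ 2 * ((h : ℝ) / d) ^ (α / 2) := h7.trans hmul
    calc ∫ ω, ((Bg D x h d ω).card : ℝ) ∂μ ≤ a0 := hbase
      _ ≤ (a0 + 1) * (√C + 1) := by nlinarith [Real.sqrt_nonneg C]
      _ = (a0 + 1) * (√C + 1) * 1 := (mul_one _).symm
      _ ≤ (a0 + 1) * (√C + 1) * (2 * ((h : ℝ) / d) ^ (α / 2)) :=
          mul_le_mul_of_nonneg_left h8 (by positivity)
      _ = _ := by ring

open Classical in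
/-- The sum of the masses of the big pieces. -/
noncomputable def bigV (D : Finset (ℤ × ℤ)) (p : ℤ × ℤ) (f : ℤ × ℤ → ℝ) (d : ℝ) (ω : Cfg) : ℝ :=
  ∑ A ∈ (pcs ω D).filter (fun A => ¬ Small d A), |mass D p f A|

theorem fd_bigV (D : Finset (ℤ × ℤ)) (p : ℤ × ℤ) (f : ℤ × ℤ → ℝ) (d : ℝ) : Fd (bigV D p f d) := by
  classical
  exact fd_pcs D fun s => ∑ A ∈ s.filter (fun A => ¬ Small d A), |mass D p f A|

theorem bigV_nonneg (D : Finset (ℤ × ℤ)) (p : ℤ × ℤ) (f : ℤ × ℤ → ℝ) (d : ℝ) (ω : Cfg) :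
    0 ≤ bigV D p f d ω := Finset.sum_nonneg fun _ _ => abs_nonneg _

/-- **The masses of the macroscopic pieces.** -/
theorem int_bigV : ∃ C α : ℝ, 0 < C ∧ 0 < α ∧ ∀ (D T : Finset (ℤ × ℤ)) (p : ℤ × ℤ) (c : Ed → ℝ)
    (h : ℤ) (d m1 m2 : ℝ), 1 ≤ h → (h : ℝ) ≤ d → (∀ e, c e ≠ 0 → e ∈ eds D) →
    (∀ e, c e ≠ 0 → hdv e ∈ T) → (∀ e, |c e| ≤ m1) → (∀ z, |dvf c z| ≤ m2) →
    ∫ ω, bigV D p (dvf c) d ω ∂μ ≤
      C * ((cel T h).card : ℝ) * (h ^ 2 * m2 + h * m1) * ((h : ℝ) / d) ^ α := by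
  classical
  obtain ⟨C, α, hC, hα, hbig⟩ := big_arm
  refine ⟨32 * C, α, by positivity, hα, fun D T p c h d m1 m2 hh hd hcD hcT hm1 hm2 => ?_⟩
  have hh1 : (1 : ℝ) ≤ h := by exact_mod_cast hh
  have hm10 : 0 ≤ m1 := (abs_nonneg _).trans (hm1 (Sum.inl (0, 0)))
  have hm20 : 0 ≤ m2 := (abs_nonneg _).trans (hm2 0)
  set Lb : ℝ := (h + 1) ^ 2 * m2 + 16 * (h + 1) * m1 with hLb
  have hLb0 : 0 ≤ Lb := by positivity
  have hfd : ∀ b : ℤ × ℤ, Fd (fun ω => ((Bg D (h * b.1, h * b.2) h d ω).card : ℝ)) := fun b =>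
    fd_pcs D fun s => (((s.filter fun A => (∃ e ∈ A, nm (hdv e - (h * b.1, h * b.2)) ≤ h) ∧
      ¬ Small d A).card : ℕ) : ℝ)
  have hpt : ∀ ω, bigV D p (dvf c) d ω ≤
      ∑ b ∈ cel T h, Lb * ((Bg D (h * b.1, h * b.2) h d ω).card : ℝ) := by
    intro ω
    unfold bigV
    calc ∑ A ∈ (pcs ω D).filter (fun A => ¬ Small d A), |mass D p (dvf c) A|
        ≤ ∑ A ∈ (pcs ω D).filter (fun A => ¬ Small d A), ∑ b ∈ cel T h,
            Lb * (if ∃ e ∈ A, ((hdv e).1 / h, (hdv e).2 / h) = b then 1 else 0) := by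
          refine Finset.sum_le_sum fun A hA => ?_
          have h1 := mass_blk (p := p) hcD hcT (subset_eds (Finset.mem_filter.1 hA).1) h
          refine h1.trans (Finset.sum_le_sum fun b _ => ?_)
          refine mul_le_mul ?_ (le_of_eq ?_) ?_ hLb0
          · exact l1_blk hh b hm1 hm2
          · congr
          · split_ifs <;> norm_num
      _ = ∑ b ∈ cel T h, Lb * (((((pcs ω D).filter (fun A => ¬ Small d A)).filter
            (fun A => ∃ e ∈ A, ((hdv e).1 / h, (hdv e).2 / h) = b)).card : ℕ) : ℝ) := by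
          rw [Finset.sum_comm]
          refine Finset.sum_congr rfl fun b _ => ?_
          rw [← Finset.mul_sum, Finset.sum_boole]
      _ ≤ _ := by
          refine Finset.sum_le_sum fun b _ => mul_le_mul_of_nonneg_left ?_ hLb0
          have : (((pcs ω D).filter (fun A => ¬ Small d A)).filter
              (fun A => ∃ e ∈ A, ((hdv e).1 / h, (hdv e).2 / h) = b)).card ≤
              (Bg D (h * b.1, h * b.2) h d ω).card := by
            refine Finset.card_le_card fun A hA => ?_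
            obtain ⟨h1, e, he, h2⟩ := Finset.mem_filter.1 hA
            obtain ⟨h3, h4⟩ := Finset.mem_filter.1 h1
            unfold Bg
            rw [Finset.mem_filter]
            refine ⟨h3, ⟨e, he, ?_⟩, h4⟩
            rw [cell_iff hh] at h2
            rw [H45.nm_le]
            simp only [Prod.fst_sub, Prod.snd_sub, abs_le]
            refine ⟨⟨?_, ?_⟩, ?_, ?_⟩ <;> linarith [h2.1.1, h2.1.2, h2.2.1, h2.2.2]
          exact_mod_cast this
  calc ∫ ω, bigV D p (dvf c) d ω ∂μ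
      ≤ ∫ ω, ∑ b ∈ cel T h, Lb * ((Bg D (h * b.1, h * b.2) h d ω).card : ℝ) ∂μ :=
        integral_mono (fd_bigV D p (dvf c) d).int
          (integrable_finsetSum _ fun b _ => (hfd b).int.const_mul _) hpt
    _ = ∑ b ∈ cel T h, Lb * ∫ ω, ((Bg D (h * b.1, h * b.2) h d ω).card : ℝ) ∂μ := by
        rw [integral_finsetSum _ fun b _ => (hfd b).int.const_mul _]
        exact Finset.sum_congr rfl fun b _ => integral_const_mul _ _
    _ ≤ ∑ _b ∈ cel T h, Lb * (C * ((h : ℝ) / d) ^ α) :=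
        Finset.sum_le_sum fun b _ => mul_le_mul_of_nonneg_left (hbig D _ h d hh hd) hLb0
    _ = ((cel T h).card : ℝ) * (Lb * (C * ((h : ℝ) / d) ^ α)) := by
        rw [Finset.sum_const, nsmul_eq_mul]
    _ ≤ ((cel T h).card : ℝ) * ((32 * (h ^ 2 * m2 + h * m1)) * (C * ((h : ℝ) / d) ^ α)) := by
        have hp : 0 ≤ C * ((h : ℝ) / d) ^ α := by
          have : 0 < d := by linarith
          positivity
        refine mul_le_mul_of_nonneg_left (mul_le_mul_of_nonneg_right ?_ hp) (by positivity)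
        rw [hLb]
        have h3 : ((h : ℝ) + 1) ^ 2 ≤ 4 * h ^ 2 := by nlinarith
        have h4 : ((h : ℝ) + 1) ≤ 2 * h := by linarith
        have h5 : ((h : ℝ) + 1) ^ 2 * m2 ≤ 4 * h ^ 2 * m2 := mul_le_mul_of_nonneg_right h3 hm20
        have h6 : 16 * ((h : ℝ) + 1) * m1 ≤ 16 * (2 * h) * m1 := by
          refine mul_le_mul_of_nonneg_right ?_ hm10
          linarith
        have h7 : 0 ≤ (h : ℝ) ^ 2 * m2 := by positivity
        nlinarith
    _ = _ := by ring

end Vale.Agent.P167.H638.L
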