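import Vale.Agent.P167.H638.L4
import Vale.Agent.P167.H135.Tra

/-!
# P167, block LAYER: small pieces near the support of a neutral charge are loops of the plane; the mean
of the sum of their masses is zero
-/

namespace Vale.Agent.P167.H638.L

open Finset MeasureTheory
open Vale.Agent.P167.BR
open Vale.Agent.P167.H167 (Fd fd_pcs Geo Jn pot_jn Wi tot nr)
open Vale.Agent.P167.H135 (CS Cn Cn_int mean_cn near_ins)

variable {D T : Finset (ℤ × ℤ)} {p : ℤ × ℤ} {ω ω' : Cfg} {A : Finset Ed} {f : ℤ × ℤ → ℝ} {K m : ℤ}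

/-- All squares at distance at most `r` of the support of `f` are in `D`. -/
def Deep (r : ℝ) (D : Finset (ℤ × ℤ)) (f : ℤ × ℤ → ℝ) : Prop :=
  ∀ z, f z ≠ 0 → ∀ v : ℤ × ℤ, (nm (v - z) : ℝ) ≤ r → v ∈ D

/-- A loop of the plane in `D` is a piece of `D`. -/
theorem loop_mem_pcs (h : IsLoop ω A) (hD : ∀ e ∈ A, hdv e ∈ D) : A ∈ pcs ω D ∧ IsLp D A := by
  refine ⟨?_, hD⟩
  have h0 := h
  obtain ⟨e, he⟩ := h0
  have heA : e ∈ A := (he e).2 ⟨0, rfl⟩
  have heD : e ∈ eds D := mem_eds.2 (Or.inl (hD e heA))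
  have hback : ∀ (k : ℕ) (x : Ed), (nx ω)^[k] x ∈ A → x ∈ A := by
    intro k
    induction k with
    | zero => intro x hx; exact hx
    | succ n ih =>
      intro x hx
      rw [Function.iterate_succ_apply] at hx
      exact h.nx_mem_iff.1 (ih _ hx)
  have : piece ω D e = A := by
    ext e'
    rw [mem_piece, eqvGen_iff]
    constructor
    · rintro ⟨-, k, hk | hk⟩
      · exact (he e').2 ⟨k, hk.1⟩
      · exact hback k e' (by rw [hk.1]; exact heA)
    · intro he'
      refine ⟨mem_eds.2 (Or.inl (hD e' he')), ?_⟩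
      obtain ⟨k, hk⟩ := (he e').1 he'
      exact ⟨k, Or.inl ⟨hk, fun j _ => hD _ ((he _).2 ⟨j, rfl⟩)⟩⟩
  rw [← this]
  exact piece_mem_pcs heD

theorem pot_W (h : IsLoop ω A) : PotD D A (W A) := fun e _ => s_jump ω A h e

theorem W_base (hG : Geo K m D p) (h : IsLoop ω A) (hA : A ∈ pcs ω D) (hl : IsLp D A) {d : ℝ}
    (hs : Small d A) (hd : d ≤ m) : W A p = 0 := by
  by_contra hcon
  obtain ⟨q, hq, hqp, hj⟩ := hG.bd
  have h1 : W A p = W A q := pot_jn (pot_W h) (fun e he => by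
    push Not
    exact ⟨hl e he, H167.IsLp.tl hA hl he⟩) hj
  obtain ⟨v, hv⟩ := H45.vs_nonempty h
  have h2 := near_ins h hs (s := p) hcon hv
  have h3 := near_ins h hs (s := q) (show W A q ≠ 0 by rwa [← h1]) hv
  have h4 : nm (q - p) ≤ nm (q - v) + nm (v - p) := by
    have := H45.nm_sub_le q v p
    exact this
  have h5 := H45.nm_sub_comm q v
  rw [h5] at h4
  have h6 : (nm (q - p) : ℝ) ≤ nm (v - q) + nm (v - p) := by exact_mod_cast h4
  have h7 : ((2 * (K * m) : ℤ) : ℝ) < nm (q - p) := by exact_mod_cast hqp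
  have hK : (1 : ℝ) ≤ K := by exact_mod_cast hG.one_le
  have hm : (1 : ℝ) ≤ m := by exact_mod_cast hG.mpos
  push_cast at h7
  nlinarith

theorem jn_all (hG : Geo K m D p) {z z' : ℤ × ℤ} (hz : z ∈ sites D) (hz' : z' ∈ sites D) :
    Jn D (fun _ => True) z z' := by
  -- a far centre
  have hex : ∃ x : ℤ × ℤ, K * 1 < nm (z - x) ∧ K * 1 < nm (z' - x) := by
    refine ⟨(|z.1| + |z'.1| + |K| + 1, 0), ?_, ?_⟩
    · have : |z.1 - (|z.1| + |z'.1| + |K| + 1)| ≤ nm (z - (|z.1| + |z'.1| + |K| + 1, 0)) :=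
        le_max_left _ _
      refine lt_of_lt_of_le ?_ this
      have h1 := le_abs_self z.1
      have h2 := abs_nonneg z'.1
      have h3 := le_abs_self K
      have h4 := neg_abs_le (z.1 - (|z.1| + |z'.1| + |K| + 1))
      linarith
    · have : |z'.1 - (|z.1| + |z'.1| + |K| + 1)| ≤ nm (z' - (|z.1| + |z'.1| + |K| + 1, 0)) :=
        le_max_left _ _
      refine lt_of_lt_of_le ?_ this
      have h1 := le_abs_self z'.1
      have h2 := abs_nonneg z.1
      have h3 := le_abs_self K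
      have h4 := neg_abs_le (z'.1 - (|z.1| + |z'.1| + |K| + 1))
      linarith
  obtain ⟨x, h1, h2⟩ := hex
  exact (hG.far x 1 le_rfl hG.mpos z hz z' hz' h1 h2).mono fun _ _ => trivial

/-- A small loop separates exactly the surrounded sites from the base site. -/
theorem sep_iff (hG : Geo K m D p) (h : IsLoop ω A) (hA : A ∈ pcs ω D) (hl : IsLp D A) {d : ℝ}
    (hs : Small d A) (hd : d ≤ m) {z : ℤ × ℤ} (hz : z ∈ sites D) :
    BR.Sep D A z p ↔ z ∈ ins A := by
  have h0 := W_base hG h hA hl hs hd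
  constructor
  · rintro ⟨u, hu, hne⟩ hcon
    -- `u - W` is constant
    have hc : ∀ e ∈ eds D, u (ls e) - W A (ls e) = u (rs e) - W A (rs e) := by
      intro e he
      have h1 := hu e he
      have h2 := s_jump ω A h e
      linarith
    have hj : ∀ z', Jn D (fun _ => True) z z' → u z - W A z = u z' - W A z' := by
      intro z' hj
      induction hj with
      | refl => rfl
      | tail _ h ih =>
        obtain ⟨e, he, -, ⟨rfl, rfl⟩ | ⟨rfl, rfl⟩⟩ := h
        · rw [ih, hc e he]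
        · rw [ih, hc e he]
    have := hj p (jn_all hG hz hG.hp)
    rw [hcon, h0] at this
    apply hne
    linarith
  · intro hz'
    exact ⟨W A, pot_W h, by rw [h0]; exact hz'⟩

/-- Small strands have mass zero. -/
theorem mass_strand (hG : Geo K m D p) (hA : A ∈ pcs ω D) (hl : ¬ IsLp D A) {d r : ℝ}
    (hs : Small d A) (hd1 : 1 ≤ d) (hd : d ≤ m) (hf : Deep r D f) (hr : K * d ≤ r)
    (htot : tot D f = 0) : mass D p f A = 0 := by
  obtain ⟨c, hc, hcD⟩ := exists_exit hl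
  have hW : Wi (hdv c) ⌊d⌋ A := fun e he => by
    rw [Int.le_floor]
    exact (hs _ (Finset.mem_image_of_mem _ he) _ (Finset.mem_image_of_mem _ hc)).le
  have hs1 : 1 ≤ ⌊d⌋ := Int.le_floor.2 (by exact_mod_cast hd1)
  have hs2 : ⌊d⌋ ≤ m := by
    have : (⌊d⌋ : ℝ) ≤ m := (Int.floor_le d).trans hd
    exact_mod_cast this
  obtain ⟨τ, hτ, h⟩ := hG.mass_le hs1 hs2 hW hA f
  have h0 : ∑ z ∈ nr D (hdv c) (K * ⌊d⌋), |f z| = 0 := by
    refine Finset.sum_eq_zero fun z hz => ?_
    rw [abs_eq_zero]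
    by_contra hcon
    apply hcD
    refine hf z hcon (hdv c) ?_
    have h1 : nm (z - hdv c) ≤ K * ⌊d⌋ := (Finset.mem_filter.1 hz).2
    rw [H45.nm_sub_comm]
    have h2 : ((nm (z - hdv c) : ℤ) : ℝ) ≤ K * ⌊d⌋ := by exact_mod_cast h1
    have hK : (1 : ℝ) ≤ K := by exact_mod_cast hG.one_le
    have h3 : (K : ℝ) * ⌊d⌋ ≤ K * d := mul_le_mul_of_nonneg_left (Int.floor_le d) (by linarith)
    linarith
  rw [h0] at h
  have hτ0 : τ = 0 := by
    rcases hτ with h1 | ⟨h1, -⟩
    · exact h1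
    · rw [h1, htot]
  rw [hτ0, sub_zero] at h
  exact abs_nonpos_iff.1 h

open Classical in
/-- The number of the small loops which separate a deep site. -/
theorem card_sep (hG : Geo K m D p) {d r : ℝ} (hd : d ≤ m) (hf : Deep r D f) (hr : d ≤ r)
    {z : ℤ × ℤ} (hz : z ∈ sites D) (hfz : f z ≠ 0) :
    ((((pcs ω D).filter fun A => Small d A ∧ IsLp D A ∧ BR.Sep D A z p).card : ℕ) : ℝ) =
      Cn d z ω := by
  unfold Cn
  congr 1
  rw [← Set.ncard_coe_finset]
  congr 1
  ext A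
  rw [Finset.mem_coe, Finset.mem_filter]
  constructor
  · rintro ⟨h1, h2, h3, h4⟩
    have h5 := BR.IsLp.isLoop h1 h3
    exact ⟨h5, h2, (sep_iff hG h5 h1 h3 h2 hd hz).1 h4⟩
  · rintro ⟨h1, h2, h3⟩
    have hD : ∀ e ∈ A, hdv e ∈ D := fun e he => by
      have h4 := near_ins h1 h2 h3 (Finset.mem_image_of_mem hdv he)
      exact hf z hfz _ (by linarith)
    obtain ⟨h5, h6⟩ := loop_mem_pcs h1 hD
    exact ⟨h5, h2, h6, (sep_iff hG h1 h5 h6 h2 hd hz).2 h3⟩

open Classical in
/-- The sum of the masses of the small pieces. -/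
theorem sum_mass (hG : Geo K m D p) {d r : ℝ} (hd1 : 1 ≤ d) (hd : d ≤ m) (hf : Deep r D f)
    (hr : K * d ≤ r) (htot : tot D f = 0) (ω : Cfg) :
    ∑ A ∈ (pcs ω D).filter (Small d), mass D p f A = ∑ z ∈ sites D, f z * Cn d z ω := by
  have hK : (1 : ℝ) ≤ K := by exact_mod_cast hG.one_le
  have hr' : d ≤ r := by nlinarith
  have h1 : ∑ A ∈ (pcs ω D).filter (Small d), mass D p f A =
      ∑ A ∈ (pcs ω D).filter (fun A => Small d A ∧ IsLp D A), mass D p f A := by
    symm
    refine Finset.sum_subset (fun A hA => ?_) fun A hA hA' => ?_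
    · obtain ⟨h1, h2, -⟩ := Finset.mem_filter.1 hA
      exact Finset.mem_filter.2 ⟨h1, h2⟩
    · obtain ⟨h1, h2⟩ := Finset.mem_filter.1 hA
      have h3 : ¬ IsLp D A := fun h => hA' (Finset.mem_filter.2 ⟨h1, h2, h⟩)
      exact mass_strand hG h1 h3 h2 hd1 hd hf hr htot
  rw [h1]
  have h2 : ∀ A ∈ (pcs ω D).filter (fun A => Small d A ∧ IsLp D A), mass D p f A =
      ∑ z ∈ sites D, f z * (if BR.Sep D A z p then 1 else 0) := by
    intro A _
    unfold mass
    refine Finset.sum_congr rfl fun z _ => ?_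
    split_ifs <;> simp
  rw [Finset.sum_congr rfl h2, Finset.sum_comm]
  refine Finset.sum_congr rfl fun z hz => ?_
  rw [← Finset.mul_sum]
  by_cases h0 : f z = 0
  · rw [h0, zero_mul, zero_mul]
  · rw [Finset.sum_boole, ← card_sep hG hd hf hr' hz h0, Finset.filter_filter]
    congr 3
    ext A
    simp only [Finset.mem_filter, and_assoc]

/-- **The mean of the sum of the masses of the small pieces is zero.** -/
theorem mean_mass (hG : Geo K m D p) {d r : ℝ} (hd1 : 1 ≤ d) (hd : d ≤ m) (hf : Deep r D f)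
    (hr : K * d ≤ r) (htot : tot D f = 0) :
    ∫ ω, (open Classical in ∑ A ∈ (pcs ω D).filter (Small d), mass D p f A) ∂μ = 0 := by
  classical
  have h1 := sum_mass (p := p) hG hd1 hd hf hr htot
  have h2 : ∫ ω, (open Classical in ∑ A ∈ (pcs ω D).filter (Small d), mass D p f A) ∂μ =
      ∫ ω, ∑ z ∈ sites D, f z * Cn d z ω ∂μ := by
    refine integral_congr_ae (Filter.Eventually.of_forall fun ω => ?_)
    simp only
    rw [← h1 ω]
  rw [h2, integral_finsetSum _ fun z _ => (Cn_int d z).const_mul _]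
  have h3 : ∀ z ∈ sites D, ∫ ω, f z * Cn d z ω ∂μ = f z * ∫ ω, Cn d 0 ω ∂μ := fun z _ => by
    rw [integral_const_mul, mean_cn]
  rw [Finset.sum_congr rfl h3, ← Finset.sum_mul]
  unfold tot at htot
  rw [htot, zero_mul]

end Vale.Agent.P167.H638.L
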