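import Vale.Agent.P167.H638.L5

/-!
# P167, block LAYER: exponential moments of the logarithm of the ratio of the weights of the small
pieces for two charges
-/

namespace Vale.Agent.P167.H638.L

open Finset MeasureTheory
open Vale.Agent.P167.BR
open Vale.Agent.P167.H562 (Em)
open Vale.Agent.P167.H167 (Fd fd_pcs Geo tot wl_lip wl_zero cos_third cos_lip)

/-! ### The logarithm of the weight of a loop -/

/-- The logarithm of the weight of a loop. -/
noncomputable def lw (t : ℝ) : ℝ := Real.log (wl t)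

theorem wl_ge {t : ℝ} (ht : |t| ≤ 1 / 5) : 3 / 5 ≤ wl t := by
  have h := wl_lip t 0
  rw [wl_zero, sub_zero] at h
  have := (abs_le.1 h).1
  linarith

theorem cos_ge {t : ℝ} (ht : |t| ≤ 1 / 5) : 3 / 10 ≤ Real.cos (Real.pi / 3 + t) := by
  have h := wl_ge ht
  unfold wl at h
  rw [cos_third] at h
  linarith

theorem hasDerivAt_lw {t : ℝ} (ht : |t| ≤ 1 / 5) :
    HasDerivAt lw (-(Real.sin (Real.pi / 3 + t) / Real.cos (Real.pi / 3 + t))) t := by
  have h0 := cos_ge ht
  have h1 : HasDerivAt (fun t : ℝ => Real.cos (Real.pi / 3 + t) / Real.cos (Real.pi / 3))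
      (-Real.sin (Real.pi / 3 + t) / Real.cos (Real.pi / 3)) t := by
    have h2 : HasDerivAt (fun t : ℝ => Real.pi / 3 + t) 1 t := (hasDerivAt_id t).const_add _
    have h3 := (Real.hasDerivAt_cos (Real.pi / 3 + t)).comp t h2
    rw [mul_one] at h3
    exact h3.div_const _
  have h2 := h1.log (by
    rw [cos_third]
    have : 0 < Real.cos (Real.pi / 3 + t) := by linarith
    positivity)
  have h3 : HasDerivAt lw (-Real.sin (Real.pi / 3 + t) / Real.cos (Real.pi / 3) /
      (Real.cos (Real.pi / 3 + t) / Real.cos (Real.pi / 3))) t := h2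
  convert h3 using 1
  rw [cos_third]
  have : Real.cos (Real.pi / 3 + t) ≠ 0 := by linarith
  field_simp

theorem tan_bound {x : ℝ} (hx : |x| ≤ 1 / 5) :
    |-(Real.sin (Real.pi / 3 + x) / Real.cos (Real.pi / 3 + x))| ≤ 4 ∧
    |√3 + -(Real.sin (Real.pi / 3 + x) / Real.cos (Real.pi / 3 + x))| ≤ 7 * |x| := by
  have h0 := cos_ge hx
  have hc : (0 : ℝ) < Real.cos (Real.pi / 3 + x) := by linarith
  constructor
  · rw [abs_neg, abs_div, abs_of_pos hc, div_le_iff₀ hc]
    have := Real.abs_sin_le_one (Real.pi / 3 + x)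
    linarith
  · have h1 : √3 + -(Real.sin (Real.pi / 3 + x) / Real.cos (Real.pi / 3 + x)) =
        -(2 * Real.sin x) / Real.cos (Real.pi / 3 + x) := by
      rw [eq_div_iff hc.ne', add_mul, neg_mul, div_mul_cancel₀ _ hc.ne', Real.cos_add, Real.sin_add,
        Real.cos_pi_div_three, Real.sin_pi_div_three]
      have h3 : √3 * √3 = 3 := Real.mul_self_sqrt (by norm_num)
      linear_combination (-(Real.sin x) / 2) * h3
    rw [h1, abs_div, abs_neg, abs_mul, abs_two, abs_of_pos hc, div_le_iff₀ hc]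
    have h2 : |Real.sin x| ≤ |x| := Real.abs_sin_le_abs
    nlinarith [abs_nonneg x]

theorem lw_bounds {t s : ℝ} (h : |t| + |s| ≤ 1 / 5) :
    |lw (t + s) - lw t| ≤ 4 * |s| ∧ |lw (t + s) - lw t + √3 * s| ≤ 7 * (|t| + |s|) * |s| := by
  set r := |t| + |s| with hr
  have hin : ∀ x ∈ Set.Icc (-r) r, |x| ≤ 1 / 5 := fun x hx => (abs_le.2 hx).trans h
  have ht : t ∈ Set.Icc (-r) r := by
    rw [Set.mem_Icc, ← abs_le]; linarith [abs_nonneg s]
  have hts : t + s ∈ Set.Icc (-r) r := by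
    rw [Set.mem_Icc, ← abs_le]; exact abs_add_le t s
  constructor
  · have h1 := Convex.norm_image_sub_le_of_norm_hasDerivWithin_le (f := lw)
      (f' := fun x => -(Real.sin (Real.pi / 3 + x) / Real.cos (Real.pi / 3 + x))) (C := 4)
      (fun x hx => (hasDerivAt_lw (hin x hx)).hasDerivWithinAt)
      (fun x hx => (tan_bound (hin x hx)).1) (convex_Icc (-r) r) ht hts
    simpa only [Real.norm_eq_abs, add_sub_cancel_left] using h1
  · have h1 := Convex.norm_image_sub_le_of_norm_hasDerivWithin_le (f := fun x => lw x + √3 * x)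
      (f' := fun x => -(Real.sin (Real.pi / 3 + x) / Real.cos (Real.pi / 3 + x)) + √3) (C := 7 * r)
      (fun x hx => by
        have h2 := (hasDerivAt_lw (hin x hx)).add ((hasDerivAt_id x).const_mul √3)
        rw [mul_one] at h2
        exact h2.hasDerivWithinAt)
      (fun x hx => by
        rw [Real.norm_eq_abs, add_comm]
        refine (tan_bound (hin x hx)).2.trans ?_
        exact mul_le_mul_of_nonneg_left (abs_le.2 hx) (by norm_num)) (convex_Icc (-r) r) ht hts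
    simp only [Real.norm_eq_abs, add_sub_cancel_left] at h1
    have h2 : lw (t + s) + √3 * (t + s) - (lw t + √3 * t) = lw (t + s) - lw t + √3 * s := by ring
    rwa [h2] at h1

/-! ### The statistic -/

variable {D T : Finset (ℤ × ℤ)} {p : ℤ × ℤ} {ω ω' : Cfg} {A : Finset Ed} {f g η : ℤ × ℤ → ℝ}
  {K m : ℤ}

open Classical in
/-- The logarithm of the ratio of the weights of the small pieces for the charges `g + η` and `g`. -/
noncomputable def Sf (D : Finset (ℤ × ℤ)) (p : ℤ × ℤ) (g η : ℤ × ℤ → ℝ) (ρ : ℝ) (ω : Cfg) : ℝ :=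
  ∑ A ∈ (pcs ω D).filter (Small ρ),
    (Real.log (wp D A (mass D p g A + mass D p η A)) - Real.log (wp D A (mass D p g A)))

theorem fd_Sf (D : Finset (ℤ × ℤ)) (p : ℤ × ℤ) (g η : ℤ × ℤ → ℝ) (ρ : ℝ) :
    Fd (Sf D p g η ρ) := by
  classical
  exact fd_pcs D fun s => ∑ A ∈ s.filter (Small ρ),
    (Real.log (wp D A (mass D p g A + mass D p η A)) - Real.log (wp D A (mass D p g A)))

open Classical in
/-- The contribution of a piece. -/
noncomputable def ph (D : Finset (ℤ × ℤ)) (p : ℤ × ℤ) (g η : ℤ × ℤ → ℝ) (A : Finset Ed) : ℝ :=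
  if IsLp D A then lw (mass D p g A + mass D p η A) - lw (mass D p g A) else 0

theorem Sf_eq (hG : Geo K m D p) {ρ r : ℝ} (hρ : 1 ≤ ρ) (hρm : ρ ≤ m) (hη : Deep r D η)
    (hr : K * ρ ≤ r) (htot : tot D η = 0)
    (hT : ∀ A ∈ pcs ω D, mass D p η A ≠ 0 → ∃ e ∈ A, hdv e ∈ T) :
    Sf D p g η ρ ω = ∑ A ∈ sT D T ρ ω, ph D p g η A ∧
    (open Classical in ∑ A ∈ (pcs ω D).filter (Small ρ), mass D p η A) =
      ∑ A ∈ sT D T ρ ω, mass D p η A := by
  classical
  have hsub : sT D T ρ ω ⊆ (pcs ω D).filter (Small ρ) := fun A hA => by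
    obtain ⟨h1, -, h3⟩ := mem_sT.1 hA
    exact Finset.mem_filter.2 ⟨h1, h3⟩
  have hout : ∀ A ∈ (pcs ω D).filter (Small ρ), A ∉ sT D T ρ ω → mass D p η A = 0 := by
    intro A hA hA'
    by_contra hcon
    obtain ⟨h1, h2⟩ := Finset.mem_filter.1 hA
    exact hA' (mem_sT.2 ⟨h1, hT A h1 hcon, h2⟩)
  constructor
  · have h1 : Sf D p g η ρ ω = ∑ A ∈ (pcs ω D).filter (Small ρ), ph D p g η A := by
      unfold Sf
      refine Finset.sum_congr rfl fun A hA => ?_
      obtain ⟨h1, h2⟩ := Finset.mem_filter.1 hA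
      unfold ph
      by_cases hl : IsLp D A
      · rw [if_pos hl]
        unfold wp lw
        rw [if_pos hl, if_pos hl]
      · rw [if_neg hl, mass_strand hG h1 hl h2 hρ hρm hη hr htot, add_zero, sub_self]
    rw [h1]
    symm
    refine Finset.sum_subset hsub fun A hA hA' => ?_
    unfold ph
    rw [hout A hA hA', add_zero, sub_self, ite_self]
  · symm
    exact Finset.sum_subset hsub hout

/-- **Exponential moments of the statistic.** -/
theorem sp : ∃ c C : ℝ, 0 < c ∧ 0 ≤ C ∧ ∀ (K m : ℤ) (D T : Finset (ℤ × ℤ)) (p : ℤ × ℤ)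
    (g η : ℤ × ℤ → ℝ) (ρ r : ℝ) (E Gb : ℕ → ℝ) (α β t : ℝ), Geo K m D p → 1 ≤ ρ → ρ ≤ m →
    Deep r D η → K * ρ ≤ r → tot D η = 0 → 0 ≤ α → 0 ≤ β → (∀ j, 0 ≤ E j) → (∀ j, 0 ≤ Gb j) →
    (∀ (j : ℕ) (ω : Cfg), 1 ≤ ρ / 2 ^ j → ∀ A ∈ pcs ω D, Small (ρ / 2 ^ j) A →
      |mass D p η A| ≤ E j ∧ |mass D p g A| ≤ Gb j) →
    (∀ ω, ∀ A ∈ pcs ω D, mass D p η A ≠ 0 → ∃ e ∈ A, hdv e ∈ T) →
    (∀ j, 1 ≤ ρ / 2 ^ j → E j + Gb j ≤ 1 / 5) →
    (∀ j, 1 ≤ ρ / 2 ^ j → E j ≤ α * (1 / 2) ^ j) →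
    (∀ j, 1 ≤ ρ / 2 ^ j → E j * (E j + Gb j) * ((cel T ⌈ρ / 2 ^ j⌉).card : ℝ) ≤
      β * (1 / 2) ^ j) →
    α * |t| ≤ c →
    Em μ (fun ω => t * Sf D p g η ρ ω) ≤ ENNReal.ofReal (Real.exp (C * β * (t ^ 2 + |t|))) := by
  classical
  obtain ⟨c, C, hc, hC, hem⟩ := em_T
  obtain ⟨C', hC', habs⟩ := abs_T
  refine ⟨c / 4, 16 * C + 7 * C', by positivity, by positivity, fun K m D T p g η ρ r E Gb α β t hG
    hρ hρm hη hr htot hα hβ hE0 hG0 hbd hT hsm h1 h3 hat => ?_⟩
  -- bounds for one piece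
  have hpc : ∀ (j : ℕ) (ω : Cfg), 1 ≤ ρ / 2 ^ j → ∀ A ∈ pcs ω D, Small (ρ / 2 ^ j) A →
      |ph D p g η A| ≤ 4 * E j ∧
      |ph D p g η A + √3 * mass D p η A| ≤ 7 * (E j * (E j + Gb j)) := by
    intro j ω hj A hA hs
    obtain ⟨b1, b2⟩ := hbd j ω hj A hA hs
    have hE := hE0 j
    have hGj := hG0 j
    have hp2 : (1 : ℝ) ≤ 2 ^ j := one_le_pow₀ (by norm_num)
    have hle : ρ / 2 ^ j ≤ ρ := div_le_self (by linarith) hp2
    unfold ph
    by_cases hl : IsLp D A
    · rw [if_pos hl]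
      have h4 : |mass D p g A| + |mass D p η A| ≤ 1 / 5 := by
        have := hsm j hj
        linarith
      obtain ⟨c1, c2⟩ := lw_bounds h4
      refine ⟨c1.trans (by linarith), c2.trans ?_⟩
      calc 7 * (|mass D p g A| + |mass D p η A|) * |mass D p η A|
          ≤ 7 * (E j + Gb j) * E j := by
            refine mul_le_mul ?_ b1 (abs_nonneg _) (by positivity)
            linarith
        _ = _ := by ring
    · rw [if_neg hl, mass_strand hG hA hl (H45.Small.mono hle hs) hρ hρm hη hr htot]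
      simp only [abs_zero, mul_zero, add_zero]
      exact ⟨by positivity, by positivity⟩
  have hSf : ∀ ω, Sf D p g η ρ ω = ∑ A ∈ sT D T ρ ω, ph D p g η A := fun ω =>
    (Sf_eq hG hρ hρm hη hr htot (hT ω)).1
  have hms : ∀ ω, (∑ A ∈ (pcs ω D).filter (Small ρ), mass D p η A) =
      ∑ A ∈ sT D T ρ ω, mass D p η A := fun ω =>
    (Sf_eq (g := g) hG hρ hρm hη hr htot (hT ω)).2
  -- the mean
  have hm0 : ∫ ω, ∑ A ∈ sT D T ρ ω, mass D p η A ∂μ = 0 := by
    rw [← mean_mass hG hρ hρm hη hr htot]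
    refine integral_congr_ae (Filter.Eventually.of_forall fun ω => ?_)
    simp only
    rw [← hms ω]
  have hmean : |∫ ω, ∑ A ∈ sT D T ρ ω, ph D p g η A ∂μ| ≤ 7 * C' * β := by
    have e1 : ∫ ω, ∑ A ∈ sT D T ρ ω, ph D p g η A ∂μ =
        ∫ ω, ∑ A ∈ sT D T ρ ω, (ph D p g η A + √3 * mass D p η A) ∂μ := by
      have e2 : ∫ ω, ∑ A ∈ sT D T ρ ω, (ph D p g η A + √3 * mass D p η A) ∂μ =
          ∫ ω, (∑ A ∈ sT D T ρ ω, ph D p g η A) ∂μ +
            ∫ ω, √3 * ∑ A ∈ sT D T ρ ω, mass D p η A ∂μ := by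
        rw [← integral_add (fd_sT D T ρ fun s => ∑ A ∈ s, ph D p g η A).int
          ((fd_sT D T ρ fun s => ∑ A ∈ s, mass D p η A).int.const_mul _)]
        refine integral_congr_ae (Filter.Eventually.of_forall fun ω => ?_)
        simp only
        rw [Finset.mul_sum, ← Finset.sum_add_distrib]
      rw [e2, integral_const_mul, hm0, mul_zero, add_zero]
    rw [e1]
    calc |∫ ω, ∑ A ∈ sT D T ρ ω, (ph D p g η A + √3 * mass D p η A) ∂μ|
        ≤ ∫ ω, |∑ A ∈ sT D T ρ ω, (ph D p g η A + √3 * mass D p η A)| ∂μ :=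
          abs_integral_le_integral_abs
      _ ≤ ∫ ω, ∑ A ∈ sT D T ρ ω, |ph D p g η A + √3 * mass D p η A| ∂μ :=
          integral_mono (fd_sT D T ρ fun s =>
            |∑ A ∈ s, (ph D p g η A + √3 * mass D p η A)|).int
            (fd_sT D T ρ fun s => ∑ A ∈ s, |ph D p g η A + √3 * mass D p η A|).int
            fun ω => Finset.abs_sum_le_sum_abs _ _
      _ ≤ C' * (7 * β) := by
          refine habs D T ρ _ (fun j => 7 * (E j * (E j + Gb j))) (7 * β) hρ (by positivity)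
            (fun j => by have := hE0 j; have := hG0 j; positivity)
            (fun j ω hj A hA _ hs => (hpc j ω hj A hA hs).2) fun j hj => ?_
          have := h3 j hj
          linarith
      _ = _ := by ring
  -- fluctuations
  have hfl := hem D T ρ (ph D p g η) (fun j => 4 * E j) (4 * α) (16 * β) t hρ (by positivity)
    (by positivity) (fun j => by have := hE0 j; positivity)
    (fun j ω hj A hA _ hs => (hpc j ω hj A hA hs).1)
    (fun j hj => by have := h1 j hj; linarith)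
    (fun j hj => by
      have h4 := h3 j hj
      have hE := hE0 j
      have hGj := hG0 j
      have h5 : E j ^ 2 ≤ E j * (E j + Gb j) := by nlinarith
      have h6 : E j ^ 2 * ((cel T ⌈ρ / 2 ^ j⌉).card : ℝ) ≤
          E j * (E j + Gb j) * ((cel T ⌈ρ / 2 ^ j⌉).card : ℝ) :=
        mul_le_mul_of_nonneg_right h5 (by positivity)
      calc (4 * E j) ^ 2 * ((cel T ⌈ρ / 2 ^ j⌉).card : ℝ)
          = 16 * (E j ^ 2 * ((cel T ⌈ρ / 2 ^ j⌉).card : ℝ)) := by ring
        _ ≤ 16 * (β * (1 / 2) ^ j) := by linarith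
        _ = _ := by ring)
    (by linarith)
  set I : ℝ := ∫ ω', ∑ A ∈ sT D T ρ ω', ph D p g η A ∂μ with hI
  have e3 : (fun ω => t * Sf D p g η ρ ω) =
      fun ω => t * (∑ A ∈ sT D T ρ ω, ph D p g η A - I) + t * I := by
    funext ω
    rw [hSf ω]
    ring
  have e4 : Em μ (fun ω => t * Sf D p g η ρ ω) =
      Em μ (fun ω => t * (∑ A ∈ sT D T ρ ω, ph D p g η A - I)) *
        ENNReal.ofReal (Real.exp (t * I)) := by
    rw [e3]
    unfold Em
    rw [← lintegral_mul_const _ (by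
      have := (fd_sT D T ρ fun s => Real.exp (t * (∑ A ∈ s, ph D p g η A - I))).meas
      exact ENNReal.measurable_ofReal.comp this)]
    refine lintegral_congr fun ω => ?_
    rw [Real.exp_add, ENNReal.ofReal_mul (Real.exp_pos _).le]
  rw [e4]
  calc Em μ (fun ω => t * (∑ A ∈ sT D T ρ ω, ph D p g η A - I)) *
        ENNReal.ofReal (Real.exp (t * I))
      ≤ ENNReal.ofReal (Real.exp (C * (16 * β) * t ^ 2)) *
        ENNReal.ofReal (Real.exp (7 * C' * β * |t|)) := by
        refine mul_le_mul' hfl (ENNReal.ofReal_le_ofReal (Real.exp_le_exp.2 ?_))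
        calc t * I ≤ |t * I| := le_abs_self _
          _ = |t| * |I| := abs_mul _ _
          _ ≤ |t| * (7 * C' * β) := mul_le_mul_of_nonneg_left hmean (abs_nonneg _)
          _ = _ := by ring
    _ = ENNReal.ofReal (Real.exp (C * (16 * β) * t ^ 2 + 7 * C' * β * |t|)) := by
        rw [← ENNReal.ofReal_mul (Real.exp_pos _).le, ← Real.exp_add]
    _ ≤ _ := by
        refine ENNReal.ofReal_le_ofReal (Real.exp_le_exp.2 ?_)
        have h5 : 0 ≤ C * β * |t| := by positivity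
        have h6 : 0 ≤ C' * β * t ^ 2 := by positivity
        nlinarith

end Vale.Agent.P167.H638.L
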