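import Vale.Agent.P167.H638.L6
import Vale.Agent.P167.H945.Macro

/-!
# P167, block LAYER: comparison of `X(g + η)` and `X(g)` from bounds for the small and the macroscopic
pieces
-/

namespace Vale.Agent.P167.H638.L

open Finset MeasureTheory
open Vale.Agent.P167.BR
open Vale.Agent.P167.H562 (Em)
open Vale.Agent.P167.H167 (Fd fd_pcs Geo tot wl_zero ws_zero wl_lip ws_lip abs_wp_le cs_le isSeg)

variable {D T : Finset (ℤ × ℤ)} {p : ℤ × ℤ} {ω ω' : Cfg} {A : Finset Ed} {f g η : ℤ × ℤ → ℝ}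
  {K m : ℤ}

/-! ### Products -/

theorem abs_prod_le {ι : Type*} [DecidableEq ι] (s : Finset ι) {a : ι → ℝ} (ha : ∀ i ∈ s, |a i| ≤ 2) :
    |∏ i ∈ s, a i| ≤ 2 ^ s.card := by
  rw [Finset.abs_prod, ← Finset.prod_const]
  exact Finset.prod_le_prod (fun i _ => abs_nonneg _) ha

theorem prod_sub_le {ι : Type*} [DecidableEq ι] (s : Finset ι) {a b : ι → ℝ}
    (ha : ∀ i ∈ s, |a i| ≤ 2) (hb : ∀ i ∈ s, |b i| ≤ 2) :
    2 * |∏ i ∈ s, a i - ∏ i ∈ s, b i| ≤ 2 ^ s.card * ∑ i ∈ s, |a i - b i| := by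
  induction s using Finset.induction_on with
  | empty => simp
  | insert x s hx ih =>
    have ih := ih (fun i hi => ha i (Finset.mem_insert_of_mem hi))
      fun i hi => hb i (Finset.mem_insert_of_mem hi)
    have hpa := abs_prod_le s fun i hi => ha i (Finset.mem_insert_of_mem hi)
    have hbx := hb x (Finset.mem_insert_self _ _)
    rw [Finset.prod_insert hx, Finset.prod_insert hx, Finset.sum_insert hx,
      Finset.card_insert_of_notMem hx]
    have h1 : a x * ∏ i ∈ s, a i - b x * ∏ i ∈ s, b i =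
        (a x - b x) * ∏ i ∈ s, a i + b x * (∏ i ∈ s, a i - ∏ i ∈ s, b i) := by ring
    rw [h1]
    calc 2 * |(a x - b x) * ∏ i ∈ s, a i + b x * (∏ i ∈ s, a i - ∏ i ∈ s, b i)|
        ≤ 2 * (|a x - b x| * |∏ i ∈ s, a i| + |b x| * |∏ i ∈ s, a i - ∏ i ∈ s, b i|) := by
          refine mul_le_mul_of_nonneg_left ?_ (by norm_num)
          rw [← abs_mul, ← abs_mul]
          exact abs_add_le _ _
      _ ≤ 2 * (|a x - b x| * 2 ^ s.card) + 2 * (2 ^ s.card * ∑ i ∈ s, |a i - b i|) := by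
          have h2 : |a x - b x| * |∏ i ∈ s, a i| ≤ |a x - b x| * 2 ^ s.card :=
            mul_le_mul_of_nonneg_left hpa (abs_nonneg _)
          have h3 : |b x| * |∏ i ∈ s, a i - ∏ i ∈ s, b i| ≤
              2 * |∏ i ∈ s, a i - ∏ i ∈ s, b i| := mul_le_mul_of_nonneg_right hbx (abs_nonneg _)
          linarith
      _ = _ := by rw [pow_succ]; ring

open Classical in
/-- The number of the macroscopic pieces. -/
noncomputable def Nb (D : Finset (ℤ × ℤ)) (d : ℝ) (ω : Cfg) : ℕ :=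
  ((pcs ω D).filter fun A => ¬ Small d A).card

theorem fd_Nb (D : Finset (ℤ × ℤ)) (d : ℝ) : Fd (Nb D d) := by
  classical
  exact fd_pcs D fun s => (s.filter fun A => ¬ Small d A).card

theorem wp_lip (a b : ℝ) : |wp D A a - wp D A b| ≤ 2 * |a - b| := by
  unfold wp
  split_ifs
  · exact wl_lip a b
  · exact ws_lip a b

open Classical in
/-- The product of the weights of the macroscopic pieces. -/
noncomputable def Pb (D : Finset (ℤ × ℤ)) (p : ℤ × ℤ) (f : ℤ × ℤ → ℝ) (d : ℝ) (ω : Cfg) : ℝ :=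
  ∏ A ∈ (pcs ω D).filter (fun A => ¬ Small d A), wp D A (mass D p f A)

theorem abs_Pb (d : ℝ) : |Pb D p f d ω| ≤ 2 ^ Nb D d ω := by
  classical
  exact abs_prod_le _ fun A _ => abs_wp_le D A _

theorem Pb_sub (d : ℝ) : |Pb D p (fun z => g z + η z) d ω - Pb D p g d ω| ≤
    2 ^ Nb D d ω * bigV D p η d ω := by
  classical
  have h := prod_sub_le ((pcs ω D).filter (fun A => ¬ Small d A))
    (a := fun A => wp D A (mass D p (fun z => g z + η z) A)) (b := fun A => wp D A (mass D p g A))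
    (fun A _ => abs_wp_le D A _) (fun A _ => abs_wp_le D A _)
  have h2 : ∑ A ∈ (pcs ω D).filter (fun A => ¬ Small d A),
      |wp D A (mass D p (fun z => g z + η z) A) - wp D A (mass D p g A)| ≤ 2 * bigV D p η d ω := by
    unfold bigV
    rw [Finset.mul_sum]
    refine Finset.sum_le_sum fun A _ => ?_
    refine (wp_lip _ _).trans (le_of_eq ?_)
    rw [mass_add, add_sub_cancel_left]
  have h3 : 2 * |Pb D p (fun z => g z + η z) d ω - Pb D p g d ω| ≤
      2 ^ Nb D d ω * (2 * bigV D p η d ω) :=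
    h.trans (mul_le_mul_of_nonneg_left h2 (by positivity))
  linarith

/-- All weights of the small pieces are positive. -/
def Pos (D : Finset (ℤ × ℤ)) (p : ℤ × ℤ) (f : ℤ × ℤ → ℝ) (d : ℝ) (ω : Cfg) : Prop :=
  ∀ A ∈ pcs ω D, Small d A → 0 < wp D A (mass D p f A)

theorem mass_zero : mass D p (fun _ => 0) A = 0 := by
  rw [mass_eq]; simp

theorem wp_zero : wp D A 0 = 1 := by
  unfold wp
  split_ifs
  · exact wl_zero
  · exact ws_zero

/-- The product of the weights. -/
theorem XD_eq {d : ℝ} (h : Pos D p g d ω) :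
    XD D p g ω = Real.exp (Sf D p (fun _ => 0) g d ω) * Pb D p g d ω := by
  classical
  unfold XD Pb
  rw [← Finset.prod_filter_mul_prod_filter_not (pcs ω D) (Small d)]
  congr 1
  unfold Sf
  rw [Real.exp_sum]
  refine Finset.prod_congr rfl fun A hA => ?_
  obtain ⟨h1, h2⟩ := Finset.mem_filter.1 hA
  rw [mass_zero, zero_add, wp_zero, Real.log_one, sub_zero, Real.exp_log (h A h1 h2)]

theorem Sf_add (d : ℝ) : Sf D p (fun _ => 0) (fun z => g z + η z) d ω =
    Sf D p (fun _ => 0) g d ω + Sf D p g η d ω := by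
  classical
  unfold Sf
  rw [← Finset.sum_add_distrib]
  refine Finset.sum_congr rfl fun A _ => ?_
  rw [mass_add, mass_zero, zero_add, zero_add]
  ring

/-- The pointwise bound. -/
theorem XD_sub {d : ℝ} (hg : Pos D p g d ω) (hη : Pos D p (fun z => g z + η z) d ω) :
    |XD D p (fun z => g z + η z) ω - XD D p g ω| ≤
      (Real.exp (Sf D p (fun _ => 0) g d ω) * 2 ^ Nb D d ω) *
        (|Real.exp (Sf D p g η d ω) - 1| + 2 * √(bigV D p η d ω)) := by
  rw [XD_eq hg, XD_eq hη, Sf_add, Real.exp_add]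
  set a := Real.exp (Sf D p (fun _ => 0) g d ω)
  set b := Real.exp (Sf D p g η d ω)
  set P := Pb D p g d ω with hP
  set P' := Pb D p (fun z => g z + η z) d ω with hP'
  set V := bigV D p η d ω with hV
  have ha : 0 < a := Real.exp_pos _
  have hV0 : 0 ≤ V := bigV_nonneg _ _ _ _ _
  have h1 : |P| ≤ 2 ^ Nb D d ω := abs_Pb d
  have h2 : |P'| ≤ 2 ^ Nb D d ω := abs_Pb d
  have h3 : |P' - P| ≤ 2 ^ Nb D d ω * V := Pb_sub d
  have h4 : |P' - P| ≤ 2 ^ Nb D d ω * (2 * √V) := by
    rcases le_total V 1 with h | h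
    · have h5 : V ≤ √V := by
        conv_lhs => rw [← Real.mul_self_sqrt hV0]
        have h6 : √V ≤ 1 := Real.sqrt_le_one.2 h
        nlinarith [Real.sqrt_nonneg V]
      refine h3.trans (mul_le_mul_of_nonneg_left ?_ (by positivity))
      linarith
    · have h5 : 1 ≤ √V := Real.one_le_sqrt.2 h
      calc |P' - P| ≤ |P'| + |P| := abs_sub _ _
        _ ≤ 2 ^ Nb D d ω * 2 := by linarith
        _ ≤ _ := mul_le_mul_of_nonneg_left (by linarith) (by positivity)
  have h5 : a * b * P' - a * P = a * ((b - 1) * P' + (P' - P)) := by ring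
  rw [h5, abs_mul, abs_of_pos ha, mul_assoc]
  refine mul_le_mul_of_nonneg_left ?_ ha.le
  calc |(b - 1) * P' + (P' - P)| ≤ |b - 1| * |P'| + |P' - P| := by
        rw [← abs_mul]; exact abs_add_le _ _
    _ ≤ |b - 1| * 2 ^ Nb D d ω + 2 ^ Nb D d ω * (2 * √V) :=
        add_le_add (mul_le_mul_of_nonneg_left h2 (abs_nonneg _)) h4
    _ = _ := by ring

/-! ### Integrals -/

theorem fd_XD (D : Finset (ℤ × ℤ)) (p : ℤ × ℤ) (f : ℤ × ℤ → ℝ) : Fd (XD D p f) := by
  classical
  exact fd_pcs D fun s => ∏ A ∈ s, wp D A (mass D p f A)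

theorem exp_sub_one_pow {s : ℝ} : (Real.exp s - 1) ^ 4 ≤
    √|s| * (√|s| * |s| ^ 3 * Real.exp (4 * |s|)) := by
  have h1 : |Real.exp s - 1| ≤ |s| * Real.exp |s| := by
    rcases le_total 0 s with h | h
    · rw [abs_of_nonneg h, abs_of_nonneg (by have := Real.one_le_exp h; linarith)]
      have h2 := Real.add_one_le_exp (-s)
      have h3 : Real.exp s * Real.exp (-s) = 1 := by rw [← Real.exp_add]; simp
      have h4 := Real.exp_pos s
      nlinarith
    · rw [abs_of_nonpos h, abs_of_nonpos (by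
        have := Real.exp_le_one_iff.2 h; linarith)]
      have h2 := Real.add_one_le_exp s
      have h3 : 1 ≤ Real.exp (-s) := Real.one_le_exp (by linarith)
      nlinarith
  have h2 : (Real.exp s - 1) ^ 4 ≤ (|s| * Real.exp |s|) ^ 4 := by
    calc (Real.exp s - 1) ^ 4 = |Real.exp s - 1| ^ 4 := by
          rw [show (4 : ℕ) = 2 * 2 by norm_num, pow_mul, pow_mul, sq_abs]
      _ ≤ _ := pow_le_pow_left₀ (abs_nonneg _) h1 4
  refine h2.trans (le_of_eq ?_)
  have h3 : √|s| * √|s| = |s| := Real.mul_self_sqrt (abs_nonneg s)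
  have h4 : Real.exp |s| ^ 4 = Real.exp (4 * |s|) := by
    rw [← Real.exp_nat_mul]; norm_num
  rw [mul_pow, h4]
  calc |s| ^ 4 * Real.exp (4 * |s|) = |s| * (|s| ^ 3 * Real.exp (4 * |s|)) := by ring
    _ = (√|s| * √|s|) * (|s| ^ 3 * Real.exp (4 * |s|)) := by rw [h3]
    _ = _ := by ring

theorem int_exp_sub {S : Cfg → ℝ} (hS : Fd S) {s1 e1 : ℝ} (hs1 : 0 ≤ s1) (he1 : 0 ≤ e1)
    (h1 : ∫ ω, |S ω| ∂μ ≤ s1) (h2 : ∫ ω, Real.exp (10 * S ω) ∂μ ≤ e1)
    (h3 : ∫ ω, Real.exp (-10 * S ω) ∂μ ≤ e1) :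
    ∫ ω, (Real.exp (S ω) - 1) ^ 4 ∂μ ≤ √s1 * √(10080 * e1) := by
  have f1 : Fd (fun ω => √|S ω|) := hS.comp fun x => √|x|
  have f2 : Fd (fun ω => √|S ω| * |S ω| ^ 3 * Real.exp (4 * |S ω|)) :=
    hS.comp fun x => √|x| * |x| ^ 3 * Real.exp (4 * |x|)
  have f3 : Fd (fun ω => Real.exp (10 * S ω)) := hS.comp fun x => Real.exp (10 * x)
  have f4 : Fd (fun ω => Real.exp (-10 * S ω)) := hS.comp fun x => Real.exp (-10 * x)
  have key := cs_le f1 f2 (Real.sqrt_nonneg s1) (Real.sqrt_nonneg (10080 * e1))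
    (by
      rw [Real.sq_sqrt hs1]
      refine le_trans (le_of_eq ?_) h1
      refine integral_congr_ae (Filter.Eventually.of_forall fun ω => ?_)
      simp only
      exact Real.sq_sqrt (abs_nonneg _))
    (by
      rw [Real.sq_sqrt (by positivity)]
      calc ∫ ω, (√|S ω| * |S ω| ^ 3 * Real.exp (4 * |S ω|)) ^ 2 ∂μ
          ≤ ∫ ω, 5040 * (Real.exp (10 * S ω) + Real.exp (-10 * S ω)) ∂μ := by
            refine integral_mono (f2.pow 2).int ((f3.int.add f4.int).const_mul _) fun ω => ?_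
            simp only
            have g1 : (√|S ω| * |S ω| ^ 3 * Real.exp (4 * |S ω|)) ^ 2 =
                |S ω| ^ 7 * Real.exp (8 * |S ω|) := by
              rw [mul_pow, mul_pow, Real.sq_sqrt (abs_nonneg _), ← pow_mul, ← Real.exp_nat_mul]
              push_cast
              rw [show (2 : ℝ) * (4 * |S ω|) = 8 * |S ω| by ring]
              ring
            have g2 : |S ω| ^ 7 ≤ 5040 * Real.exp |S ω| := by
              have h := Real.pow_div_factorial_le_exp |S ω| (abs_nonneg _) 7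
              have h7 : ((Nat.factorial 7 : ℕ) : ℝ) = 5040 := by norm_num [Nat.factorial]
              rw [h7, div_le_iff₀ (by norm_num)] at h
              linarith
            rw [g1]
            calc |S ω| ^ 7 * Real.exp (8 * |S ω|)
                ≤ 5040 * Real.exp |S ω| * Real.exp (8 * |S ω|) :=
                  mul_le_mul_of_nonneg_right g2 (Real.exp_pos _).le
              _ = 5040 * Real.exp (9 * |S ω|) := by
                  rw [mul_assoc, ← Real.exp_add]; congr 2; ring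
              _ ≤ 5040 * Real.exp (10 * |S ω|) := by
                  refine mul_le_mul_of_nonneg_left (Real.exp_le_exp.2 ?_) (by norm_num)
                  linarith [abs_nonneg (S ω)]
              _ ≤ _ := by
                  refine mul_le_mul_of_nonneg_left ?_ (by norm_num)
                  rcases abs_choice (S ω) with h | h
                  · rw [h]; linarith [Real.exp_pos (-10 * S ω)]
                  · rw [h]
                    have : Real.exp (10 * -S ω) = Real.exp (-10 * S ω) := by congr 1; ring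
                    rw [this]; linarith [Real.exp_pos (10 * S ω)]
        _ = 5040 * (∫ ω, Real.exp (10 * S ω) ∂μ + ∫ ω, Real.exp (-10 * S ω) ∂μ) := by
            rw [integral_const_mul, integral_add f3.int f4.int]
        _ ≤ _ := by linarith)
  refine le_trans ?_ ((le_abs_self _).trans key)
  exact integral_mono ((hS.comp fun x => (Real.exp x - 1) ^ 4).int) (f1.mul f2).int
    fun ω => exp_sub_one_pow

/-- **Comparison of the functionals.** -/
theorem comb {d : ℝ} (hg : ∀ ω, Pos D p g d ω) (hη : ∀ ω, Pos D p (fun z => g z + η z) d ω)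
    {a1 a2 b1 b2 : ℝ} (ha1 : 0 ≤ a1) (ha2 : 0 ≤ a2) (hb1 : 0 ≤ b1) (hb2 : 0 ≤ b2)
    (h1 : ∫ ω, Real.exp (4 * Sf D p (fun _ => 0) g d ω) ∂μ ≤ a1 ^ 2)
    (h2 : ∫ ω, (16 : ℝ) ^ Nb D d ω ∂μ ≤ a2 ^ 2)
    (h3 : ∫ ω, (Real.exp (Sf D p g η d ω) - 1) ^ 4 ∂μ ≤ b1 ^ 2)
    (h4 : ∫ ω, bigV D p η d ω ∂μ ≤ b2) :
    ∫ ω, |XD D p (fun z => g z + η z) ω - XD D p g ω| ∂μ ≤
      √(a1 * a2) * √(2 * b1 + 8 * b2) := by
  have fL : Fd (Sf D p (fun _ => 0) g d) := fd_Sf _ _ _ _ _
  have fS : Fd (Sf D p g η d) := fd_Sf _ _ _ _ _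
  have fN := fd_Nb D d
  have fV := fd_bigV D p η d
  have f1 : Fd (fun ω => Real.exp (Sf D p (fun _ => 0) g d ω) * 2 ^ Nb D d ω) :=
    fL.comp₂ fN fun x n => Real.exp x * 2 ^ n
  have f2 : Fd (fun ω => |Real.exp (Sf D p g η d ω) - 1| + 2 * √(bigV D p η d ω)) :=
    fS.comp₂ fV fun x y => |Real.exp x - 1| + 2 * √y
  have f3 : Fd (fun ω => Real.exp (Sf D p (fun _ => 0) g d ω) ^ 2) := fL.comp fun x => Real.exp x ^ 2
  have f4 : Fd (fun ω => (4 : ℝ) ^ Nb D d ω) := fN.comp fun n => (4 : ℝ) ^ n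
  have f5 : Fd (fun ω => (Real.exp (Sf D p g η d ω) - 1) ^ 2) := fS.comp fun x => (Real.exp x - 1) ^ 2
  have i1 : ∫ ω, (Real.exp (Sf D p (fun _ => 0) g d ω) * 2 ^ Nb D d ω) ^ 2 ∂μ ≤ √(a1 * a2) ^ 2 := by
    rw [Real.sq_sqrt (by positivity)]
    have h := cs_le f3 f4 ha1 ha2
      (le_trans (le_of_eq (integral_congr_ae (Filter.Eventually.of_forall fun ω => by
        simp only
        rw [← pow_mul, ← Real.exp_nat_mul]
        norm_num))) h1)
      (le_trans (le_of_eq (integral_congr_ae (Filter.Eventually.of_forall fun ω => by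
        simp only
        rw [← pow_mul, mul_comm, pow_mul]
        norm_num))) h2)
    refine le_trans (le_of_eq ?_) ((le_abs_self _).trans h)
    refine integral_congr_ae (Filter.Eventually.of_forall fun ω => ?_)
    simp only
    rw [mul_pow, ← pow_mul 2, mul_comm (Nb D d ω) 2, pow_mul 2]
    norm_num
  have i2 : ∫ ω, (|Real.exp (Sf D p g η d ω) - 1| + 2 * √(bigV D p η d ω)) ^ 2 ∂μ ≤
      √(2 * b1 + 8 * b2) ^ 2 := by
    rw [Real.sq_sqrt (by positivity)]
    have h := cs_le f5 (Fd.const (1 : ℝ)) hb1 zero_le_one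
      (le_trans (le_of_eq (integral_congr_ae (Filter.Eventually.of_forall fun ω => by
        simp only
        rw [← pow_mul]))) h3) (by simp)
    simp only [mul_one] at h
    calc ∫ ω, (|Real.exp (Sf D p g η d ω) - 1| + 2 * √(bigV D p η d ω)) ^ 2 ∂μ
        ≤ ∫ ω, (2 * (Real.exp (Sf D p g η d ω) - 1) ^ 2 + 8 * bigV D p η d ω) ∂μ := by
          refine integral_mono (f2.pow 2).int ((f5.int.const_mul 2).add (fV.int.const_mul 8))
            fun ω => ?_
          simp only
          have h5 : √(bigV D p η d ω) ^ 2 = bigV D p η d ω := Real.sq_sqrt (bigV_nonneg _ _ _ _ _)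
          have h6 : |Real.exp (Sf D p g η d ω) - 1| ^ 2 = (Real.exp (Sf D p g η d ω) - 1) ^ 2 :=
            sq_abs _
          nlinarith [sq_nonneg (|Real.exp (Sf D p g η d ω) - 1| - 2 * √(bigV D p η d ω))]
      _ = 2 * ∫ ω, (Real.exp (Sf D p g η d ω) - 1) ^ 2 ∂μ + 8 * ∫ ω, bigV D p η d ω ∂μ := by
          rw [integral_add (f5.int.const_mul 2) (fV.int.const_mul 8), integral_const_mul,
            integral_const_mul]
      _ ≤ _ := by
          have := (le_abs_self _).trans h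
          linarith
  have hmain := cs_le f1 f2 (Real.sqrt_nonneg _) (Real.sqrt_nonneg _) i1 i2
  refine le_trans ?_ ((le_abs_self _).trans hmain)
  exact integral_mono ((fd_XD D p _).sub (fd_XD D p g)).abs.int (f1.mul f2).int
    fun ω => XD_sub (hg ω) (hη ω)

/-- The number of the macroscopic pieces has all exponential moments. -/
theorem int_Nb (κ R : ℝ) (hκ : 0 < κ) (hR : 0 ≤ R) : ∃ C n0 : ℝ, 0 < C ∧ 0 < n0 ∧
    ∀ n : ℝ, n0 ≤ n → ∀ D : Finset (ℤ × ℤ), (∀ v ∈ D, (nm v : ℝ) ≤ R * n) →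
      ∫ ω, (16 : ℝ) ^ Nb D (κ * n) ω ∂μ ≤ C := by
  classical
  obtain ⟨ε, C, ρ0, hε, hC, hρ0, h⟩ := H945.macroS κ (R + 1) (Real.log 16) 0 hκ (by linarith)
  refine ⟨C, max ρ0 1, hC, by positivity, fun n hn D hD => ?_⟩
  have hn0 : ρ0 ≤ n := (le_max_left _ _).trans hn
  have hn1 : 1 ≤ n := (le_max_right _ _).trans hn
  obtain ⟨N, -, hN2, hN3⟩ := h n hn0 0 Fin.elim0
  have hle : ∀ ω, Nb D (κ * n) ω ≤ N ω := by
    intro ω
    refine hN2 ω _ (fun γ hγ => isSeg (Finset.mem_filter.1 hγ).1) (fun γ hγ γ' hγ' hne => ?_)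
      fun γ hγ => ?_
    · rw [Finset.disjoint_left]
      intro e he he'
      exact hne (eq_of_mem_pcs (Finset.mem_filter.1 hγ).1 (Finset.mem_filter.1 hγ').1 he he')
    · obtain ⟨h1, h2⟩ := Finset.mem_filter.1 hγ
      constructor
      · obtain ⟨e, he⟩ := pcs_nonempty h1
        refine ⟨e, he, ?_⟩
        rw [sub_zero]
        have h3 := H945.nm_step e
        rcases mem_eds.1 (subset_eds h1 he) with h4 | h4
        · have := hD _ h4
          nlinarith
        · have h5 := hD _ h4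
          have h6 : nm (hdv e) ≤ nm (hdv e - tlv e) + nm (tlv e) := by
            have := H45.nm_sub_le (hdv e) (tlv e) 0
            simpa using this
          have h7 : (nm (hdv e) : ℝ) ≤ 1 + nm (tlv e) := by
            have : nm (hdv e) ≤ 1 + nm (tlv e) := by linarith
            exact_mod_cast this
          nlinarith
      · unfold Small at h2
        push Not at h2
        obtain ⟨u, hu, v, hv, h3⟩ := h2
        unfold vs at hu hv
        obtain ⟨a, ha, rfl⟩ := Finset.mem_image.1 hu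
        obtain ⟨b, hb, rfl⟩ := Finset.mem_image.1 hv
        exact ⟨a, ha, b, hb, h3⟩
  have hfd : Fd (fun ω => (16 : ℝ) ^ Nb D (κ * n) ω) := (fd_Nb D (κ * n)).comp fun k => (16 : ℝ) ^ k
  have h5 : ENNReal.ofReal (∫ ω, (16 : ℝ) ^ Nb D (κ * n) ω ∂μ) ≤ ENNReal.ofReal C := by
    rw [ofReal_integral_eq_lintegral_ofReal hfd.int (Filter.Eventually.of_forall fun ω => by
      simp only [Pi.zero_apply]; positivity)]
    refine le_trans (lintegral_mono fun ω => ENNReal.ofReal_le_ofReal ?_) hN3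
    have h16 : (16 : ℝ) = Real.exp (Real.log 16) := (Real.exp_log (by norm_num)).symm
    calc (16 : ℝ) ^ Nb D (κ * n) ω ≤ 16 ^ N ω := pow_le_pow_right₀ (by norm_num) (hle ω)
      _ = Real.exp (Real.log 16 * N ω) := by
          conv_lhs => rw [h16]
          rw [← Real.exp_nat_mul, mul_comm]
  exact (ENNReal.ofReal_le_ofReal_iff hC.le).1 h5

end Vale.Agent.P167.H638.L
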