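import Vale.Agent.P167.H638.L7

/-!
# P167, block LAYER: bounds for the masses of the small pieces, strips
-/

namespace Vale.Agent.P167.H638.L

open Finset MeasureTheory
open Vale.Agent.P167.BR
open Vale.Agent.P167.H562 (Em)
open Vale.Agent.P167.H167 (Fd fd_pcs Geo tot nr nr_card Wi)

variable {D T : Finset (ℤ × ℤ)} {p : ℤ × ℤ} {ω ω' : Cfg} {A : Finset Ed} {f g η : ℤ × ℤ → ℝ}
  {K m : ℤ}

/-- The mass of a small piece for a neutral charge. -/
theorem mass_small (hG : Geo K m D p) (hA : A ∈ pcs ω D) {d : ℝ} (hd1 : 1 ≤ d) (hd : d ≤ m)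
    (hs : Small d A) (htot : tot D f = 0) : ∃ x : ℤ × ℤ,
    |mass D p f A| ≤ ∑ z ∈ nr D x (K * ⌊d⌋), |f z| := by
  obtain ⟨c, hc⟩ := pcs_nonempty hA
  have hW : Wi (hdv c) ⌊d⌋ A := fun e he => by
    rw [Int.le_floor]
    exact (hs _ (Finset.mem_image_of_mem _ he) _ (Finset.mem_image_of_mem _ hc)).le
  have hs1 : 1 ≤ ⌊d⌋ := Int.le_floor.2 (by exact_mod_cast hd1)
  have hs2 : ⌊d⌋ ≤ m := by
    have : (⌊d⌋ : ℝ) ≤ m := (Int.floor_le d).trans hd
    exact_mod_cast this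
  obtain ⟨τ, hτ, h⟩ := hG.mass_le hs1 hs2 hW hA f
  have hτ0 : τ = 0 := by
    rcases hτ with h1 | ⟨h1, -⟩
    · exact h1
    · rw [h1, htot]
  rw [hτ0, sub_zero] at h
  exact ⟨hdv c, h⟩

theorem mass_bulk (hG : Geo K m D p) (hA : A ∈ pcs ω D) {d : ℝ} (hd1 : 1 ≤ d) (hd : d ≤ m)
    (hs : Small d A) (htot : tot D f = 0) {a : ℝ} (hf : ∀ z, |f z| ≤ a) :
    |mass D p f A| ≤ 9 * K ^ 2 * a * d ^ 2 := by
  obtain ⟨x, hx⟩ := mass_small hG hA hd1 hd hs htot
  have ha : 0 ≤ a := (abs_nonneg _).trans (hf 0)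
  have hK : (1 : ℝ) ≤ K := by exact_mod_cast hG.one_le
  have hs1 : 1 ≤ ⌊d⌋ := Int.le_floor.2 (by exact_mod_cast hd1)
  have hsd : (⌊d⌋ : ℝ) ≤ d := Int.floor_le d
  have hs0 : (1 : ℝ) ≤ ⌊d⌋ := by exact_mod_cast hs1
  calc |mass D p f A| ≤ ∑ z ∈ nr D x (K * ⌊d⌋), |f z| := hx
    _ ≤ ∑ _z ∈ nr D x (K * ⌊d⌋), a := Finset.sum_le_sum fun z _ => hf z
    _ = ((nr D x (K * ⌊d⌋)).card : ℝ) * a := by rw [Finset.sum_const, nsmul_eq_mul]
    _ ≤ (2 * ((K * ⌊d⌋ : ℤ) : ℝ) + 1) ^ 2 * a :=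
        mul_le_mul_of_nonneg_right (nr_card D _ (by nlinarith [hG.one_le])) ha
    _ ≤ (3 * K * d) ^ 2 * a := by
        refine mul_le_mul_of_nonneg_right ?_ ha
        push_cast
        have h3 : (K : ℝ) * ⌊d⌋ ≤ K * d := mul_le_mul_of_nonneg_left hsd (by linarith)
        have h4 : (1 : ℝ) ≤ K * d := by nlinarith
        have h5 : (0 : ℝ) ≤ K * ⌊d⌋ := by positivity
        refine pow_le_pow_left₀ (by linarith) (by linarith) 2
    _ = _ := by ring

/-- The counting bound for a strip of width `h`. -/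
def Cnt (T : Finset (ℤ × ℤ)) (Q h : ℝ) : Prop :=
  ∀ (x : ℤ × ℤ) (r : ℤ), 1 ≤ r →
    ((T.filter fun v => nm (v - x) ≤ r).card : ℝ) ≤ Q * r * min (r : ℝ) h

theorem mass_strip (hG : Geo K m D p) (hA : A ∈ pcs ω D) {d : ℝ} (hd1 : 1 ≤ d) (hd : d ≤ m)
    (hs : Small d A) (htot : tot D f = 0) {a Q h : ℝ} (hQ : 0 ≤ Q) (hh : 0 ≤ h)
    (hT : Cnt T Q h) (hfT : ∀ z, f z ≠ 0 → z ∈ T) (hf : ∀ z, |f z| ≤ a) :
    |mass D p f A| ≤ Q * K ^ 2 * a * (d * min d h) := by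
  obtain ⟨x, hx⟩ := mass_small hG hA hd1 hd hs htot
  have ha : 0 ≤ a := (abs_nonneg _).trans (hf 0)
  have hK : (1 : ℝ) ≤ K := by exact_mod_cast hG.one_le
  have hs1 : 1 ≤ ⌊d⌋ := Int.le_floor.2 (by exact_mod_cast hd1)
  have hsd : (⌊d⌋ : ℝ) ≤ d := Int.floor_le d
  have hs0 : (1 : ℝ) ≤ ⌊d⌋ := by exact_mod_cast hs1
  have hKs : 1 ≤ K * ⌊d⌋ := by nlinarith [hG.one_le]
  have h1 : ∑ z ∈ nr D x (K * ⌊d⌋), |f z| ≤
      ((T.filter fun v => nm (v - x) ≤ K * ⌊d⌋).card : ℝ) * a := by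
    calc ∑ z ∈ nr D x (K * ⌊d⌋), |f z|
        = ∑ z ∈ (nr D x (K * ⌊d⌋)).filter (· ∈ T), |f z| := by
          symm
          refine Finset.sum_subset (Finset.filter_subset _ _) fun z hz hz' => ?_
          rw [abs_eq_zero]
          by_contra hcon
          exact hz' (Finset.mem_filter.2 ⟨hz, hfT z hcon⟩)
      _ ≤ ∑ z ∈ T.filter (fun v => nm (v - x) ≤ K * ⌊d⌋), |f z| := by
          refine Finset.sum_le_sum_of_subset_of_nonneg (fun z hz => ?_) fun _ _ _ => abs_nonneg _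
          obtain ⟨h2, h3⟩ := Finset.mem_filter.1 hz
          exact Finset.mem_filter.2 ⟨h3, (Finset.mem_filter.1 h2).2⟩
      _ ≤ ∑ _z ∈ T.filter (fun v => nm (v - x) ≤ K * ⌊d⌋), a :=
          Finset.sum_le_sum fun z _ => hf z
      _ = _ := by rw [Finset.sum_const, nsmul_eq_mul]
  have h2 := hT x (K * ⌊d⌋) hKs
  push_cast at h2
  have h3 : (K : ℝ) * ⌊d⌋ ≤ K * d := mul_le_mul_of_nonneg_left hsd (by linarith)
  have h4 : min ((K : ℝ) * ⌊d⌋) h ≤ K * min d h := by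
    rcases le_total d h with h5 | h5
    · rw [min_eq_left h5]; exact (min_le_left _ _).trans h3
    · rw [min_eq_right h5]
      refine (min_le_right _ _).trans ?_
      nlinarith
  have h5 : 0 ≤ min ((K : ℝ) * ⌊d⌋) h := le_min (by positivity) hh
  calc |mass D p f A| ≤ _ := hx
    _ ≤ _ := h1
    _ ≤ (Q * (K * ⌊d⌋) * min ((K : ℝ) * ⌊d⌋) h) * a := mul_le_mul_of_nonneg_right h2 ha
    _ ≤ (Q * (K * d) * (K * min d h)) * a := by
        refine mul_le_mul_of_nonneg_right ?_ ha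
        refine mul_le_mul (mul_le_mul_of_nonneg_left h3 hQ) h4 h5 (by positivity)
    _ = _ := by ring

/-- The number of the cells of a box. -/
theorem cel_box {P : ℝ} (hP : 0 ≤ P) (hT : ∀ v ∈ T, (nm v : ℝ) ≤ P) {L : ℤ} (hL : 1 ≤ L) :
    ((cel T L).card : ℝ) * L ^ 2 ≤ (2 * P + 2 * L) ^ 2 := by
  have hL0 : 0 < L := by linarith
  have hLR : (1 : ℝ) ≤ L := by exact_mod_cast hL
  set P' : ℤ := ⌊P⌋ with hP'
  have hP0 : 0 ≤ P' := Int.floor_nonneg.2 hP
  have hb : ∀ v ∈ T, |v.1| ≤ P' ∧ |v.2| ≤ P' := by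
    intro v hv
    have h1 : nm v ≤ P' := Int.le_floor.2 (hT v hv)
    exact ⟨(le_max_left _ _).trans h1, (le_max_right _ _).trans h1⟩
  have hsub : cel T L ⊆ Finset.Icc ((-P') / L) (P' / L) ×ˢ Finset.Icc ((-P') / L) (P' / L) := by
    intro z hz
    obtain ⟨v, hv, rfl⟩ := Finset.mem_image.1 hz
    obtain ⟨h1, h2⟩ := hb v hv
    rw [abs_le] at h1 h2
    rw [Finset.mem_product, Finset.mem_Icc, Finset.mem_Icc]
    exact ⟨⟨Int.ediv_le_ediv hL0 h1.1, Int.ediv_le_ediv hL0 h1.2⟩,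
      Int.ediv_le_ediv hL0 h2.1, Int.ediv_le_ediv hL0 h2.2⟩
  have hcard : ((Finset.Icc ((-P') / L) (P' / L)).card : ℤ) * L ≤ 2 * P' + 2 * L := by
    rw [Int.card_Icc]
    have e1 := Int.emod_add_mul_ediv P' L
    have e2 := Int.emod_add_mul_ediv (-P') L
    have e3 := Int.emod_nonneg P' hL0.ne'
    have e4 := Int.emod_lt_of_pos (-P') hL0
    have e5 : (-P') / L ≤ P' / L := Int.ediv_le_ediv hL0 (by linarith)
    rw [Int.toNat_of_nonneg (by linarith)]
    nlinarith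
  have hcardR : ((Finset.Icc ((-P') / L) (P' / L)).card : ℝ) * L ≤ 2 * P + 2 * L := by
    have h1 : ((Finset.Icc ((-P') / L) (P' / L)).card : ℝ) * L ≤ 2 * P' + 2 * L := by
      exact_mod_cast hcard
    have h2 : (P' : ℝ) ≤ P := Int.floor_le P
    linarith
  have h1 : ((cel T L).card : ℝ) ≤ ((Finset.Icc ((-P') / L) (P' / L)).card : ℝ) ^ 2 := by
    have := Finset.card_le_card hsub
    rw [Finset.card_product] at this
    rw [sq]
    exact_mod_cast this
  calc ((cel T L).card : ℝ) * L ^ 2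
      ≤ ((Finset.Icc ((-P') / L) (P' / L)).card : ℝ) ^ 2 * L ^ 2 :=
        mul_le_mul_of_nonneg_right h1 (by positivity)
    _ = (((Finset.Icc ((-P') / L) (P' / L)).card : ℝ) * L) ^ 2 := by ring
    _ ≤ _ := pow_le_pow_left₀ (by positivity) hcardR 2

/-- Positivity of the weights of the small pieces. -/
theorem pos_of (hG : Geo K m D p) {d r : ℝ} (hd1 : 1 ≤ d) (hd : d ≤ m) (hf : Deep r D f)
    (hr : K * d ≤ r) (htot : tot D f = 0)
    (hm : ∀ ω, ∀ A ∈ pcs ω D, Small d A → |mass D p f A| ≤ 1 / 5) (ω : Cfg) : Pos D p f d ω := by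
  intro A hA hs
  by_cases hl : IsLp D A
  · unfold wp
    rw [if_pos hl]
    have := wl_ge (hm ω A hA hs)
    linarith
  · rw [mass_strand hG hA hl hs hd1 hd hf hr htot, wp_zero]
    exact one_pos

theorem Deep.add {r : ℝ} (hg : Deep r D g) (hη : Deep r D η) : Deep r D (fun z => g z + η z) := by
  intro z hz v hv
  by_cases h : g z = 0
  · exact hη z (fun h2 => hz (by simp only [h, h2, add_zero])) v hv
  · exact hg z h v hv

theorem tot_add (hg : tot D g = 0) (hη : tot D η = 0) : tot D (fun z => g z + η z) = 0 := by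
  unfold tot at *
  rw [Finset.sum_add_distrib, hg, hη, add_zero]

/-- The difference of the statistics at two scales. -/
theorem Sf_sub (hG : Geo K m D p) {d d' r : ℝ} (hd1 : 1 ≤ d) (hd : d ≤ m) (hη : Deep r D η)
    (hr : K * d ≤ r) (htot : tot D η = 0) (hdd : d' ≤ d)
    (hm : ∀ A ∈ pcs ω D, Small d A → |mass D p g A| + |mass D p η A| ≤ 1 / 5) :
    |Sf D p g η d ω - Sf D p g η d' ω| ≤ 4 * bigV D p η d' ω := by
  classical
  have hsub : (pcs ω D).filter (Small d') ⊆ (pcs ω D).filter (Small d) := fun A hA => by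
    obtain ⟨h1, h2⟩ := Finset.mem_filter.1 hA
    exact Finset.mem_filter.2 ⟨h1, H45.Small.mono hdd h2⟩
  unfold Sf
  rw [← Finset.sum_sdiff hsub, add_sub_cancel_right]
  unfold bigV
  rw [Finset.mul_sum]
  refine (Finset.abs_sum_le_sum_abs _ _).trans ?_
  calc ∑ A ∈ (pcs ω D).filter (Small d) \ (pcs ω D).filter (Small d'),
        |Real.log (wp D A (mass D p g A + mass D p η A)) - Real.log (wp D A (mass D p g A))|
      ≤ ∑ A ∈ (pcs ω D).filter (Small d) \ (pcs ω D).filter (Small d'), 4 * |mass D p η A| := by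
        refine Finset.sum_le_sum fun A hA => ?_
        obtain ⟨h1, h2⟩ := Finset.mem_sdiff.1 hA
        obtain ⟨h3, h4⟩ := Finset.mem_filter.1 h1
        by_cases hl : IsLp D A
        · unfold wp
          rw [if_pos hl, if_pos hl]
          exact (lw_bounds (hm A h3 h4)).1
        · rw [mass_strand hG h3 hl h4 hd1 hd hη hr htot, add_zero, sub_self, abs_zero, mul_zero]
    _ ≤ ∑ A ∈ (pcs ω D).filter (fun A => ¬ Small d' A), 4 * |mass D p η A| := by
        refine Finset.sum_le_sum_of_subset_of_nonneg (fun A hA => ?_) fun _ _ _ => by positivity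
        obtain ⟨h1, h2⟩ := Finset.mem_sdiff.1 hA
        obtain ⟨h3, h4⟩ := Finset.mem_filter.1 h1
        exact Finset.mem_filter.2 ⟨h3, fun h5 => h2 (Finset.mem_filter.2 ⟨h3, h5⟩)⟩

/-- From exponential moments to the first absolute moment. -/
theorem int_abs_le {S : Cfg → ℝ} (hS : Fd S) {τ M : ℝ} (hτ : 0 < τ) (hM : 0 ≤ M)
    (h1 : Em μ (fun ω => τ * S ω) ≤ ENNReal.ofReal M)
    (h2 : Em μ (fun ω => -τ * S ω) ≤ ENNReal.ofReal M) : ∫ ω, |S ω| ∂μ ≤ 2 * M / τ := by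
  have f3 : Fd (fun ω => Real.exp (τ * S ω)) := hS.comp fun x => Real.exp (τ * x)
  have f4 : Fd (fun ω => Real.exp (-τ * S ω)) := hS.comp fun x => Real.exp (-τ * x)
  rw [H562.Em_eq f3.int] at h1
  rw [H562.Em_eq f4.int] at h2
  have h1 := (ENNReal.ofReal_le_ofReal_iff hM).1 h1
  have h2 := (ENNReal.ofReal_le_ofReal_iff hM).1 h2
  calc ∫ ω, |S ω| ∂μ ≤ ∫ ω, 1 / τ * (Real.exp (τ * S ω) + Real.exp (-τ * S ω)) ∂μ := by
        refine integral_mono hS.abs.int ((f3.int.add f4.int).const_mul _) fun ω => ?_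
        simp only
        rw [div_mul_eq_mul_div, le_div_iff₀ hτ, one_mul]
        rcases abs_choice (S ω) with h | h
        · rw [h]
          have := Real.add_one_le_exp (τ * S ω)
          have := Real.exp_pos (-τ * S ω)
          linarith
        · rw [h]
          have := Real.add_one_le_exp (-τ * S ω)
          have := Real.exp_pos (τ * S ω)
          linarith
    _ = 1 / τ * (∫ ω, Real.exp (τ * S ω) ∂μ + ∫ ω, Real.exp (-τ * S ω) ∂μ) := by
        rw [integral_const_mul, integral_add f3.int f4.int]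
    _ ≤ 1 / τ * (M + M) := mul_le_mul_of_nonneg_left (add_le_add h1 h2) (by positivity)
    _ = _ := by ring

end Vale.Agent.P167.H638.L
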