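import Vale.Agent.P167.H638.L8

/-!
# P167, block LAYER: the abstract comparison
-/

namespace Vale.Agent.P167.H638.L

open Finset MeasureTheory Filter Topology
open Vale.Agent.P167.BR
open Vale.Agent.P167.H562 (Em)
open Vale.Agent.P167.H167 (Fd fd_pcs Geo tot)

/-- The number of the cells of a strip of length `n` and width `h`. -/
def CelB (T : Finset (ℤ × ℤ)) (Q n h : ℝ) : Prop :=
  ∀ L : ℤ, 1 ≤ L → (L : ℝ) ≤ n → ((cel T L).card : ℝ) * L ^ 2 ≤ Q * n * (h + L)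

/-- The data of one comparison: a bulk charge `g` and a flow `c` in a strip of width `w n`. -/
structure Lay (K : ℤ) (c0 R B Q w n : ℝ) (D T : Finset (ℤ × ℤ)) (p : ℤ × ℤ) (g : ℤ × ℤ → ℝ)
    (c : Ed → ℝ) : Prop where
  geo : ∃ m : ℤ, Geo K m D p ∧ c0 * n ≤ m
  box : ∀ v ∈ D, (nm v : ℝ) ≤ R * n
  totg : tot D g = 0
  dg : Deep (c0 * n) D g
  dη : Deep (c0 * n) D (dvf c)
  gle : ∀ z, |g z| ≤ B / n ^ 2
  cD : ∀ e, c e ≠ 0 → e ∈ eds D
  cT : ∀ e, c e ≠ 0 → hdv e ∈ T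
  ηT : ∀ z, dvf c z ≠ 0 → z ∈ T
  cle : ∀ e, |c e| ≤ B / n
  ηle : ∀ z, |dvf c z| ≤ B / (w * n ^ 2)
  cnt : Cnt T Q (w * n)
  celb : CelB T Q n (w * n)

variable {K : ℤ} {c0 R B Q w n : ℝ} {D T : Finset (ℤ × ℤ)} {p : ℤ × ℤ} {g : ℤ × ℤ → ℝ}
  {c : Ed → ℝ} {ω : Cfg} {A : Finset Ed}

theorem ar_aux {d h : ℝ} (hd : 0 < d) (hh : 0 < h) :
    min d h ^ 2 * (h + 2 * d) ≤ 3 * h ^ 2 * d ∧ min d h * (h + 2 * d) ≤ 3 * h * d := by
  rcases le_total d h with h1 | h1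
  · rw [min_eq_left h1]
    constructor
    · nlinarith [mul_pos hd hh, mul_nonneg (mul_pos hd hh).le (sub_nonneg.2 h1),
        mul_nonneg (sq_nonneg d) (sub_nonneg.2 h1)]
    · nlinarith
  · rw [min_eq_right h1]
    constructor
    · nlinarith [mul_nonneg (sq_nonneg h) (sub_nonneg.2 h1)]
    · nlinarith

theorem ar {C1 C2 d h n Q κj N : ℝ} (hC1 : 0 ≤ C1) (hC2 : 0 ≤ C2) (hQ : 0 ≤ Q) (hd : 1 ≤ d)
    (hh : 0 < h) (hn : 0 < n) (hdn : d / n = κj) (hκ : κj ≤ 1)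
    (hN : N * d ^ 2 ≤ Q * n * (h + 2 * d)) :
    C1 * (d * min d h) / (h * n) * (C1 * (d * min d h) / (h * n) + C2 * d ^ 2 / n ^ 2) * N ≤
      3 * C1 * (C1 + C2) * Q * κj := by
  obtain ⟨a1, a2⟩ := ar_aux (by linarith : 0 < d) hh
  set u := min d h with hu
  have hu0 : 0 ≤ u := le_min (by linarith) hh.le
  have hd0 : 0 < d := by linarith
  have e1 : C1 * (d * u) / (h * n) * (C1 * (d * u) / (h * n) + C2 * d ^ 2 / n ^ 2) * N =
      (C1 ^ 2 * u ^ 2 / (h ^ 2 * n ^ 2)) * (N * d ^ 2) +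
        (C1 * C2 * d * u / (h * n ^ 3)) * (N * d ^ 2) := by
    field_simp
  rw [e1]
  have b1 : (C1 ^ 2 * u ^ 2 / (h ^ 2 * n ^ 2)) * (N * d ^ 2) ≤ 3 * C1 ^ 2 * Q * κj := by
    calc (C1 ^ 2 * u ^ 2 / (h ^ 2 * n ^ 2)) * (N * d ^ 2)
        ≤ (C1 ^ 2 * u ^ 2 / (h ^ 2 * n ^ 2)) * (Q * n * (h + 2 * d)) :=
          mul_le_mul_of_nonneg_left hN (by positivity)
      _ = (C1 ^ 2 * Q / (h ^ 2 * n)) * (u ^ 2 * (h + 2 * d)) := by field_simp
      _ ≤ (C1 ^ 2 * Q / (h ^ 2 * n)) * (3 * h ^ 2 * d) :=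
          mul_le_mul_of_nonneg_left a1 (by positivity)
      _ = 3 * C1 ^ 2 * Q * (d / n) := by field_simp
      _ = _ := by rw [hdn]
  have b2 : (C1 * C2 * d * u / (h * n ^ 3)) * (N * d ^ 2) ≤ 3 * C1 * C2 * Q * κj := by
    calc (C1 * C2 * d * u / (h * n ^ 3)) * (N * d ^ 2)
        ≤ (C1 * C2 * d * u / (h * n ^ 3)) * (Q * n * (h + 2 * d)) :=
          mul_le_mul_of_nonneg_left hN (by positivity)
      _ = (C1 * C2 * Q * d / (h * n ^ 2)) * (u * (h + 2 * d)) := by field_simp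
      _ ≤ (C1 * C2 * Q * d / (h * n ^ 2)) * (3 * h * d) :=
          mul_le_mul_of_nonneg_left a2 (by positivity)
      _ = 3 * C1 * C2 * Q * (d / n) * (d / n) := by field_simp
      _ = 3 * C1 * C2 * Q * κj * κj := by rw [hdn]
      _ ≤ 3 * C1 * C2 * Q * κj * 1 := by
          have : 0 ≤ κj := by rw [← hdn]; positivity
          exact mul_le_mul_of_nonneg_left hκ (by positivity)
      _ = _ := mul_one _
  linarith

namespace Lay

variable (hL : Lay K c0 R B Q w n D T p g c)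

include hL

theorem totη : tot D (dvf c) = 0 := tot_dvf hL.cD

theorem K_pos : (1 : ℝ) ≤ K := by
  obtain ⟨m, h, -⟩ := hL.geo
  exact_mod_cast h.one_le

/-- The bounds for the masses of the small pieces. -/
theorem mb (hB : 0 < B) (hQ : 0 ≤ Q) (hw : 0 < w) (hn : 0 < n) {d : ℝ} (hd1 : 1 ≤ d)
    (hd : d ≤ c0 * n) (hA : A ∈ pcs ω D) (hs : Small d A) :
    |mass D p (dvf c) A| ≤ Q * K ^ 2 * B * (d * min d (w * n)) / (w * n * n) ∧
    |mass D p g A| ≤ 9 * K ^ 2 * B * d ^ 2 / n ^ 2 := by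
  obtain ⟨m, hG, hm⟩ := hL.geo
  have hdm : d ≤ m := hd.trans hm
  constructor
  · have h := mass_strip hG hA hd1 hdm hs hL.totη hQ (by positivity) hL.cnt hL.ηT hL.ηle
    refine h.trans (le_of_eq ?_)
    field_simp
  · have h := mass_bulk hG hA hd1 hdm hs hL.totg hL.gle
    refine h.trans (le_of_eq ?_)
    field_simp

/-- The basic smallness conditions. -/
theorem mb_small (hB : 0 < B) (hQ : 0 ≤ Q) (hw : 0 < w) (hn : 0 < n) {κ d : ℝ}
    (hκ1 : κ ≤ 1) (_hκc : κ ≤ c0) (hκs : (Q * K ^ 2 * B + 9 * K ^ 2 * B) * κ ≤ 1 / 5)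
    (hd1 : 1 ≤ d) (hd : d ≤ κ * n) :
    Q * K ^ 2 * B * (d * min d (w * n)) / (w * n * n) + 9 * K ^ 2 * B * d ^ 2 / n ^ 2 ≤ 1 / 5 ∧
    Q * K ^ 2 * B * (d * min d (w * n)) / (w * n * n) ≤ Q * K ^ 2 * B * (d / n) := by
  have hK := hL.K_pos
  have hwn : 0 < w * n := by positivity
  have hd0 : 0 < d := by linarith
  have h1 : Q * K ^ 2 * B * (d * min d (w * n)) / (w * n * n) ≤ Q * K ^ 2 * B * (d / n) := by
    calc Q * K ^ 2 * B * (d * min d (w * n)) / (w * n * n)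
        ≤ Q * K ^ 2 * B * (d * (w * n)) / (w * n * n) := by
          refine div_le_div_of_nonneg_right ?_ (by positivity)
          refine mul_le_mul_of_nonneg_left ?_ (by positivity)
          exact mul_le_mul_of_nonneg_left (min_le_right _ _) hd0.le
      _ = _ := by field_simp
  refine ⟨?_, h1⟩
  have hdn : d / n ≤ κ := by rw [div_le_iff₀ hn]; exact hd
  have hdn0 : 0 ≤ d / n := by positivity
  have hκ0 : 0 ≤ κ := hdn0.trans hdn
  have h2 : 9 * K ^ 2 * B * d ^ 2 / n ^ 2 ≤ 9 * K ^ 2 * B * (d / n) := by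
    calc 9 * K ^ 2 * B * d ^ 2 / n ^ 2 = 9 * K ^ 2 * B * (d / n) * (d / n) := by field_simp
      _ ≤ 9 * K ^ 2 * B * (d / n) * 1 :=
          mul_le_mul_of_nonneg_left (by linarith) (by positivity)
      _ = _ := mul_one _
  calc _ ≤ Q * K ^ 2 * B * (d / n) + 9 * K ^ 2 * B * (d / n) := add_le_add h1 h2
    _ = (Q * K ^ 2 * B + 9 * K ^ 2 * B) * (d / n) := by ring
    _ ≤ (Q * K ^ 2 * B + 9 * K ^ 2 * B) * κ := mul_le_mul_of_nonneg_left hdn (by positivity)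
    _ ≤ _ := hκs

end Lay

/-- Exponential moments of the two statistics. -/
theorem em_S : ∃ c' C : ℝ, 0 < c' ∧ 0 ≤ C ∧ ∀ (K : ℤ) (c0 R B Q w n : ℝ) (D T : Finset (ℤ × ℤ))
    (p : ℤ × ℤ) (g : ℤ × ℤ → ℝ) (c : Ed → ℝ) (κ t : ℝ), Lay K c0 R B Q w n D T p g c →
    0 < B → 0 ≤ Q → 0 < w → 0 < n → 0 < κ → κ ≤ 1 / 2 → κ ≤ c0 → K * κ ≤ c0 →
    (Q * K ^ 2 * B + 9 * K ^ 2 * B) * κ ≤ 1 / 5 → 1 ≤ κ * n → Q * K ^ 2 * B * κ * |t| ≤ c' →
    Em μ (fun ω => t * Sf D p g (dvf c) (κ * n) ω) ≤ ENNReal.ofReal (Real.exp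
      (C * (3 * (Q * K ^ 2 * B) * (Q * K ^ 2 * B + 9 * K ^ 2 * B) * Q * κ) * (t ^ 2 + |t|))) := by
  classical
  obtain ⟨c', C, hc', hC, hsp⟩ := sp
  refine ⟨c', C, hc', hC, fun K c0 R B Q w n D T p g c κ t hL hB hQ hw hn hκ hκ2 hκc hKκ hκs hκn
    ht => ?_⟩
  obtain ⟨m, hG, hm⟩ := hL.geo
  have hK := hL.K_pos
  have hdj : ∀ j : ℕ, κ * n / 2 ^ j ≤ κ * n := fun j =>
    div_le_self (by positivity) (one_le_pow₀ (by norm_num))
  have hdn : ∀ j : ℕ, κ * n / 2 ^ j / n = κ * (1 / 2) ^ j := fun j => by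
    rw [one_div, inv_pow]; field_simp
  refine hsp K m D T p g (dvf c) (κ * n) (c0 * n)
    (fun j => Q * K ^ 2 * B * (κ * n / 2 ^ j * min (κ * n / 2 ^ j) (w * n)) / (w * n * n))
    (fun j => 9 * K ^ 2 * B * (κ * n / 2 ^ j) ^ 2 / n ^ 2) (Q * K ^ 2 * B * κ)
    (3 * (Q * K ^ 2 * B) * (Q * K ^ 2 * B + 9 * K ^ 2 * B) * Q * κ) t hG hκn
    ((mul_le_mul_of_nonneg_right hκc hn.le).trans hm) hL.dη ?_ hL.totη (by positivity)
    (by positivity) (fun j => ?_) (fun j => by positivity) (fun j ω hj A hA hs => ?_)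
    (fun ω A hA h => ?_) (fun j hj => ?_) (fun j hj => ?_) (fun j hj => ?_) ht
  · calc (K : ℝ) * (κ * n) = K * κ * n := by ring
      _ ≤ c0 * n := mul_le_mul_of_nonneg_right hKκ hn.le
  · have : 0 ≤ min (κ * n / 2 ^ j) (w * n) := le_min (by positivity) (by positivity)
    positivity
  · exact hL.mb hB hQ hw hn hj ((hdj j).trans (mul_le_mul_of_nonneg_right hκc hn.le)) hA hs
  · by_contra hcon
    push Not at hcon
    refine h (mass_dvf_zero hL.cD (subset_eds hA) fun e he => ?_)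
    by_contra h0
    exact hcon e he (hL.cT e h0)
  · exact (hL.mb_small hB hQ hw hn (by linarith) hκc hκs hj (hdj j)).1
  · have h := (hL.mb_small hB hQ hw hn (by linarith) hκc hκs hj (hdj j)).2
    rw [hdn] at h
    refine h.trans (le_of_eq ?_)
    ring
  · have hcard : ((cel T ⌈κ * n / 2 ^ j⌉).card : ℝ) * (κ * n / 2 ^ j) ^ 2 ≤
        Q * n * (w * n + 2 * (κ * n / 2 ^ j)) := by
      set d := κ * n / 2 ^ j with hd
      have hL1 : 1 ≤ ⌈d⌉ := Int.one_le_ceil_iff.2 (by linarith)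
      have hLd : d ≤ ⌈d⌉ := Int.le_ceil d
      have hL2 : (⌈d⌉ : ℝ) ≤ 2 * d := by
        have := Int.ceil_lt_add_one d
        linarith
      have hLn : (⌈d⌉ : ℝ) ≤ n := by
        have h1 : d ≤ κ * n := hdj j
        nlinarith
      have h1 := hL.celb ⌈d⌉ hL1 hLn
      calc ((cel T ⌈d⌉).card : ℝ) * d ^ 2 ≤ ((cel T ⌈d⌉).card : ℝ) * (⌈d⌉ : ℝ) ^ 2 :=
            mul_le_mul_of_nonneg_left (pow_le_pow_left₀ (by linarith) hLd 2) (by positivity)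
        _ ≤ Q * n * (w * n + ⌈d⌉) := h1
        _ ≤ _ := mul_le_mul_of_nonneg_left (by linarith) (by positivity)
    have h := ar (C1 := Q * K ^ 2 * B) (C2 := 9 * K ^ 2 * B) (by positivity) (by positivity) hQ hj
      (by positivity : 0 < w * n) hn (hdn j) (by
        have h2 : ((1 : ℝ) / 2) ^ j ≤ 1 := pow_le_one₀ (by norm_num) (by norm_num)
        nlinarith) hcard
    refine h.trans (le_of_eq ?_)
    ring

/-- Exponential moments of the statistic of the bulk charge. -/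
theorem em_G : ∃ c' C : ℝ, 0 < c' ∧ 0 ≤ C ∧ ∀ (K : ℤ) (c0 R B Q w n : ℝ) (D T : Finset (ℤ × ℤ))
    (p : ℤ × ℤ) (g : ℤ × ℤ → ℝ) (c : Ed → ℝ) (κ t : ℝ), Lay K c0 R B Q w n D T p g c →
    0 < B → 0 ≤ Q → 0 ≤ R → 0 < w → 1 ≤ n → 0 < κ → κ ≤ 1 / 2 → κ ≤ c0 → K * κ ≤ c0 →
    (Q * K ^ 2 * B + 9 * K ^ 2 * B) * κ ≤ 1 / 5 → 1 ≤ κ * n → 9 * K ^ 2 * B * κ * |t| ≤ c' →
    Em μ (fun ω => t * Sf D p (fun _ => 0) g (κ * n) ω) ≤ ENNReal.ofReal (Real.exp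
      (C * ((9 * K ^ 2 * B) ^ 2 * (4 * (R + 2) ^ 2) * κ) * (t ^ 2 + |t|))) := by
  classical
  obtain ⟨c', C, hc', hC, hsp⟩ := sp
  refine ⟨c', C, hc', hC, fun K c0 R B Q w n D T p g c κ t hL hB hQ hR hw hn1 hκ hκ2 hκc hKκ hκs
    hκn ht => ?_⟩
  have hn : 0 < n := by linarith
  obtain ⟨m, hG, hm⟩ := hL.geo
  have hK := hL.K_pos
  have hdj : ∀ j : ℕ, κ * n / 2 ^ j ≤ κ * n := fun j =>
    div_le_self (by positivity) (one_le_pow₀ (by norm_num))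
  have hdn : ∀ j : ℕ, κ * n / 2 ^ j / n = κ * (1 / 2) ^ j := fun j => by
    rw [one_div, inv_pow]; field_simp
  have hpj : ∀ j : ℕ, ((1 : ℝ) / 2) ^ j ≤ 1 := fun j => pow_le_one₀ (by norm_num) (by norm_num)
  have hTb : ∀ v ∈ (eds D).image hdv, (nm v : ℝ) ≤ R * n + 1 := by
    intro v hv
    obtain ⟨e, he, rfl⟩ := Finset.mem_image.1 hv
    have h3 := H945.nm_step e
    rcases mem_eds.1 he with h4 | h4
    · have := hL.box _ h4
      linarith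
    · have h5 := hL.box _ h4
      have h6 : nm (hdv e) ≤ nm (hdv e - tlv e) + nm (tlv e) := by
        have := H45.nm_sub_le (hdv e) (tlv e) 0
        simpa using this
      have h7 : (nm (hdv e) : ℝ) ≤ 1 + nm (tlv e) := by
        have : nm (hdv e) ≤ 1 + nm (tlv e) := by linarith
        exact_mod_cast this
      linarith
  -- the scale bound
  have hG1 : ∀ j : ℕ, 9 * K ^ 2 * B * (κ * n / 2 ^ j) ^ 2 / n ^ 2 =
      9 * K ^ 2 * B * (κ * (1 / 2) ^ j) ^ 2 := fun j => by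
    rw [← hdn j]; field_simp
  refine hsp K m D ((eds D).image hdv) p (fun _ => 0) g (κ * n) (c0 * n)
    (fun j => 9 * K ^ 2 * B * (κ * n / 2 ^ j) ^ 2 / n ^ 2) (fun _ => 0) (9 * K ^ 2 * B * κ)
    ((9 * K ^ 2 * B) ^ 2 * (4 * (R + 2) ^ 2) * κ) t hG hκn
    ((mul_le_mul_of_nonneg_right hκc hn.le).trans hm) hL.dg ?_ hL.totg (by positivity)
    (by positivity) (fun j => by positivity) (fun j => le_rfl) (fun j ω hj A hA hs => ?_)
    (fun ω A hA h => ?_) (fun j hj => ?_) (fun j hj => ?_) (fun j hj => ?_) ht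
  · calc (K : ℝ) * (κ * n) = K * κ * n := by ring
      _ ≤ c0 * n := mul_le_mul_of_nonneg_right hKκ hn.le
  · refine ⟨(hL.mb hB hQ hw hn hj ((hdj j).trans (mul_le_mul_of_nonneg_right hκc hn.le)) hA hs).2,
      ?_⟩
    rw [mass_zero, abs_zero]
  · obtain ⟨e, he⟩ := pcs_nonempty hA
    exact ⟨e, he, Finset.mem_image_of_mem _ (subset_eds hA he)⟩
  · have h := (hL.mb_small hB hQ hw hn (by linarith) hκc hκs hj (hdj j)).1
    have h0 : 0 ≤ Q * K ^ 2 * B * (κ * n / 2 ^ j * min (κ * n / 2 ^ j) (w * n)) / (w * n * n) := by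
      have : 0 ≤ min (κ * n / 2 ^ j) (w * n) := le_min (by positivity) (by positivity)
      positivity
    linarith
  · rw [hG1]
    have h1 : κ * (1 / 2) ^ j ≤ 1 := by
      have := hpj j
      nlinarith
    calc 9 * K ^ 2 * B * (κ * (1 / 2) ^ j) ^ 2 = 9 * K ^ 2 * B * (κ * (1 / 2) ^ j) *
          (κ * (1 / 2) ^ j) := by ring
      _ ≤ 9 * K ^ 2 * B * (κ * (1 / 2) ^ j) * 1 := mul_le_mul_of_nonneg_left h1 (by positivity)
      _ = _ := by ring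
  · set d := κ * n / 2 ^ j with hd
    have hL1 : 1 ≤ ⌈d⌉ := Int.one_le_ceil_iff.2 (by linarith)
    have hLd : d ≤ ⌈d⌉ := Int.le_ceil d
    have hLn : (⌈d⌉ : ℝ) ≤ n := by
      have h1 : d ≤ κ * n := hdj j
      have := Int.ceil_lt_add_one d
      nlinarith
    have h1 := cel_box (T := (eds D).image hdv) (P := R * n + 1) (by positivity) hTb hL1
    have h2 : ((cel ((eds D).image hdv) ⌈d⌉).card : ℝ) * d ^ 2 ≤ 4 * (R + 2) ^ 2 * n ^ 2 := by
      calc ((cel ((eds D).image hdv) ⌈d⌉).card : ℝ) * d ^ 2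
          ≤ ((cel ((eds D).image hdv) ⌈d⌉).card : ℝ) * (⌈d⌉ : ℝ) ^ 2 :=
            mul_le_mul_of_nonneg_left (pow_le_pow_left₀ (by linarith) hLd 2) (by positivity)
        _ ≤ (2 * (R * n + 1) + 2 * ⌈d⌉) ^ 2 := h1
        _ ≤ (2 * (R + 2) * n) ^ 2 := by
            refine pow_le_pow_left₀ (by positivity) ?_ 2
            nlinarith
        _ = _ := by ring
    have h3 : 9 * K ^ 2 * B * d ^ 2 / n ^ 2 * (9 * K ^ 2 * B * d ^ 2 / n ^ 2 + 0) *
        ((cel ((eds D).image hdv) ⌈d⌉).card : ℝ) = (9 * K ^ 2 * B) ^ 2 * d ^ 2 / n ^ 4 *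
          (((cel ((eds D).image hdv) ⌈d⌉).card : ℝ) * d ^ 2) := by
      field_simp
      ring
    rw [h3]
    calc (9 * K ^ 2 * B) ^ 2 * d ^ 2 / n ^ 4 *
          (((cel ((eds D).image hdv) ⌈d⌉).card : ℝ) * d ^ 2)
        ≤ (9 * K ^ 2 * B) ^ 2 * d ^ 2 / n ^ 4 * (4 * (R + 2) ^ 2 * n ^ 2) :=
          mul_le_mul_of_nonneg_left h2 (by positivity)
      _ = (9 * K ^ 2 * B) ^ 2 * (4 * (R + 2) ^ 2) * (d / n) * (d / n) := by field_simp
      _ = (9 * K ^ 2 * B) ^ 2 * (4 * (R + 2) ^ 2) * (κ * (1 / 2) ^ j) * (κ * (1 / 2) ^ j) := by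
          rw [hdn]
      _ ≤ (9 * K ^ 2 * B) ^ 2 * (4 * (R + 2) ^ 2) * (κ * (1 / 2) ^ j) * 1 := by
          have := hpj j
          exact mul_le_mul_of_nonneg_left (by nlinarith) (by positivity)
      _ = _ := by ring

/-- The masses of the macroscopic pieces are small. -/
theorem big_S : ∃ C α : ℝ, 0 < C ∧ 0 < α ∧ ∀ (K : ℤ) (c0 R B Q w n : ℝ) (D T : Finset (ℤ × ℤ))
    (p : ℤ × ℤ) (g : ℤ × ℤ → ℝ) (c : Ed → ℝ) (κ : ℝ), Lay K c0 R B Q w n D T p g c →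
    0 < B → 0 ≤ Q → 0 < w → 1 ≤ w * n → κ ≤ 1 → 2 * w ≤ κ → 0 < n →
    ∫ ω, bigV D p (dvf c) (κ * n) ω ∂μ ≤ C * Q * B * (2 * w / κ) ^ α := by
  obtain ⟨C, α, hC, hα, hbig⟩ := int_bigV
  refine ⟨6 * C, α, by positivity, hα, fun K c0 R B Q w n D T p g c κ hL hB hQ hw hwn hκ1 hwκ hn
    => ?_⟩
  have hκ : 0 < κ := by linarith
  set h : ℤ := ⌈w * n⌉ with hh
  have h1 : 1 ≤ h := Int.one_le_ceil_iff.2 (by linarith)
  have h1R : (1 : ℝ) ≤ h := by exact_mod_cast h1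
  have hle : w * n ≤ h := Int.le_ceil _
  have hle2 : (h : ℝ) ≤ 2 * (w * n) := by
    have := Int.ceil_lt_add_one (w * n)
    linarith
  have hhκ : (h : ℝ) ≤ κ * n := by nlinarith
  have hhn : (h : ℝ) ≤ n := by nlinarith
  have hmain := hbig D T p c h (κ * n) (B / n) (B / (w * n ^ 2)) h1 hhκ hL.cD hL.cT hL.cle hL.ηle
  refine hmain.trans ?_
  have hcel := hL.celb h h1 hhn
  have b1 : (h : ℝ) ^ 2 * (B / (w * n ^ 2)) + h * (B / n) ≤ 3 * B * h / n := by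
    have : (h : ℝ) ^ 2 * (B / (w * n ^ 2)) ≤ 2 * B * h / n := by
      rw [mul_div_assoc', div_le_div_iff₀ (by positivity) hn]
      have e1 : (h : ℝ) ^ 2 * B * n = (B * h * n) * h := by ring
      have e2 : 2 * B * h * (w * n ^ 2) = (B * h * n) * (2 * (w * n)) := by ring
      rw [e1, e2]
      exact mul_le_mul_of_nonneg_left hle2 (by positivity)
    calc (h : ℝ) ^ 2 * (B / (w * n ^ 2)) + h * (B / n) ≤ 2 * B * h / n + h * (B / n) := by linarith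
      _ = _ := by field_simp; ring
  have b2 : ((cel T h).card : ℝ) * h ≤ 2 * Q * n := by
    have h2 : ((cel T h).card : ℝ) * h * h ≤ 2 * Q * n * h := by
      calc ((cel T h).card : ℝ) * h * h = ((cel T h).card : ℝ) * h ^ 2 := by ring
        _ ≤ Q * n * (w * n + h) := hcel
        _ ≤ Q * n * (2 * h) := mul_le_mul_of_nonneg_left (by linarith) (by positivity)
        _ = _ := by ring
    exact le_of_mul_le_mul_right h2 (by linarith)
  have b3 : ((h : ℝ) / (κ * n)) ^ α ≤ (2 * w / κ) ^ α := by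
    refine Real.rpow_le_rpow (by positivity) ?_ hα.le
    rw [div_le_div_iff₀ (by positivity) hκ]
    nlinarith
  have b4 : 0 ≤ ((h : ℝ) / (κ * n)) ^ α := by positivity
  calc C * ((cel T h).card : ℝ) * (h ^ 2 * (B / (w * n ^ 2)) + h * (B / n)) *
        ((h : ℝ) / (κ * n)) ^ α
      ≤ C * ((cel T h).card : ℝ) * (3 * B * h / n) * ((h : ℝ) / (κ * n)) ^ α :=
        mul_le_mul_of_nonneg_right (mul_le_mul_of_nonneg_left b1 (by positivity)) b4
    _ = C * (3 * B / n) * (((cel T h).card : ℝ) * h) * ((h : ℝ) / (κ * n)) ^ α := by ring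
    _ ≤ C * (3 * B / n) * (2 * Q * n) * ((h : ℝ) / (κ * n)) ^ α :=
        mul_le_mul_of_nonneg_right (mul_le_mul_of_nonneg_left b2 (by positivity)) b4
    _ = 6 * C * Q * B * ((h : ℝ) / (κ * n)) ^ α := by field_simp; ring
    _ ≤ _ := mul_le_mul_of_nonneg_left b3 (by positivity)

end Vale.Agent.P167.H638.L
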