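import Vale.Agent.P167.H638.YG1

/-!
# P167, block YG (2): characteristic function for a charge one part of which is moved
-/

namespace Vale.Agent.P167.H638.YG

open Finset Filter Topology MeasureTheory ProbabilityTheory
open Vale.Agent.P152
open Vale.Agent.P152.GFF.S

/-- translated function -/
def tr (a : ℝ) (G : ℝ × ℝ → ℝ) : ℝ × ℝ → ℝ := fun x => G (x.1, x.2 - a)

lemma tr_cont {a : ℝ} {G : ℝ × ℝ → ℝ} (hG : Continuous G) : Continuous (tr a G) := by
  unfold tr
  fun_prop

lemma tr_smooth {a : ℝ} {G : ℝ × ℝ → ℝ} (hG : ContDiff ℝ ((⊤ : ℕ∞) : WithTop ℕ∞) G) :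
    ContDiff ℝ ((⊤ : ℕ∞) : WithTop ℕ∞) (tr a G) :=
  hG.comp (contDiff_fst.prodMk (contDiff_snd.sub contDiff_const))

lemma tr_compact {a : ℝ} {G : ℝ × ℝ → ℝ} (hG : HasCompactSupport G) :
    HasCompactSupport (tr a G) := by
  have e : tr a G = G ∘ (Homeomorph.addRight ((0 : ℝ), -a)) := by
    funext x
    show G (x.1, x.2 - a) = G (x.1 + 0, x.2 + -a)
    rw [add_zero, sub_eq_add_neg]
  rw [e]
  exact hG.comp_homeomorph _

lemma tr_int {a : ℝ} {G : ℝ × ℝ → ℝ} : ∫ x, tr a G x = ∫ x, G x := by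
  have e : ∀ x : ℝ × ℝ, tr a G x = G (x + ((0 : ℝ), -a)) := by
    intro x
    show G (x.1, x.2 - a) = G (x.1 + 0, x.2 + -a)
    rw [add_zero, sub_eq_add_neg]
  simp only [e]
  exact integral_add_right_eq_self G ((0 : ℝ), -a)

lemma tr_test {a : ℝ} {G : ℝ × ℝ → ℝ} (hG : Test G) : Test (tr a G) :=
  ⟨tr_smooth hG.1, tr_compact hG.2.1, by rw [tr_int]; exact hG.2.2⟩

lemma test_add {F G : ℝ × ℝ → ℝ} (hF : Test F) (hG : Test G) : Test (fun x => F x + G x) :=
  ⟨hF.1.add hG.1, hF.2.1.add hG.2.1, by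
    rw [integral_add (hF.1.continuous.integrable_of_hasCompactSupport hF.2.1)
      (hG.1.continuous.integrable_of_hasCompactSupport hG.2.1), hF.2.2, hG.2.2, add_zero]⟩

lemma test_smul {F : ℝ × ℝ → ℝ} (hF : Test F) (s : ℝ) : Test (fun x => s * F x) :=
  ⟨contDiff_const.mul hF.1, hF.2.1.mul_left (f := fun _ => s), by
    rw [integral_const_mul, hF.2.2, mul_zero]⟩

/-- The primitive of the difference of two translates. -/
noncomputable def Pm (a b : ℝ) (G : ℝ × ℝ → ℝ) : ℝ × ℝ → ℝ :=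
  fun x => ∫ t in (0 : ℝ)..(a - b), G (x.1, x.2 - a + t)

lemma pm_cont {a b : ℝ} {G : ℝ × ℝ → ℝ} (hG : Continuous G) : Continuous (Pm a b G) := by
  unfold Pm
  exact intervalIntegral.continuous_parametric_intervalIntegral_of_continuous'
    (f := fun (x : ℝ × ℝ) t => G (x.1, x.2 - a + t))
    (hG.comp ((continuous_fst.comp continuous_fst).prodMk
      (((continuous_snd.comp continuous_fst).sub continuous_const).add continuous_snd))) _ _

lemma pm_deriv {a b : ℝ} {G : ℝ × ℝ → ℝ} (hG : Continuous G) (t y : ℝ) :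
    HasDerivAt (fun y => Pm a b G (t, y)) (tr b G (t, y) - tr a G (t, y)) y := by
  have hc : Continuous fun s => G (t, s) := hG.comp (continuous_const.prodMk continuous_id)
  have e : (fun y => Pm a b G (t, y)) = fun y => ∫ s in (y - a)..(y - b), G (t, s) := by
    funext y
    simp only [Pm]
    rw [intervalIntegral.integral_comp_add_left (fun s => G (t, s)) (y - a)]
    congr 1 <;> ring
  rw [e]
  have h1 : ∀ c : ℝ, HasDerivAt (fun y => ∫ s in (0 : ℝ)..(y - c), G (t, s)) (G (t, y - c)) y := by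
    intro c
    have h2 := (intervalIntegral.integral_hasDerivAt_right (hc.intervalIntegrable 0 (y - c))
      (hc.stronglyMeasurableAtFilter _ _) hc.continuousAt)
    have h3 : HasDerivAt ((fun u => ∫ x in (0 : ℝ)..u, G (t, x)) ∘ fun y => y - c)
        (G (t, y - c) * 1) y := h2.comp y ((hasDerivAt_id y).sub_const c)
    rw [mul_one] at h3
    exact h3
  have e2 : (fun y => ∫ s in (y - a)..(y - b), G (t, s)) =
      fun y => (∫ s in (0 : ℝ)..(y - b), G (t, s)) - ∫ s in (0 : ℝ)..(y - a), G (t, s) := by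
    funext y
    rw [intervalIntegral.integral_interval_sub_left (hc.intervalIntegrable _ _)
      (hc.intervalIntegrable _ _)]
  rw [e2]
  exact (h1 b).sub (h1 a)

lemma pm_supp {a b R : ℝ} {G : ℝ × ℝ → ℝ} (hR : ∀ x, G x ≠ 0 → |x.1| ≤ R ∧ |x.2| ≤ R)
    (x : ℝ × ℝ) (hx : Pm a b G x ≠ 0) : |x.1| ≤ R + |a| + |b| ∧ |x.2| ≤ R + |a| + |b| := by
  by_contra hcon
  refine hx ?_
  unfold Pm
  rw [intervalIntegral.integral_congr (g := fun _ => (0 : ℝ))]
  · simp
  · intro t ht
    simp only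
    by_contra hne
    obtain ⟨h1, h2⟩ := hR _ hne
    simp only at h1 h2
    refine hcon ⟨by linarith [abs_nonneg a, abs_nonneg b], ?_⟩
    have h3 := le_abs_self a
    have h4 := neg_abs_le a
    have h5 := le_abs_self b
    have h6 := neg_abs_le b
    rw [Set.uIcc, Set.mem_Icc] at ht
    have h7 : (0 : ℝ) ⊓ (a - b) ≤ t := ht.1
    have h8 : t ≤ (0 : ℝ) ⊔ (a - b) := ht.2
    rw [abs_le] at h2 ⊢
    constructor
    · rcases le_total (0 : ℝ) (a - b) with h | h
      · rw [sup_eq_right.2 h] at h8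
        linarith
      · rw [sup_eq_left.2 h] at h8
        linarith
    · rcases le_total (0 : ℝ) (a - b) with h | h
      · rw [inf_eq_left.2 h] at h7
        linarith
      · rw [inf_eq_right.2 h] at h7
        linarith

lemma pm_le {a b A : ℝ} {G : ℝ × ℝ → ℝ} (hA : ∀ x, |G x| ≤ A) (x : ℝ × ℝ) :
    |Pm a b G x| ≤ A * |a - b| := by
  have := intervalIntegral.norm_integral_le_of_norm_le_const (a := (0 : ℝ)) (b := a - b)
    (f := fun t => G (x.1, x.2 - a + t)) (C := A) (fun t _ => hA _)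
  rwa [sub_zero, Real.norm_eq_abs] at this

/-- **Characteristic function, one part is moved.** -/
theorem char_move {P : Measure (Ori (ℤ × ℤ))} [IsProbabilityMeasure P] {C κ : ℝ} (hC : 0 ≤ C)
    (hGD : GD P C) (hice : ∀ᵐ ω ∂P, ∀ x y, Ice ω x y) (hS : SliceCLT P κ)
    (h : Ori (ℤ × ℤ) → ℤ × ℤ → ℤ) (hh : ∀ᵐ ω ∂P, IsHeight ω (h ω)) {F G : ℝ × ℝ → ℝ}
    (hF : Test F) (hG : Test G) {a : ℕ → ℝ} {a' : ℝ} (ha : Tendsto a atTop (𝓝 a'))
    {δ : ℕ → ℝ} (hδ : Tendsto δ atTop (𝓝[>] 0)) :
    Tendsto (fun n => ∫ ω, Complex.exp (Complex.I *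
        (hint (h ω) (δ n) (fun x => F x + tr (a n) G x) : ℂ)) ∂P) atTop
      (𝓝 (Complex.exp (-(((κ / 2) * gffCov (fun x => F x + tr a' G x)
        (fun x => F x + tr a' G x) : ℝ) : ℂ)))) := by
  have h0 := (char_limit' hC hGD hice hS h hh (test_add hF (tr_test (a := a') hG))).comp hδ
  -- bounds
  obtain ⟨R, hR0, hR⟩ := bound_of_compact hG.2.1
  obtain ⟨A, hA⟩ := hG.1.continuous.bounded_above_of_compact_support hG.2.1
  have hA' : ∀ x, |G x| ≤ A := fun x => by rw [← Real.norm_eq_abs]; exact hA x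
  obtain ⟨L, hL⟩ := hG.1.lipschitzWith_of_hasCompactSupport hG.2.1 (by simp)
  have hL' : ∀ (b : ℝ) (x : ℝ × ℝ), |tr b G x - tr a' G x| ≤ L * |b - a'| := by
    intro b x
    have h1 := hL.dist_le_mul (x.1, x.2 - b) (x.1, x.2 - a')
    rw [Real.dist_eq, Prod.dist_eq, dist_self, Real.dist_eq] at h1
    have e : |x.2 - b - (x.2 - a')| = |b - a'| := by
      rw [show x.2 - b - (x.2 - a') = -(b - a') by ring, abs_neg]
    rw [e, max_eq_right (abs_nonneg _)] at h1
    exact h1
  obtain ⟨B, hB⟩ : ∃ B : ℝ, ∀ n, |a n| ≤ B := by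
    obtain ⟨B, hB⟩ := (Metric.isBounded_range_of_tendsto a ha).exists_norm_le
    exact ⟨B, fun n => by rw [← Real.norm_eq_abs]; exact hB _ (Set.mem_range_self n)⟩
  have hB0 : 0 ≤ B := (abs_nonneg _).trans (hB 0)
  obtain ⟨K, hK0, hK⟩ := var_dy (P := P) hC hGD hice (R + |a'| + B) (by positivity)
  -- the comparison
  have key : ∀ᶠ n in atTop, ‖(∫ ω, Complex.exp (Complex.I *
        (hint (h ω) (δ n) (fun x => F x + tr (a n) G x) : ℂ)) ∂P) -
      ∫ ω, Complex.exp (Complex.I * (hint (h ω) (δ n) (fun x => F x + tr a' G x) : ℂ)) ∂P‖ ≤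
      √(K * (A ^ 2 + L ^ 2)) * |a n - a'| := by
    have hδ0 : ∀ᶠ n in atTop, δ n ∈ Set.Ioo (0 : ℝ) 1 :=
      hδ (Ioo_mem_nhdsGT one_pos)
    filter_upwards [hδ0] with n hn
    have hd0 : 0 < δ n := hn.1
    set H : ℝ × ℝ → ℝ := fun x => tr (a n) G x - tr a' G x with hH
    have hHt : Test H := by
      have := test_add (tr_test (a := a n) hG) (test_smul (tr_test (a := a') hG) (-1))
      refine (congrArg Test ?_).mp this
      funext x
      rw [hH]
      ring
    have hvar := hK h hh (Pm a' (a n) G) H (A * |a n - a'|) (L * |a n - a'|)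
      (pm_cont hG.1.continuous) hHt.1.continuous (fun t y => pm_deriv hG.1.continuous t y)
      (fun x hx => by
        have := pm_supp hR x hx
        have hb := hB n
        exact ⟨by linarith [this.1], by linarith [this.2]⟩)
      (fun x => by rw [abs_sub_comm]; exact pm_le hA' x) (fun x => hL' (a n) x) (δ n) hd0 hn.2.le
    have hsub : ∀ ω, hint (h ω) (δ n) (fun x => F x + tr (a n) G x) -
        hint (h ω) (δ n) (fun x => F x + tr a' G x) = hint (h ω) (δ n) H := by
      intro ω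
      have e := hint_add (h ω) hd0 (F := fun x => F x + tr a' G x) (G := H)
        (test_add hF (tr_test (a := a') hG)).1.continuous
        (test_add hF (tr_test (a := a') hG)).2.1 hHt.1.continuous hHt.2.1
      have e2 : (fun x => (fun x => F x + tr a' G x) x + H x) = fun x => F x + tr (a n) G x := by
        funext x
        rw [hH]
        ring
      rw [e2] at e
      rw [e]
      ring
    have hm1 := hint_aemeasurable h hh (test_add hF (tr_test (a := a n) hG)) (δ n)
    have hm2 := hint_aemeasurable h hh (test_add hF (tr_test (a := a') hG)) (δ n)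
    have hbd : ∃ M : ℝ, ∀ᵐ ω ∂P, |hint (h ω) (δ n) H| ≤ M := by
      have hsΦ : HasCompactSupport (Pm a' (a n) G) := by
        refine HasCompactSupport.of_support_subset_isCompact
          ((isCompact_Icc (a := -(R + |a'| + |a n|)) (b := R + |a'| + |a n|)).prod
          (isCompact_Icc (a := -(R + |a'| + |a n|)) (b := R + |a'| + |a n|))) ?_
        intro x hx
        have := pm_supp hR x hx
        exact ⟨abs_le.1 this.1, abs_le.1 this.2⟩
      obtain ⟨M, -, hM⟩ := tsum_ar_meas (fun v : ℤ × ℤ => (Sum.inl v : Edge (ℤ × ℤ)))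
        (fun v => ∫ t in (δ n * v.1)..(δ n * (v.1 + 1)), Pm a' (a n) G (t, δ n * v.2))
        (col_supp hsΦ hd0)
      refine ⟨M, ?_⟩
      filter_upwards [hh] with ω hω
      rw [hint_dy hω hd0 (pm_cont hG.1.continuous) hsΦ hHt.1.continuous
        (fun t y => pm_deriv hG.1.continuous t y), abs_neg]
      exact hM ω
    obtain ⟨M, hM⟩ := hbd
    have hint2 : Integrable (fun ω => (hint (h ω) (δ n) (fun x => F x + tr (a n) G x) -
        hint (h ω) (δ n) (fun x => F x + tr a' G x)) ^ 2) P := by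
      refine Integrable.of_bound (C := M ^ 2) ((hm1.sub hm2).pow_const 2).aestronglyMeasurable ?_
      filter_upwards [hM] with ω hω
      rw [hsub, Real.norm_eq_abs, abs_pow]
      exact pow_le_pow_left₀ (abs_nonneg _) hω 2
    refine char_close hm1.aestronglyMeasurable hm2.aestronglyMeasurable hint2 (by positivity) ?_
    simp only [hsub]
    refine hvar.trans (le_of_eq ?_)
    rw [mul_pow √(K * (A ^ 2 + (L : ℝ) ^ 2)), Real.sq_sqrt (by positivity)]
    ring
  have hz : Tendsto (fun n => √(K * (A ^ 2 + L ^ 2)) * |a n - a'|) atTop (𝓝 0) := by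
    have h1 : Tendsto (fun n => a n - a') atTop (𝓝 0) := by
      have := ha.sub_const a'
      rwa [sub_self] at this
    have h2 := (h1.abs).const_mul √(K * (A ^ 2 + L ^ 2))
    rwa [abs_zero, mul_zero] at h2
  have h1 := squeeze_zero_norm' key hz
  have h2 := h1.add h0
  rw [zero_add] at h2
  refine h2.congr fun n => ?_
  simp only [Function.comp]
  ring

end Vale.Agent.P167.H638.YG
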