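import Vale.Agent.P167.H638.YG2
import Vale.Agent.P167.H638.YG3

/-!
# P167, block YG (4): the four characteristic functions

`E[Y θY] → 0` for `Y = e^{i h(g)} (e^{i s h(Lp ψ)} - α)`, in terms of the integrals of the rescaled
height function.
-/

namespace Vale.Agent.P167.H638.YG

open Finset Filter Topology MeasureTheory ProbabilityTheory
open Vale.Agent.P152
open Vale.Agent.P152.GFF.S

/-- The mirror image in the line `x.2 = 0`. -/
def mir (F : ℝ × ℝ → ℝ) : ℝ × ℝ → ℝ := fun x => F (x.1, -x.2)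

/-- The mirror image in the line `x.2 = c / 2`. -/
def mc (c : ℝ) (F : ℝ × ℝ → ℝ) : ℝ × ℝ → ℝ := fun x => F (x.1, c - x.2)

lemma tr_mir (c : ℝ) (F : ℝ × ℝ → ℝ) : tr c (mir F) = mc c F := by
  funext x
  show F (x.1, -(x.2 - c)) = F (x.1, c - x.2)
  rw [neg_sub]

lemma mp_mc (c : ℝ) : MeasurePreserving (fun x : ℝ × ℝ => (x.1, c - x.2)) volume volume :=
  (MeasurePreserving.id (volume : Measure ℝ)).prod (Measure.measurePreserving_sub_left volume c)

lemma mc_mc (c : ℝ) (F : ℝ × ℝ → ℝ) : mc c (mc c F) = F := by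
  funext x
  show F (x.1, c - (c - x.2)) = F x
  rw [sub_sub_cancel]

/-- measurable equivalence of the plane -/
def me (c : ℝ) : (ℝ × ℝ) ≃ᵐ (ℝ × ℝ) where
  toFun := fun x => (x.1, c - x.2)
  invFun := fun x => (x.1, c - x.2)
  left_inv x := by simp
  right_inv x := by simp
  measurable_toFun := by
    simp only [Equiv.coe_fn_mk]
    fun_prop
  measurable_invFun := by
    simp only [Equiv.coe_fn_symm_mk]
    fun_prop

lemma int_mc (c : ℝ) (F : ℝ × ℝ → ℝ) : ∫ x, mc c F x = ∫ x, F x :=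
  (mp_mc c).integral_comp (me c).measurableEmbedding F

lemma green_mc (c : ℝ) (x y : ℝ × ℝ) : green (x.1, c - x.2) (y.1, c - y.2) = green x y := by
  unfold green
  simp only
  rw [show (c - x.2 - (c - y.2)) ^ 2 = (x.2 - y.2) ^ 2 by ring]

lemma cov_mc (c : ℝ) (F G : ℝ × ℝ → ℝ) : gffCov (mc c F) (mc c G) = gffCov F G := by
  unfold gffCov
  rw [← int_mc c (fun x => ∫ y, green x y * F x * G y)]
  refine integral_congr_ae (Eventually.of_forall fun x => ?_)
  simp only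
  show ∫ y, green x y * mc c F x * mc c G y =
    ∫ y, green (x.1, c - x.2) y * F (x.1, c - x.2) * G y
  rw [← int_mc c (fun y => green (x.1, c - x.2) y * F (x.1, c - x.2) * G y)]
  refine integral_congr_ae (Eventually.of_forall fun y => ?_)
  simp only
  show green x y * mc c F x * mc c G y =
    green (x.1, c - x.2) (y.1, c - y.2) * F (x.1, c - x.2) * G (y.1, c - y.2)
  rw [green_mc]
  rfl

lemma mir_smooth {F : ℝ × ℝ → ℝ} (hF : ContDiff ℝ ((⊤ : ℕ∞) : WithTop ℕ∞) F) :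
    ContDiff ℝ ((⊤ : ℕ∞) : WithTop ℕ∞) (mir F) :=
  hF.comp (contDiff_fst.prodMk contDiff_snd.neg)

lemma mir_compact {F : ℝ × ℝ → ℝ} (hF : HasCompactSupport F) : HasCompactSupport (mir F) := by
  have e : mir F = F ∘ ((Homeomorph.refl ℝ).prodCongr (Homeomorph.neg ℝ)) := rfl
  rw [e]
  exact hF.comp_homeomorph _

lemma mir_int (F : ℝ × ℝ → ℝ) : ∫ x, mir F x = ∫ x, F x := by
  have e : mir F = mc 0 F := by
    funext x
    show F (x.1, -x.2) = F (x.1, 0 - x.2)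
    rw [zero_sub]
  rw [e, int_mc]

lemma mir_test {F : ℝ × ℝ → ℝ} (hF : Test F) : Test (mir F) :=
  ⟨mir_smooth hF.1, mir_compact hF.2.1, by rw [mir_int]; exact hF.2.2⟩

lemma mc_test {c : ℝ} {F : ℝ × ℝ → ℝ} (hF : Test F) : Test (mc c F) := by
  rw [← tr_mir]
  exact tr_test (mir_test hF)

/-- The constant. -/
noncomputable def al (κ s : ℝ) (g ψ : ℝ × ℝ → ℝ) : ℝ :=
  Real.exp (-(κ / 2 * s ^ 2 * En ψ) + κ * s * ∫ x, g x * ψ x)

section quad

variable {g ψ : ℝ × ℝ → ℝ} {c yb : ℝ}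

lemma lp_supp {yb : ℝ} (hψ : ∀ x, ψ x ≠ 0 → yb ≤ x.2) (x : ℝ × ℝ) (hx : Lp ψ x ≠ 0) :
    yb ≤ x.2 := by
  have h1 : x ∈ tsupport ψ := by
    by_contra hcon
    have hz : ∀ v : ℝ × ℝ, dd v (dd v ψ) x = 0 := by
      intro v
      refine image_eq_zero_of_notMem_tsupport fun h => hcon ?_
      exact dd_tsupport v ψ (dd_tsupport v (dd v ψ) h)
    exact hx (by rw [Lp, hz, hz, add_zero])
  have h2 : tsupport ψ ⊆ {x : ℝ × ℝ | yb ≤ x.2} :=
    closure_minimal (fun x hx => hψ x hx) (isClosed_le continuous_const continuous_snd)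
  exact h2 h1

/-- The charge of the four characteristic functions. -/
noncomputable def Ch (g ψ : ℝ × ℝ → ℝ) (c a b : ℝ) : ℝ × ℝ → ℝ := fun x =>
  (g x + a * Lp ψ x) + tr c (fun x => -(mir (fun x => g x + b * Lp ψ x) x)) x

lemma Ch_eq (c a b : ℝ) (x : ℝ × ℝ) : Ch g ψ c a b x =
    ∑ j : Fin 3, ![1, a, -b] j * ![fun x => g x - mc c g x, Lp ψ, mc c (Lp ψ)] j x := by
  simp only [Fin.sum_univ_three, Matrix.cons_val_zero, Matrix.cons_val_one, Matrix.cons_val_two,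
    Matrix.head_cons, Matrix.tail_cons]
  show (g x + a * Lp ψ x) + -(g (x.1, -(x.2 - c)) + b * Lp ψ (x.1, -(x.2 - c))) =
    1 * (g x - g (x.1, c - x.2)) + a * Lp ψ x + -b * Lp ψ (x.1, c - x.2)
  rw [neg_sub]
  ring

/-- **The energy of the four charges.** -/
lemma Ch_cov (hg : Test g) (hψ : ContDiff ℝ ((⊤ : ℕ∞) : WithTop ℕ∞) ψ) (cψ : HasCompactSupport ψ)
    (hgs : ∀ x, g x ≠ 0 → yb ≤ x.2) (hψs : ∀ x, ψ x ≠ 0 → yb ≤ x.2) (hc : c < 2 * yb)
    (a b : ℝ) : gffCov (Ch g ψ c a b) (Ch g ψ c a b) =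
      gffCov (Ch g ψ c 0 0) (Ch g ψ c 0 0) + (a ^ 2 + b ^ 2) * En ψ -
        2 * (a + b) * ∫ x, g x * ψ x := by
  have hL := lp_test hψ cψ
  have hG : Test (fun x => g x - mc c g x) := by
    refine (congrArg Test ?_).mp (test_add hg (test_smul (mc_test (c := c) hg) (-1)))
    funext x
    ring
  have hM : Test (mc c (Lp ψ)) := mc_test hL
  -- the covariances
  have c1 : gffCov (fun x => g x - mc c g x) (Lp ψ) = - ∫ x, g x * ψ x := by
    rw [cov_lp _ hψ cψ]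
    congr 1
    refine integral_congr_ae (Eventually.of_forall fun x => ?_)
    simp only
    by_cases h : ψ x = 0
    · rw [h, mul_zero, mul_zero]
    · have h1 : mc c g x = 0 := by
        by_contra hcon
        have h2 : yb ≤ c - x.2 := hgs _ hcon
        have h3 := hψs x h
        linarith
      rw [h1, sub_zero]
  have c1' : gffCov (Lp ψ) (fun x => g x - mc c g x) = - ∫ x, g x * ψ x := by
    rw [gffCov_symm hL.1.continuous hG.1.continuous hL.2.1 hG.2.1, c1]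
  have eG : mc c (fun x => g x - mc c g x) = fun x => -1 * (g x - mc c g x) := by
    funext x
    show g (x.1, c - x.2) - mc c g (x.1, c - x.2) = -1 * (g x - mc c g x)
    have h1 : mc c g (x.1, c - x.2) = g x := congrFun (mc_mc c g) x
    rw [h1]
    show g (x.1, c - x.2) - g x = -1 * (g x - g (x.1, c - x.2))
    ring
  have cs : ∀ (F : ℝ × ℝ → ℝ) (H : ℝ × ℝ → ℝ), gffCov (fun x => -1 * F x) H = - gffCov F H := by
    intro F H
    unfold gffCov
    rw [← integral_neg]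
    refine integral_congr_ae (Eventually.of_forall fun x => ?_)
    simp only
    rw [← integral_neg]
    refine integral_congr_ae (Eventually.of_forall fun y => ?_)
    simp only
    ring
  have c2 : gffCov (fun x => g x - mc c g x) (mc c (Lp ψ)) = ∫ x, g x * ψ x := by
    rw [← cov_mc c, mc_mc, eG, cs, c1, neg_neg]
  have c2' : gffCov (mc c (Lp ψ)) (fun x => g x - mc c g x) = ∫ x, g x * ψ x := by
    rw [gffCov_symm hM.1.continuous hG.1.continuous hM.2.1 hG.2.1, c2]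
  have c3 : gffCov (mc c (Lp ψ)) (Lp ψ) = 0 := by
    rw [cov_lp _ hψ cψ, neg_eq_zero]
    refine integral_eq_zero_of_ae (Eventually.of_forall fun x => ?_)
    simp only [Pi.zero_apply]
    by_cases h : ψ x = 0
    · rw [h, mul_zero]
    · have h1 : mc c (Lp ψ) x = 0 := by
        by_contra hcon
        have h2 : yb ≤ c - x.2 := lp_supp hψs _ hcon
        have h3 := hψs x h
        linarith
      rw [h1, zero_mul]
  have c3' : gffCov (Lp ψ) (mc c (Lp ψ)) = 0 := by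
    rw [gffCov_symm hL.1.continuous hM.1.continuous hL.2.1 hM.2.1, c3]
  have c4 : gffCov (Lp ψ) (Lp ψ) = En ψ := cov_lp_self hψ cψ
  have c5 : gffCov (mc c (Lp ψ)) (mc c (Lp ψ)) = En ψ := by rw [cov_mc, c4]
  have key : ∀ a b : ℝ, gffCov (Ch g ψ c a b) (Ch g ψ c a b) =
      gffCov (fun x => g x - mc c g x) (fun x => g x - mc c g x) + (a ^ 2 + b ^ 2) * En ψ -
        2 * (a + b) * ∫ x, g x * ψ x := by
    intro a b
    have e : Ch g ψ c a b = fun x => ∑ j : Fin 3, ![1, a, -b] j *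
        (![fun x => g x - mc c g x, Lp ψ, mc c (Lp ψ)] : Fin 3 → ℝ × ℝ → ℝ) j x :=
      funext fun x => Ch_eq c a b x
    rw [e, gffCov_sum]
    · simp only [Fin.sum_univ_three, Matrix.cons_val_zero, Matrix.cons_val_one,
        Matrix.cons_val_two, Matrix.head_cons, Matrix.tail_cons]
      rw [c1, c1', c2, c2', c3, c3', c4, c5]
      ring
    · intro j
      fin_cases j
      · exact hG.1.continuous
      · exact hL.1.continuous
      · exact hM.1.continuous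
    · intro j
      fin_cases j
      · exact hG.2.1
      · exact hL.2.1
      · exact hM.2.1
  rw [key a b, key 0 0]
  ring

end quad

/-- **The four characteristic functions.** -/
theorem four {P : Measure (Ori (ℤ × ℤ))} [IsProbabilityMeasure P] {C κ : ℝ} (hC : 0 ≤ C)
    (hGD : GD P C) (hice : ∀ᵐ ω ∂P, ∀ x y, Ice ω x y) (hS : SliceCLT P κ)
    (h : Ori (ℤ × ℤ) → ℤ × ℤ → ℤ) (hh : ∀ᵐ ω ∂P, IsHeight ω (h ω)) {g ψ : ℝ × ℝ → ℝ}
    (hg : Test g) (hψ : ContDiff ℝ ((⊤ : ℕ∞) : WithTop ℕ∞) ψ) (cψ : HasCompactSupport ψ)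
    {yb c' : ℝ} (hgs : ∀ x, g x ≠ 0 → yb ≤ x.2) (hψs : ∀ x, ψ x ≠ 0 → yb ≤ x.2)
    (hc' : c' < 2 * yb) (s : ℝ) {c : ℕ → ℝ} (hc : Tendsto c atTop (𝓝 c'))
    {δ : ℕ → ℝ} (hδ : Tendsto δ atTop (𝓝[>] 0)) :
    Tendsto (fun n =>
      (∫ ω, Complex.exp (Complex.I * (hint (h ω) (δ n) (Ch g ψ (c n) s s) : ℂ)) ∂P) -
      al κ s g ψ *
        (∫ ω, Complex.exp (Complex.I * (hint (h ω) (δ n) (Ch g ψ (c n) s 0) : ℂ)) ∂P) -
      al κ s g ψ *
        (∫ ω, Complex.exp (Complex.I * (hint (h ω) (δ n) (Ch g ψ (c n) 0 s) : ℂ)) ∂P) +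
      al κ s g ψ ^ 2 *
        (∫ ω, Complex.exp (Complex.I * (hint (h ω) (δ n) (Ch g ψ (c n) 0 0) : ℂ)) ∂P))
      atTop (𝓝 0) := by
  have hL := lp_test hψ cψ
  have hT : ∀ a : ℝ, Test (fun x => g x + a * Lp ψ x) := fun a =>
    test_add hg (test_smul hL a)
  have hN : ∀ a : ℝ, Test (fun x => -(mir (fun x => g x + a * Lp ψ x) x)) := by
    intro a
    refine (congrArg Test ?_).mp (test_smul (mir_test (hT a)) (-1))
    funext x
    ring
  have lim : ∀ a b : ℝ, Tendsto (fun n =>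
      ∫ ω, Complex.exp (Complex.I * (hint (h ω) (δ n) (Ch g ψ (c n) a b) : ℂ)) ∂P) atTop
      (𝓝 (Complex.exp (-(((κ / 2) * gffCov (Ch g ψ c' a b) (Ch g ψ c' a b) : ℝ) : ℂ)))) :=
    fun a b => char_move hC hGD hice hS h hh (hT a) (hN b) hc hδ
  have val : ∀ a b : ℝ, Complex.exp (-(((κ / 2) * gffCov (Ch g ψ c' a b) (Ch g ψ c' a b) : ℝ) : ℂ))
      = ((Real.exp (-(κ / 2 * gffCov (Ch g ψ c' 0 0) (Ch g ψ c' 0 0))) *
        Real.exp (-(κ / 2 * (a ^ 2 + b ^ 2) * En ψ) + κ * (a + b) * ∫ x, g x * ψ x) : ℝ) : ℂ) := by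
    intro a b
    rw [← Complex.ofReal_neg, ← Complex.ofReal_exp, ← Real.exp_add]
    congr 2
    rw [Ch_cov hg hψ cψ hgs hψs hc' a b]
    ring
  set Q := Real.exp (-(κ / 2 * gffCov (Ch g ψ c' 0 0) (Ch g ψ c' 0 0))) with hQ
  have l1 := lim s s
  have l2 := lim s 0
  have l3 := lim 0 s
  have l4 := lim 0 0
  rw [val] at l1 l2 l3 l4
  have e1 : Real.exp (-(κ / 2 * (s ^ 2 + s ^ 2) * En ψ) + κ * (s + s) * ∫ x, g x * ψ x) =
      al κ s g ψ ^ 2 := by
    rw [al, sq (Real.exp _), ← Real.exp_add]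
    congr 1
    ring
  have e2 : Real.exp (-(κ / 2 * (s ^ 2 + 0 ^ 2) * En ψ) + κ * (s + 0) * ∫ x, g x * ψ x) =
      al κ s g ψ := by
    rw [al]
    congr 1
    ring
  have e3 : Real.exp (-(κ / 2 * (0 ^ 2 + s ^ 2) * En ψ) + κ * (0 + s) * ∫ x, g x * ψ x) =
      al κ s g ψ := by
    rw [al]
    congr 1
    ring
  have e4 : Real.exp (-(κ / 2 * (0 ^ 2 + 0 ^ 2) * En ψ) + κ * (0 + 0) * ∫ x, g x * ψ x) = 1 := by
    rw [Real.exp_eq_one_iff]
    ring
  rw [e1] at l1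
  rw [e2] at l2
  rw [e3] at l3
  rw [e4] at l4
  have := ((l1.sub (l2.const_mul (al κ s g ψ : ℂ))).sub (l3.const_mul (al κ s g ψ : ℂ))).add
    (l4.const_mul ((al κ s g ψ : ℂ) ^ 2))
  refine (this.congr fun n => ?_).trans (le_of_eq ?_)
  · rfl
  · congr 1
    push_cast
    ring

end Vale.Agent.P167.H638.YG
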