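import Vale.Agent.P167.H638.YG4
import Vale.Agent.P167.H638.Gff
import Vale.Agent.P167.H685.Flow
import Vale.Agent.P167.H825.Dirs

/-!
# P167, block YG (5): the functional of the arrows

`E_P[Y θ_m Y] → 0` for the plane measure `P` and the reflections in the face rows `m`.
-/

namespace Vale.Agent.P167.H638.YG

open Finset Filter Topology MeasureTheory ProbabilityTheory
open Vale.Agent.P152
open Vale.Agent.P152.GFF.S
open Vale.Agent.P167.H685 (dv sum_arrows)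
open Vale.Agent.P167.H825 (RY)

/-- The charges of the faces. -/
noncomputable def fc (F : ℝ × ℝ → ℝ) (δ : ℝ) (v : ℤ × ℤ) : ℝ := ∫ x in hcell δ v, F x

lemma hint_fc (h : ℤ × ℤ → ℤ) {δ : ℝ} (hδ : 0 < δ) {F : ℝ × ℝ → ℝ} (hF : Continuous F)
    (cF : HasCompactSupport F) : hint h δ F = ∑' v, (h v : ℝ) * fc F δ v := by
  obtain ⟨R, hR0, hR⟩ := bound_of_compact cF
  obtain ⟨N, hN⟩ := exists_nat_ge (R / δ + 1)
  rw [hint_cells h hδ (hF.integrable_of_hasCompactSupport cF) hR hN]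
  symm
  exact tsum_eq_sum fun v hv => by rw [fc, cell_zero hδ hN hR hv, mul_zero]

lemma fc_mc (G : ℝ × ℝ → ℝ) (δ : ℝ) (m : ℤ) (v : ℤ × ℤ) :
    fc G δ (v.1, 2 * m - v.2) = fc (mc ((2 * m + 1) * δ) G) δ v := by
  unfold fc
  set φ : ℝ × ℝ → ℝ × ℝ := fun x => (x.1, (2 * m + 1) * δ - x.2) with hφ
  have h1 : ∫ x in φ ⁻¹' hcell δ (v.1, 2 * m - v.2), G (φ x) =
      ∫ x in hcell δ (v.1, 2 * m - v.2), G x :=
    (mp_mc ((2 * m + 1) * δ)).setIntegral_preimage_emb (me _).measurableEmbedding G _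
  rw [← h1]
  have h2 : φ ⁻¹' hcell δ (v.1, 2 * m - v.2) =
      Set.Ico (δ * v.1) (δ * (v.1 + 1)) ×ˢ Set.Ioc (δ * v.2) (δ * (v.2 + 1)) := by
    ext x
    simp only [hcell, hφ, Set.mem_preimage, Set.mem_prod, Set.mem_Ico, Set.mem_Ioc]
    push_cast
    constructor
    · rintro ⟨a, b, c⟩
      exact ⟨a, by nlinarith, by nlinarith⟩
    · rintro ⟨a, b, c⟩
      exact ⟨a, by nlinarith, by nlinarith⟩
  rw [h2]
  refine setIntegral_congr_set ?_
  unfold hcell
  rw [Measure.volume_eq_prod]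
  exact Measure.set_prod_ae_eq (ae_eq_refl _) Ico_ae_eq_Ioc.symm

lemma height_RY {ω : Ori (ℤ × ℤ)} {h : ℤ × ℤ → ℤ} (hh : IsHeight ω h) (m : ℤ) :
    IsHeight (RY m ω) (fun v => h (v.1, 2 * m - v.2)) := by
  intro x y
  constructor
  · have h1 := (hh x (2 * m - y + 1)).1
    have e : 2 * m - y + 1 - 1 = 2 * m - y := by ring
    rw [e] at h1
    show h (x, 2 * m - y) - h (x, 2 * m - (y - 1)) =
      if (!(ω (Sum.inl (x, 2 * m - y + 1)))) = true then 1 else -1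
    have e2 : 2 * m - (y - 1) = 2 * m - y + 1 := by ring
    rw [e2]
    cases hw : ω (Sum.inl (x, 2 * m - y + 1))
    · rw [hw] at h1
      simp only [Bool.false_eq_true, if_false] at h1
      simp only [Bool.not_false, if_true]
      linarith
    · rw [hw] at h1
      simp only [if_true] at h1
      simp only [Bool.not_true, Bool.false_eq_true, if_false]
      linarith
  · exact (hh x (2 * m - y)).2

/-- phase of the arrows -/
noncomputable def ph (E : Finset (Edge (ℤ × ℤ))) (a : Edge (ℤ × ℤ) → ℝ) (ω : Ori (ℤ × ℤ)) : ℝ :=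
  ∑ e ∈ E, a e * Vale.Agent.P167.H685.sgb (ω e)

/-- The functional `Y` of the arrows. -/
noncomputable def Yf (E : Finset (Edge (ℤ × ℤ))) (a b : Edge (ℤ × ℤ) → ℝ) (α : ℝ)
    (ω : Ori (ℤ × ℤ)) : ℂ :=
  Complex.exp (Complex.I * (ph E a ω : ℂ)) * (Complex.exp (Complex.I * (ph E b ω : ℂ)) - α)

lemma ph_height {ω : Ori (ℤ × ℤ)} {h : ℤ × ℤ → ℤ} (hh : IsHeight ω h)
    {E : Finset (Edge (ℤ × ℤ))} {a : Edge (ℤ × ℤ) → ℝ} (ha : ∀ e ∉ E, a e = 0)
    {F : ℝ × ℝ → ℝ} {k δ : ℝ} (hδ : 0 < δ) (hF : Continuous F) (cF : HasCompactSupport F)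
    (hd : ∀ v, dv a v = k * fc F δ v) : ph E a ω = k * hint h δ F := by
  rw [ph, sum_arrows hh ha, hint_fc h hδ hF cF, ← tsum_mul_left]
  refine tsum_congr fun v => ?_
  rw [hd]
  ring

lemma ph_height_RY {ω : Ori (ℤ × ℤ)} {h : ℤ × ℤ → ℤ} (hh : IsHeight ω h) (m : ℤ)
    {E : Finset (Edge (ℤ × ℤ))} {a : Edge (ℤ × ℤ) → ℝ} (ha : ∀ e ∉ E, a e = 0)
    {F : ℝ × ℝ → ℝ} {k δ : ℝ} (hδ : 0 < δ) (hF : Continuous F) (cF : HasCompactSupport F)
    (hd : ∀ v, dv a v = k * fc F δ v) :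
    ph E a (RY m ω) = k * hint h δ (mc ((2 * m + 1) * δ) F) := by
  have hc : Continuous (mc ((2 * m + 1) * δ) F) := by
    unfold mc
    fun_prop
  have cc : HasCompactSupport (mc ((2 * m + 1) * δ) F) := by
    rw [← tr_mir]
    exact tr_compact (mir_compact cF)
  rw [ph, sum_arrows (height_RY hh m) ha, hint_fc h hδ hc cc, ← tsum_mul_left]
  let e : (ℤ × ℤ) ≃ (ℤ × ℤ) := ⟨fun v => (v.1, 2 * m - v.2), fun v => (v.1, 2 * m - v.2),
    fun v => by simp, fun v => by simp⟩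
  rw [← e.tsum_eq]
  refine tsum_congr fun v => ?_
  show (h ((e v).1, 2 * m - (e v).2) : ℝ) * dv a (e v) = _
  have e1 : ((e v).1, 2 * m - (e v).2) = v := e.left_inv v
  rw [e1, hd]
  have e2 : e v = (v.1, 2 * m - v.2) := rfl
  rw [e2, fc_mc F δ]
  ring

lemma int4 {Ω : Type*} [MeasurableSpace Ω] {P : Measure Ω} {f1 f2 f3 f4 : Ω → ℂ}
    (h1 : Integrable f1 P) (h2 : Integrable f2 P) (h3 : Integrable f3 P) (h4 : Integrable f4 P)
    (k k' : ℂ) : ∫ ω, (f1 ω - k * f2 ω - k * f3 ω + k' * f4 ω) ∂P =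
      ∫ ω, f1 ω ∂P - k * ∫ ω, f2 ω ∂P - k * ∫ ω, f3 ω ∂P + k' * ∫ ω, f4 ω ∂P := by
  have e0 : ∫ ω, (f1 ω - k * f2 ω - k * f3 ω + k' * f4 ω) ∂P =
      ∫ ω, (f1 ω - k * f2 ω - k * f3 ω) ∂P + ∫ ω, k' * f4 ω ∂P :=
    integral_add ((h1.sub (h2.const_mul k)).sub (h3.const_mul k)) (h4.const_mul k')
  have e1 : ∫ ω, (f1 ω - k * f2 ω - k * f3 ω) ∂P =
      ∫ ω, (f1 ω - k * f2 ω) ∂P - ∫ ω, k * f3 ω ∂P :=
    integral_sub (h1.sub (h2.const_mul k)) (h3.const_mul k)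
  have e2 : ∫ ω, (f1 ω - k * f2 ω) ∂P = ∫ ω, f1 ω ∂P - ∫ ω, k * f2 ω ∂P :=
    integral_sub h1 (h2.const_mul k)
  rw [e0, e1, e2, integral_const_mul, integral_const_mul, integral_const_mul]

/-- **The reflection norm of `Y` tends to zero**, plane measure. -/
theorem yg_plane {P : Measure (Ori (ℤ × ℤ))} [IsProbabilityMeasure P] {C κ : ℝ} (hC : 0 ≤ C)
    (hGD : GD P C) (hice : ∀ᵐ ω ∂P, ∀ x y, Ice ω x y) (hS : SliceCLT P κ)
    (hex : ∀ᵐ ω ∂P, ∃ h, IsHeight ω h) {g ψ : ℝ × ℝ → ℝ}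
    (hg : Test g) (hψ : ContDiff ℝ ((⊤ : ℕ∞) : WithTop ℕ∞) ψ) (cψ : HasCompactSupport ψ)
    {yb y' : ℝ} (hgs : ∀ x, g x ≠ 0 → yb ≤ x.2) (hψs : ∀ x, ψ x ≠ 0 → yb ≤ x.2)
    (hy' : y' < yb) (s : ℝ) {m : ℕ → ℤ} {δ : ℕ → ℝ} (hδ : Tendsto δ atTop (𝓝[>] 0))
    (hm : Tendsto (fun n => (m n : ℝ) * δ n) atTop (𝓝 y'))
    {E : ℕ → Finset (Edge (ℤ × ℤ))} {a b : ℕ → Edge (ℤ × ℤ) → ℝ}
    (ha : ∀ n, ∀ e ∉ E n, a n e = 0) (hb : ∀ n, ∀ e ∉ E n, b n e = 0)
    (da : ∀ n v, dv (a n) v = fc g (δ n) v) (db : ∀ n v, dv (b n) v = s * fc (Lp ψ) (δ n) v) :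
    Tendsto (fun n => ∫ ω, Yf (E n) (a n) (b n) (al κ s g ψ) ω *
      (starRingEnd ℂ) (Yf (E n) (a n) (b n) (al κ s g ψ) (RY (m n) ω)) ∂P) atTop (𝓝 0) := by
  classical
  obtain ⟨h, hh⟩ : ∃ h : Ori (ℤ × ℤ) → ℤ × ℤ → ℤ, ∀ᵐ ω ∂P, IsHeight ω (h ω) := by
    refine ⟨fun ω => if hω : ∃ h, IsHeight ω h then hω.choose else 0, ?_⟩
    filter_upwards [hex] with ω hω
    simp only [dif_pos hω]
    exact hω.choose_spec
  have hL := lp_test hψ cψ
  set c : ℕ → ℝ := fun n => (2 * m n + 1) * δ n with hcdef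
  have hδ0 : Tendsto δ atTop (𝓝 0) := hδ.mono_right nhdsWithin_le_nhds
  have hc : Tendsto c atTop (𝓝 (2 * y')) := by
    have h1 := (hm.const_mul 2).add hδ0
    rw [add_zero] at h1
    refine h1.congr fun n => ?_
    simp only [hcdef]
    ring
  have key := four hC hGD hice hS h hh hg hψ cψ hgs hψs (by linarith : 2 * y' < 2 * yb) s hc hδ
  have hpos : ∀ᶠ n in atTop, 0 < δ n := hδ self_mem_nhdsWithin
  refine key.congr' ?_
  filter_upwards [hpos] with n hn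
  -- the charges
  have hch : ∀ (p q : ℝ) (ω : Ori (ℤ × ℤ)), hint (h ω) (δ n) (Ch g ψ (c n) p q) =
      hint (h ω) (δ n) g + p * hint (h ω) (δ n) (Lp ψ) -
        (hint (h ω) (δ n) (mc (c n) g) + q * hint (h ω) (δ n) (mc (c n) (Lp ψ))) := by
    intro p q ω
    have hsm : ∀ (k : ℝ) (F : ℝ × ℝ → ℝ), hint (h ω) (δ n) (fun x => k * F x) =
        k * hint (h ω) (δ n) F := by
      intro k F
      unfold hint
      rw [← integral_const_mul]
      refine integral_congr_ae (Eventually.of_forall fun x => ?_)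
      simp only
      ring
    have tg : Test (mc (c n) g) := mc_test hg
    have tL : Test (mc (c n) (Lp ψ)) := mc_test hL
    have e1 : Ch g ψ (c n) p q = fun x => (fun x => g x + p * Lp ψ x) x +
        (fun x => (-1) * (mc (c n) g x + q * mc (c n) (Lp ψ) x)) x := by
      funext x
      show (g x + p * Lp ψ x) + -(g (x.1, -(x.2 - c n)) + q * Lp ψ (x.1, -(x.2 - c n))) =
        (g x + p * Lp ψ x) + (-1) * (g (x.1, c n - x.2) + q * Lp ψ (x.1, c n - x.2))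
      rw [neg_sub]
      ring
    have t1 := test_add hg (test_smul hL p)
    have t2 := test_add tg (test_smul tL q)
    have t3 := test_smul t2 (-1)
    rw [e1, hint_add (h ω) hn t1.1.continuous t1.2.1 t3.1.continuous t3.2.1,
      hint_add (h ω) hn hg.1.continuous hg.2.1 (test_smul hL p).1.continuous (test_smul hL p).2.1,
      hsm, hsm, hint_add (h ω) hn tg.1.continuous tg.2.1 (test_smul tL q).1.continuous
      (test_smul tL q).2.1, hsm]
    ring
  -- the functional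
  have hY : ∀ᵐ ω ∂P, Yf (E n) (a n) (b n) (al κ s g ψ) ω *
      (starRingEnd ℂ) (Yf (E n) (a n) (b n) (al κ s g ψ) (RY (m n) ω)) =
      Complex.exp (Complex.I * (hint (h ω) (δ n) (Ch g ψ (c n) s s) : ℂ)) -
      al κ s g ψ * Complex.exp (Complex.I * (hint (h ω) (δ n) (Ch g ψ (c n) s 0) : ℂ)) -
      al κ s g ψ * Complex.exp (Complex.I * (hint (h ω) (δ n) (Ch g ψ (c n) 0 s) : ℂ)) +
      al κ s g ψ ^ 2 *
        Complex.exp (Complex.I * (hint (h ω) (δ n) (Ch g ψ (c n) 0 0) : ℂ)) := by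
    filter_upwards [hh] with ω hω
    have p1 := ph_height hω (ha n) (k := 1) hn hg.1.continuous hg.2.1
      (fun v => by rw [da, one_mul])
    have p2 := ph_height hω (hb n) hn hL.1.continuous hL.2.1 (db n)
    have p3 := ph_height_RY hω (m n) (ha n) (k := 1) hn hg.1.continuous hg.2.1
      (fun v => by rw [da, one_mul])
    have p4 := ph_height_RY hω (m n) (hb n) hn hL.1.continuous hL.2.1 (db n)
    rw [one_mul] at p1 p3
    rw [Yf, Yf, p1, p2, p3, p4, hch, hch, hch, hch]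
    simp only [map_mul, map_sub, ← Complex.exp_conj, Complex.conj_I, Complex.conj_ofReal]
    set A := hint (h ω) (δ n) g
    set B := hint (h ω) (δ n) (Lp ψ)
    set A' := hint (h ω) (δ n) (mc (c n) g)
    set B' := hint (h ω) (δ n) (mc (c n) (Lp ψ))
    have E4 : ∀ x y z w : ℝ, Complex.exp (Complex.I * ((x + y - (z + w) : ℝ) : ℂ)) =
        Complex.exp (Complex.I * (x : ℂ)) * Complex.exp (Complex.I * (y : ℂ)) *
        (Complex.exp (-Complex.I * (z : ℂ)) * Complex.exp (-Complex.I * (w : ℂ))) := by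
      intro x y z w
      rw [← Complex.exp_add, ← Complex.exp_add, ← Complex.exp_add]
      congr 1
      push_cast
      ring
    rw [E4, E4, E4, E4]
    simp only [zero_mul, Complex.ofReal_zero, mul_zero, Complex.exp_zero, mul_one]
    ring
  rw [integral_congr_ae hY]
  have hi : ∀ p q : ℝ, Integrable (fun ω =>
      Complex.exp (Complex.I * (hint (h ω) (δ n) (Ch g ψ (c n) p q) : ℂ))) P := by
    intro p q
    have hT : Test (Ch g ψ (c n) p q) := by
      have t1 := test_add hg (test_smul hL p)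
      have t3 : Test (fun x => -(mir (fun x => g x + q * Lp ψ x) x)) := by
        refine (congrArg Test ?_).mp (test_smul (mir_test (test_add hg (test_smul hL q))) (-1))
        funext x
        ring
      exact test_add t1 (tr_test (a := c n) t3)
    have hm := hint_aemeasurable h hh hT (δ n)
    refine Integrable.of_bound (Complex.measurable_exp.comp_aemeasurable
      ((Complex.measurable_ofReal.comp_aemeasurable hm).const_mul _)).aestronglyMeasurable 1 ?_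
    refine Filter.Eventually.of_forall fun ω => ?_
    rw [mul_comm, Complex.norm_exp_ofReal_mul_I]
  exact (int4 (hi s s) (hi s 0) (hi 0 s) (hi 0 0) _ _).symm

end Vale.Agent.P167.H638.YG
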