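import Vale.Agent.P167.H638.YG5
import Vale.Agent.P167.H199.OmLim

/-!
# P167, block YG (6): the limit functional of the insertions

`om` is the plane measure on insertions without cut edges; the reflection norm of the centre of the
legs tends to zero.
-/

namespace Vale.Agent.P167.H638.YG

open Finset Filter Topology MeasureTheory ProbabilityTheory
open Vale.Agent.P152
open Vale.Agent.P152.GFF.S
open Vale.Agent.P167.H685 (dv sum_arrows)
open Vale.Agent.P167.H825 (RY)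
open Vale.Agent.P167.H592
open Vale.Agent.P167.H199 (phF)
open Vale.Agent.P152.GFF (hi_all gen_slice stWeak bTr_hi Pln)

/-- `NoDef ∅` and the doubled orientations. -/
lemma sum_nodef {V : Type} [Fintype V] [DecidableEq V] (G : HO V → ℂ) :
    (∑ ω : HO V, if NoDef ∅ ω then G ω else 0) = ∑ ω : Ori V, G (dbl ω) := by
  classical
  rw [← sum_filter]
  symm
  refine sum_bij (fun ω _ => dbl ω) ?_ ?_ ?_ ?_
  · intro ω _
    exact mem_filter.2 ⟨mem_univ _, fun e _ => rfl⟩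
  · intro ω _ ω' _ h
    funext e
    exact congrFun (congrFun h e) false
  · intro ω hω
    have h1 := (mem_filter.1 hω).2
    refine ⟨fun e => ω e false, mem_univ _, ?_⟩
    funext e b
    cases b
    · rfl
    · exact h1 e (notMem_empty e)
  · intro ω _
    rfl

section tor

variable {M L : ℕ} [NeZero M] [NeZero L]

lemma hw_dbl (c : ℝ) (ω : Ori (ZMod M × ZMod L)) :
    hw c ((1, 0) : ZMod M × ZMod L) (0, 1) (dbl ω) = wt c ω := by
  unfold hw wt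
  refine prod_congr rfl fun v _ => ?_
  unfold hvw dbl
  have e1 : v - ((1, 0) : ZMod M × ZMod L) = (v.1 - 1, v.2) := by
    apply Prod.ext <;> simp
  have e2 : v - ((0, 1) : ZMod M × ZMod L) = (v.1, v.2 - 1) := by
    apply Prod.ext <;> simp
  rw [e1, e2]

lemma unH_dbl (ω : Ori (ZMod M × ZMod L)) :
    unH ((1, 0) : ZMod M × ZMod L) (0, 1) (dbl ω) = dbl (unroll ω) := by
  funext e b
  rcases e with v | v
  · show ω (Sum.inl _) = ω (Sum.inl _)
    congr 2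
    simp [H592.em]
  · show ω (Sum.inr _) = ω (Sum.inr _)
    congr 2
    simp [H592.em]

lemma zv_empty (c : ℝ) (F : HO (ℤ × ℤ) → ℂ) :
    zv c ((1, 0) : ZMod M × ZMod L) (0, 1) ∅ F =
      ∑ ω : Ori (ZMod M × ZMod L), (wt c ω : ℂ) * F (dbl (unroll ω)) := by
  unfold zv
  rw [image_empty, sum_nodef]
  refine sum_congr rfl fun ω _ => ?_
  rw [hw_dbl, unH_dbl]

lemma tv_empty (c : ℝ) (F : HO (ℤ × ℤ) → ℂ) :
    tv c ((1, 0) : ZMod M × ZMod L) (0, 1) ∅ F =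
      ((torU c M L (fun ω => (F (dbl ω)).re) : ℝ) : ℂ) +
        ((torU c M L (fun ω => (F (dbl ω)).im) : ℝ) : ℂ) * Complex.I := by
  unfold tv torU
  rw [zv_empty, zv_empty]
  simp only [mul_one]
  push_cast
  rw [div_mul_eq_mul_div, ← add_div, Finset.sum_mul, ← sum_add_distrib]
  congr 1
  refine sum_congr rfl fun ω _ => ?_
  conv_lhs => rw [← Complex.re_add_im (F (dbl (unroll ω)))]
  ring

end tor

/-- **`om` is the plane measure on insertions without cut edges.** -/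
theorem om_eq {c : ℝ} {om : Ins → ℂ} (hom : IsOm c om) {P : Measure (Ori (ℤ × ℤ))}
    [IsProbabilityMeasure P] (hT : TorI c P) {F : HO (ℤ × ℤ) → ℂ}
    {Λ : Finset (Edge (ℤ × ℤ))}
    (hF : ∀ ω ω' : HO (ℤ × ℤ), (∀ e ∈ Λ, ω e = ω' e) → F ω = F ω') :
    om ⟨∅, F⟩ = ((∫ ω, (F (dbl ω)).re ∂P : ℝ) : ℂ) +
      ((∫ ω, (F (dbl ω)).im ∂P : ℝ) : ℂ) * Complex.I := by
  have hloc : LI Set.univ ⟨∅, F⟩ := by
    refine ⟨Λ, fun e _ => ?_, empty_subset _, hF⟩
    rcases e with v | v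
    · exact fun i j _ _ _ _ => Set.mem_univ _
    · exact fun i j _ _ _ _ => Set.mem_univ _
  have hd : ∀ ω ω' : Ori (ℤ × ℤ), (∀ e ∈ Λ, ω e = ω' e) → F (dbl ω) = F (dbl ω') :=
    fun ω ω' h => hF _ _ fun e he => by
      funext b
      exact h e he
  refine eq_of_forall_dist_le fun ε hε => ?_
  obtain ⟨N, hN⟩ := hom.std ⟨∅, F⟩ hloc (ε / 3) (by positivity)
  obtain ⟨q1, h1⟩ := hT Λ (fun ω => (F (dbl ω)).re) (fun ω ω' h => by rw [hd ω ω' h]) (ε / 3)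
    (by positivity)
  obtain ⟨q2, h2⟩ := hT Λ (fun ω => (F (dbl ω)).im) (fun ω ω' h => by rw [hd ω ω' h]) (ε / 3)
    (by positivity)
  set l := max (max q1 q2) N with hl
  obtain ⟨M0, hM0⟩ := eventually_atTop.1 ((h1 l (by omega)).and (h2 l (by omega)))
  set M : ℕ := 2 * (M0 + N) + 1 with hM
  have a1 := (hM0 M (by omega)).1
  have a2 := (hM0 M (by omega)).2
  have a3 := hN (M + 1) (2 * (l + 1)) ⟨M0 + N + 1, by omega⟩ ⟨l + 1, by ring⟩ (by omega)
    (by omega)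
  rw [tv_empty] at a3
  set R := ∫ ω, (F (dbl ω)).re ∂P
  set I := ∫ ω, (F (dbl ω)).im ∂P
  set r := torU c (M + 1) (2 * (l + 1)) (fun ω => (F (dbl ω)).re)
  set i := torU c (M + 1) (2 * (l + 1)) (fun ω => (F (dbl ω)).im)
  rw [dist_eq_norm]
  have e : om ⟨∅, F⟩ - ((R : ℂ) + (I : ℂ) * Complex.I) =
      -(((r : ℂ) + (i : ℂ) * Complex.I) - om ⟨∅, F⟩) +
        (((r - R : ℝ) : ℂ) + ((i - I : ℝ) : ℂ) * Complex.I) := by
    push_cast
    ring
  rw [e]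
  calc _ ≤ ‖-(((r : ℂ) + (i : ℂ) * Complex.I) - om ⟨∅, F⟩)‖ +
        (‖((r - R : ℝ) : ℂ)‖ + ‖((i - I : ℝ) : ℂ) * Complex.I‖) :=
        (norm_add_le _ _).trans (add_le_add le_rfl (norm_add_le _ _))
    _ ≤ ε / 3 + (ε / 3 + ε / 3) := by
        rw [norm_neg, norm_mul, Complex.norm_I, mul_one, Complex.norm_real, Complex.norm_real]
        exact add_le_add a3 (add_le_add a1 a2)
    _ = ε := by ring

/-- Reflection of the half arrows in the face row `m`. -/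
def RYh (m : ℤ) (ω : HO (ℤ × ℤ)) : HO (ℤ × ℤ) := fun e b =>
  match e with
  | Sum.inl v => !(ω (Sum.inl (v.1, 2 * m - v.2 + 1)) b)
  | Sum.inr v => ω (Sum.inr (v.1, 2 * m - v.2)) (!b)

lemma RYh_dbl (m : ℤ) (ω : Ori (ℤ × ℤ)) : RYh m (dbl ω) = dbl (RY m ω) := by
  funext e b
  rcases e with v | v <;> rfl

/-- The centre of the legs, as a function of the half arrows. -/
noncomputable def YI (E : Finset (Edge (ℤ × ℤ))) (A B : Edge (ℤ × ℤ) → Bool → ℝ) (α : ℝ)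
    (ω : HO (ℤ × ℤ)) : ℂ := phF E A ω * (phF E B ω - α)

/-- Total flow through an edge. -/
def tot (A : Edge (ℤ × ℤ) → Bool → ℝ) (e : Edge (ℤ × ℤ)) : ℝ := A e false + A e true

lemma phF_dbl (E : Finset (Edge (ℤ × ℤ))) (A : Edge (ℤ × ℤ) → Bool → ℝ) (ω : Ori (ℤ × ℤ)) :
    phF E A (dbl ω) = Complex.exp (Complex.I * (ph E (tot A) ω : ℂ)) := by
  unfold phF ph
  congr 3
  refine sum_congr rfl fun e _ => ?_
  rw [Fintype.sum_bool]
  unfold dbl tot Vale.Agent.P167.H685.sgb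
  ring

lemma YI_dbl (E : Finset (Edge (ℤ × ℤ))) (A B : Edge (ℤ × ℤ) → Bool → ℝ) (α : ℝ)
    (ω : Ori (ℤ × ℤ)) : YI E A B α (dbl ω) = Yf E (tot A) (tot B) α ω := by
  rw [YI, phF_dbl, phF_dbl, Yf]

lemma YI_local (E : Finset (Edge (ℤ × ℤ))) (A B : Edge (ℤ × ℤ) → Bool → ℝ) (α : ℝ)
    (ω ω' : HO (ℤ × ℤ)) (h : ∀ e ∈ E, ω e = ω' e) : YI E A B α ω = YI E A B α ω' := by
  have : ∀ A : Edge (ℤ × ℤ) → Bool → ℝ, phF E A ω = phF E A ω' := by
    intro A
    unfold phF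
    congr 3
    refine sum_congr rfl fun e he => ?_
    rw [h e he]
  rw [YI, YI, this, this]

/-- The edges which are mapped to `E` by the reflection. -/
def ρYe (m : ℤ) : Edge (ℤ × ℤ) → Edge (ℤ × ℤ)
  | Sum.inl v => Sum.inl (v.1, 2 * m - v.2 + 1)
  | Sum.inr v => Sum.inr (v.1, 2 * m - v.2)

/-- The plane measure at `c = √3`, with all that is used here. -/
theorem exists_plane : ∃ P : Measure (Ori (ℤ × ℤ)), IsProbabilityMeasure P ∧ TorI (√3) P ∧
    (∀ᵐ ω ∂P, ∃ h, IsHeight ω h) ∧ (∀ᵐ ω ∂P, ∀ x y, Ice ω x y) ∧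
    (∃ C : ℝ, 0 ≤ C ∧ GD P C) ∧ SliceCLT P (3 / Real.pi) := by
  have hpi := Real.pi_pos
  set l : ℝ := Real.pi / 3 with hl0
  have h0 : 0 < l := by positivity
  have hl : l < Real.pi / 2 := by linarith
  have hc0 : 0 < 2 * Real.cos (l / 2) := Vale.Agent.P152.GFF.V3.cos_half_pos h0 (by linarith)
  have hcl : 0 < Real.cos l := Real.cos_pos_of_mem_Ioo ⟨by linarith, hl⟩
  have hc2 : 2 < (2 * Real.cos (l / 2)) ^ 2 := by
    have h2 : Real.cos l = 2 * Real.cos (l / 2) ^ 2 - 1 := by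
      rw [← Real.cos_two_mul]; congr 1; ring
    nlinarith
  have hcle : 2 * Real.cos (l / 2) ≤ 2 := by linarith [Real.cos_le_one (l / 2)]
  have hT : Vale.Agent.P152.GFF.V5.BTr (2 * Real.cos (l / 2)) :=
    bTr_hi Vale.Agent.P152.GFF.V2C.normT h0 hl.le
  have hloc : Vale.Agent.P152.GFF.V6.St_loc l := by
    obtain ⟨C0, hC0⟩ := hT
    exact Vale.Agent.P152.GFF.V6.st_loc_hi h0 hl (C0 := C0) hC0
  obtain ⟨P, hP, hR, hch, -⟩ := hi_all hc0 hc2 hcle
  have := hP.prob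
  obtain ⟨κ, hκ, hS, hV⟩ := gen_slice hc0 hP hch stWeak
  have hle := Vale.Agent.P152.GFF.V5.kap_le h0 (by linarith)
    (Vale.Agent.P152.GFF.V3.secLim_lo h0 hl.le) (Vale.Agent.P152.GFF.V3.dblLim_lo h0 hl.le) hT hP
    hκ hS
  have hge := Vale.Agent.P152.GFF.V6.kap_ge h0 hl.le hP
    (Vale.Agent.P152.GFF.V6.chE_hi h0 hl hP hR) hV hloc
  have hκ' : κ = 2 / (Real.pi - l) := le_antisymm hle hge
  obtain ⟨hsub, hice⟩ := hP.ice
  have e3 : 2 * Real.cos (l / 2) = √3 := by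
    rw [hl0, show Real.pi / 3 / 2 = Real.pi / 6 by ring, Real.cos_pi_div_six]
    ring
  have ek : κ = 3 / Real.pi := by
    rw [hκ', hl0]
    field_simp
    ring
  refine ⟨P, hP.prob, ?_, Vale.Agent.P152.exists_height_ae hsub, hice, hP.gd, ?_⟩
  · rw [← e3]
    exact hP.tor
  · rw [← ek]
    exact hS

lemma ph_meas (E : Finset (Edge (ℤ × ℤ))) (a : Edge (ℤ × ℤ) → ℝ) : Measurable (ph E a) := by
  unfold ph
  refine Finset.measurable_sum _ fun e _ => Measurable.const_mul ?_ _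
  exact (measurable_of_countable Vale.Agent.P167.H685.sgb).comp (measurable_pi_apply e)

lemma Yf_meas (E : Finset (Edge (ℤ × ℤ))) (a b : Edge (ℤ × ℤ) → ℝ) (α : ℝ) :
    Measurable (Yf E a b α) := by
  unfold Yf
  have h1 := ph_meas E a
  have h2 := ph_meas E b
  fun_prop

lemma Yf_le (E : Finset (Edge (ℤ × ℤ))) (a b : Edge (ℤ × ℤ) → ℝ) (α : ℝ)
    (ω : Ori (ℤ × ℤ)) : ‖Yf E a b α ω‖ ≤ 1 + |α| := by
  have h1 : ∀ x : ℝ, ‖Complex.exp (Complex.I * (x : ℂ))‖ = 1 := fun x => by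
    rw [mul_comm, Complex.norm_exp_ofReal_mul_I]
  unfold Yf
  rw [norm_mul, h1, one_mul]
  refine (norm_sub_le _ _).trans ?_
  rw [h1, Complex.norm_real, Real.norm_eq_abs]

/-- **Block YG.** The reflection norm of the centre of the legs tends to zero. -/
theorem yg_om {om : Ins → ℂ} (hom : IsOm (√3) om) {g ψ : ℝ × ℝ → ℝ}
    (hg : Test g) (hψ : ContDiff ℝ ((⊤ : ℕ∞) : WithTop ℕ∞) ψ) (cψ : HasCompactSupport ψ)
    {yb y' : ℝ} (hgs : ∀ x, g x ≠ 0 → yb ≤ x.2) (hψs : ∀ x, ψ x ≠ 0 → yb ≤ x.2)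
    (hy' : y' < yb) (s : ℝ) {m : ℕ → ℤ} {δ : ℕ → ℝ} (hδ : Tendsto δ atTop (𝓝[>] 0))
    (hm : Tendsto (fun n => (m n : ℝ) * δ n) atTop (𝓝 y'))
    {E : ℕ → Finset (Edge (ℤ × ℤ))} {A B : ℕ → Edge (ℤ × ℤ) → Bool → ℝ}
    (hA : ∀ n, ∀ e ∉ E n, tot (A n) e = 0) (hB : ∀ n, ∀ e ∉ E n, tot (B n) e = 0)
    (dA : ∀ n v, dv (tot (A n)) v = fc g (δ n) v)
    (dB : ∀ n v, dv (tot (B n)) v = s * fc (Lp ψ) (δ n) v) :
    Tendsto (fun n => om ⟨∅, fun ω => YI (E n) (A n) (B n) (al (3 / Real.pi) s g ψ) ω *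
      (starRingEnd ℂ) (YI (E n) (A n) (B n) (al (3 / Real.pi) s g ψ) (RYh (m n) ω))⟩)
      atTop (𝓝 0) := by
  classical
  obtain ⟨P, hP, hT, hex, hice, ⟨C, hC, hGD⟩, hS⟩ := exists_plane
  have key := yg_plane hC hGD hice hS hex hg hψ cψ hgs hψs hy' s hδ hm hA hB dA dB
  refine key.congr fun n => ?_
  set α := al (3 / Real.pi) s g ψ
  set F : HO (ℤ × ℤ) → ℂ := fun ω => YI (E n) (A n) (B n) α ω *
    (starRingEnd ℂ) (YI (E n) (A n) (B n) α (RYh (m n) ω)) with hF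
  have hloc : ∀ ω ω' : HO (ℤ × ℤ), (∀ e ∈ E n ∪ (E n).image (ρYe (m n)), ω e = ω' e) →
      F ω = F ω' := by
    intro ω ω' h
    simp only [hF]
    rw [YI_local (E n) (A n) (B n) α ω ω' fun e he => h e (mem_union_left _ he),
      YI_local (E n) (A n) (B n) α (RYh (m n) ω) (RYh (m n) ω') fun e he => ?_]
    have h1 := h _ (mem_union_right _ (mem_image_of_mem (ρYe (m n)) he))
    funext b
    rcases e with v | v
    · show (!(ω (Sum.inl (v.1, 2 * m n - v.2 + 1)) b)) =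
        !(ω' (Sum.inl (v.1, 2 * m n - v.2 + 1)) b)
      have h2 : ω (Sum.inl (v.1, 2 * m n - v.2 + 1)) = ω' (Sum.inl (v.1, 2 * m n - v.2 + 1)) := h1
      rw [h2]
    · show ω (Sum.inr (v.1, 2 * m n - v.2)) (!b) = ω' (Sum.inr (v.1, 2 * m n - v.2)) (!b)
      have h2 : ω (Sum.inr (v.1, 2 * m n - v.2)) = ω' (Sum.inr (v.1, 2 * m n - v.2)) := h1
      rw [h2]
  rw [om_eq hom hT hloc]
  have hFd : ∀ ω : Ori (ℤ × ℤ), F (dbl ω) = Yf (E n) (tot (A n)) (tot (B n)) α ω *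
      (starRingEnd ℂ) (Yf (E n) (tot (A n)) (tot (B n)) α (RY (m n) ω)) := by
    intro ω
    simp only [hF]
    rw [YI_dbl, RYh_dbl, YI_dbl]
  simp only [hFd]
  have hm : Integrable (fun ω => Yf (E n) (tot (A n)) (tot (B n)) α ω *
      (starRingEnd ℂ) (Yf (E n) (tot (A n)) (tot (B n)) α (RY (m n) ω))) P := by
    have h1 : Measurable (Yf (E n) (tot (A n)) (tot (B n)) α) := Yf_meas _ _ _ _
    have h2 : Measurable (RY (m n)) := (Vale.Agent.P167.H825.aY_good).meas (m n)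
    refine Integrable.of_bound (C := (1 + |α|) * (1 + |α|))
      (h1.mul (Complex.continuous_conj.measurable.comp (h1.comp h2))).aestronglyMeasurable
      (Eventually.of_forall fun ω => ?_)
    rw [norm_mul, RCLike.norm_conj]
    exact mul_le_mul (Yf_le _ _ _ _ _) (Yf_le _ _ _ _ _) (norm_nonneg _) (by positivity)
  exact (integral_re_add_im hm).symm

end Vale.Agent.P167.H638.YG
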